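import Mathlib
import Crest.Agent.R187.SN.SemiRel

-- ▼ part R187/SN/Coxeter
section

/-!
Coxeter presentation of the symmetric group `Perm (Fin (n+1))` (existence part):
a family `f 0, …, f (n-1)` in a monoid `H` satisfying the Coxeter relations of type `A_n`
extends to a monoid homomorphism `Perm (Fin (n+1)) →* H`.
-/

namespace Crest.Agent.R187.SN.Cox

open Equiv Equiv.Perm

variable {H : Type*} [Monoid H]

/-- `C f k = f (k-1) * ... * f 1 * f 0`. -/
def C (f : ℕ → H) : ℕ → H
  | 0 => 1
  | k + 1 => f k * C f k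

/-- The Coxeter relations of type `A_n` for `f 0, ..., f (n-1)`. -/
structure Rel (n : ℕ) (f : ℕ → H) : Prop where
  sq : ∀ i, i < n → f i * f i = 1
  braid : ∀ i, i + 1 < n → f i * f (i + 1) * f i = f (i + 1) * f i * f (i + 1)
  comm : ∀ i j, i + 1 < j → j < n → f i * f j = f j * f i

theorem Rel.shift {n : ℕ} {f : ℕ → H} (h : Rel (n + 1) f) : Rel n (fun i => f (i + 1)) where
  sq i hi := h.sq (i + 1) (by omega)
  braid i hi := h.braid (i + 1) (by omega)
  comm i j hi hj := h.comm (i + 1) (j + 1) (by omega) (by omega)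

theorem comm_C {n : ℕ} {f : ℕ → H} (h : Rel n f) (i : ℕ) (hi : i < n) :
    ∀ p, p < i → f i * C f p = C f p * f i
  | 0, _ => by simp [C]
  | p + 1, hp => by
    have ih := comm_C h i hi p (by omega)
    rw [C, ← mul_assoc, ← h.comm p i (by omega) hi, mul_assoc, ih, mul_assoc]

theorem near_C {n : ℕ} {f : ℕ → H} (h : Rel n f) (i : ℕ) :
    ∀ m, i + 1 + m < n → f i * C f (i + 2 + m) = C f (i + 2 + m) * f (i + 1)
  | 0, hm => by
    have e1 := comm_C h (i + 1) (by omega) i (by omega)
    show f i * (f (i + 1) * (f i * C f i)) = (f (i + 1) * (f i * C f i)) * f (i + 1)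
    rw [← mul_assoc (f i) (f (i+1)), ← mul_assoc, h.braid i (by omega), mul_assoc (f (i+1) * f i),
      e1, mul_assoc, mul_assoc, mul_assoc]
  | m + 1, hm => by
    have ih := near_C h i m (by omega)
    have e : i + 2 + (m + 1) = (i + 2 + m) + 1 := by omega
    rw [e, C, ← mul_assoc, h.comm i (i + 2 + m) (by omega) (by omega), mul_assoc, ih, mul_assoc]

/-- adjacent transpositions of `Fin (n+1)` indexed by `ℕ`. -/
def s (n : ℕ) (k : ℕ) : Perm (Fin (n + 1)) :=
  if h : k < n then swap ⟨k, by omega⟩ ⟨k + 1, by omega⟩ else 1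

theorem s_eq (n : ℕ) (i : Fin n) : s n i = swap i.castSucc i.succ := by
  simp only [s, i.isLt, dite_true]
  rfl

theorem rel_s (n : ℕ) : Rel n (s n) where
  sq i hi := by simp [s, hi]
  braid i hi := by
    have h1 : i < n := by omega
    simp only [s, h1, hi, dite_true]
    set a : Fin (n + 1) := ⟨i, by omega⟩
    set b : Fin (n + 1) := ⟨i + 1, by omega⟩
    set c : Fin (n + 1) := ⟨i + 1 + 1, by omega⟩
    have hab : a ≠ b := by simp [a, b, Fin.ext_iff]
    have hac : a ≠ c := by simp only [a, c, ne_eq, Fin.ext_iff]; omega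
    have hbc : b ≠ c := by simp [b, c, Fin.ext_iff]
    rw [swap_mul_swap_mul_swap hab hac, swap_comm a b, swap_comm b c,
      swap_mul_swap_mul_swap hbc.symm hac.symm, swap_comm]
  comm i j hi hj := by
    have h1 : i < n := by omega
    simp only [s, h1, hj, dite_true]
    apply Perm.Disjoint.commute
    intro x
    by_cases hx : x.val = j ∨ x.val = j + 1
    · left
      apply swap_apply_of_ne_of_ne
      · intro h
        rw [h] at hx
        simp only at hx
        omega
      · intro h
        rw [h] at hx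
        simp only at hx
        omega
    · right
      apply swap_apply_of_ne_of_ne
      · intro h
        apply hx
        rw [h]
        simp
      · intro h
        apply hx
        rw [h]
        simp

theorem C_s_zero (n : ℕ) : ∀ p, (hp : p ≤ n) → C (s n) p 0 = ⟨p, by omega⟩
  | 0, _ => by simp [C]
  | p + 1, hp => by
    have ih := C_s_zero n p (by omega)
    have h1 : p < n := by omega
    simp only [C, Perm.coe_mul, Function.comp_apply, ih, s, h1, dite_true, swap_apply_left]

/-- extension of a permutation of `Fin n` to `Fin (n+1)` fixing `0`. -/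
def iota (n : ℕ) : Perm (Fin n) →* Perm (Fin (n + 1)) where
  toFun e := decomposeFin.symm (0, e)
  map_one' := by
    ext x
    refine Fin.cases ?_ (fun i => ?_) x <;> simp
  map_mul' a b := by
    ext x
    refine Fin.cases ?_ (fun i => ?_) x <;> simp

theorem iota_zero (n : ℕ) (e : Perm (Fin n)) : iota n e 0 = 0 := by
  simp [iota]

theorem iota_succ (n : ℕ) (e : Perm (Fin n)) (i : Fin n) : iota n e i.succ = (e i).succ := by
  simp [iota]

theorem iota_s (n k : ℕ) (hk : k < n) : iota (n + 1) (s n k) = s (n + 1) (k + 1) := by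
  ext x
  refine Fin.cases ?_ (fun i => ?_) x
  · rw [iota_zero]
    simp only [s, Nat.add_lt_add_iff_right, hk, dite_true, swap_apply_def]
    simp [Fin.ext_iff]
  · rw [iota_succ]
    simp only [s, Nat.add_lt_add_iff_right, hk, dite_true, swap_apply_def, Fin.ext_iff,
      Fin.val_succ]
    split_ifs <;> simp_all

theorem exists_iota (n : ℕ) (σ : Perm (Fin (n + 1))) (h : σ 0 = 0) : ∃ e, iota n e = σ := by
  refine ⟨(decomposeFin σ).2, ?_⟩
  have h1 : (decomposeFin σ).1 = 0 := by
    have : decomposeFin.symm (decomposeFin σ) 0 = (decomposeFin σ).1 :=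
      decomposeFin_symm_apply_zero _ _
    rw [Equiv.symm_apply_apply] at this
    rw [← this, h]
  show decomposeFin.symm (0, (decomposeFin σ).2) = σ
  rw [← h1]
  exact Equiv.symm_apply_apply _ _

theorem iota_injective (n : ℕ) : Function.Injective (iota n) := by
  intro a b h
  have := decomposeFin.symm.injective h
  exact (Prod.mk.inj this).2

/-- Coxeter presentation of `Perm (Fin (n+1))`, `ℕ`-indexed version. -/
theorem exists_hom_nat (n : ℕ) : ∀ (f : ℕ → H), Rel n f →
    ∃ φ : Perm (Fin (n + 1)) →* H, ∀ i, i < n → φ (s n i) = f i := by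
  induction n with
  | zero =>
    intro f _
    exact ⟨1, fun i hi => absurd hi (by omega)⟩
  | succ n ih =>
    intro f hf
    obtain ⟨φ', hφ'⟩ := ih _ hf.shift
    -- every permutation is `c_p * iota e`
    have ex : ∀ σ : Perm (Fin (n + 2)), ∃ e : Perm (Fin (n + 1)),
        C (s (n + 1)) (σ 0 : ℕ) * iota (n + 1) e = σ := by
      intro σ
      obtain ⟨e, he⟩ := exists_iota (n + 1) ((C (s (n + 1)) (σ 0 : ℕ))⁻¹ * σ) (by
        rw [Perm.mul_apply, Perm.inv_eq_iff_eq]
        rw [C_s_zero (n + 1) (σ 0 : ℕ) (by have := (σ 0).isLt; omega)])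
      exact ⟨e, by rw [he]; group⟩
    choose E hE using ex
    let F : Perm (Fin (n + 2)) → H := fun σ => C f (σ 0 : ℕ) * φ' (E σ)
    have hF : ∀ (p : ℕ) (hp : p ≤ n + 1) (e : Perm (Fin (n + 1))),
        F (C (s (n + 1)) p * iota (n + 1) e) = C f p * φ' e := by
      intro p hp e
      have h0 : (C (s (n + 1)) p * iota (n + 1) e) 0 = ⟨p, by omega⟩ := by
        rw [Perm.mul_apply, iota_zero, C_s_zero _ _ hp]
      have h1 := hE (C (s (n + 1)) p * iota (n + 1) e)
      rw [h0] at h1
      have h2 := iota_injective _ (mul_left_cancel h1)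
      show C f _ * φ' _ = _
      rw [h0, h2]
    have key : ∀ (i : ℕ), i < n + 1 → ∀ σ, F (s (n + 1) i * σ) = f i * F σ := by
      intro i hi σ
      obtain ⟨p, hp, e, rfl⟩ : ∃ p, ∃ _ : p ≤ n + 1, ∃ e,
          C (s (n + 1)) p * iota (n + 1) e = σ :=
        ⟨(σ 0 : ℕ), by have := (σ 0).isLt; omega, E σ, hE σ⟩
      rw [hF p hp e]
      rcases lt_trichotomy p i with hlt | heq | hgt
      · -- p < i
        obtain ⟨j, rfl⟩ : ∃ j, i = j + 1 := ⟨i - 1, by omega⟩
        rw [← mul_assoc, comm_C (rel_s (n + 1)) (j + 1) hi p hlt, mul_assoc,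
          ← iota_s n j (by omega), ← map_mul, hF p hp, map_mul, hφ' j (by omega),
          ← mul_assoc, ← mul_assoc, comm_C hf (j + 1) hi p hlt]
      · subst heq
        have : s (n + 1) p * (C (s (n + 1)) p * iota (n + 1) e)
            = C (s (n + 1)) (p + 1) * iota (n + 1) e := by
          rw [C, mul_assoc]
        rw [this, hF (p + 1) (by omega), C, mul_assoc]
      · rcases Nat.lt_or_ge (i + 1) p with h2 | h2
        · -- p > i + 1
          obtain ⟨m, rfl⟩ : ∃ m, p = i + 2 + m := ⟨p - (i + 2), by omega⟩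
          rw [← mul_assoc, near_C (rel_s (n + 1)) i m (by omega), mul_assoc,
            ← iota_s n i (by omega), ← map_mul, hF _ hp, map_mul, hφ' i (by omega),
            ← mul_assoc, ← mul_assoc, near_C hf i m (by omega)]
        · obtain rfl : p = i + 1 := by omega
          have : s (n + 1) i * (C (s (n + 1)) (i + 1) * iota (n + 1) e)
              = C (s (n + 1)) i * iota (n + 1) e := by
            rw [C, ← mul_assoc, ← mul_assoc, (rel_s (n + 1)).sq i hi, one_mul]
          rw [this, hF i (by omega), C, mul_assoc, ← mul_assoc (f i) (f i), hf.sq i hi, one_mul]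
    have F1 : F 1 = 1 := by
      have := hF 0 (by omega) 1
      simpa [C] using this
    have Fmul : ∀ σ τ, F (σ * τ) = F σ * F τ := by
      intro σ τ
      have hmem : σ ∈ Submonoid.closure
          (Set.range fun i : Fin (n + 1) ↦ swap i.castSucc i.succ) := by
        rw [mclosure_swap_castSucc_succ]; trivial
      induction hmem using Submonoid.closure_induction_left with
      | one => rw [one_mul, F1, one_mul]
      | mul_left x hx y hy ih' =>
        obtain ⟨i, rfl⟩ := hx
        simp only
        rw [← s_eq, mul_assoc, key i i.isLt, ih', key i i.isLt y, mul_assoc (f i)]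
    refine ⟨⟨⟨F, F1⟩, Fmul⟩, fun i hi => ?_⟩
    have := key i hi 1
    rw [mul_one, F1, mul_one] at this
    exact this



end Crest.Agent.R187.SN.Cox
private theorem rz_1335d5624a : type_of% @_root_.Crest.Agent.R187.SN.Cox.C.eq_def := @_root_.Crest.Agent.R187.SN.Cox.C.eq_def -- L16
private theorem rz_48c7ddadb8 : type_of% @_root_.Crest.Agent.R187.SN.Cox.C.eq_1 := @_root_.Crest.Agent.R187.SN.Cox.C.eq_1 -- L16
end

-- ▼ part R187/SN/Jucys

/-!
# Row 187, PLAN S, block (A2)/(A3): the modules and the Jucys–Murphy elements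
-/

set_option autoImplicit false

namespace Crest.Agent.R187.SN

variable {r : ℕ} {K : Type*} [Field K]

/-! ### append rules -/

lemma T_append_left (κ : Fin r → ℕ) (i : ℕ) (f : List (Fin r) → K) (x y : List (Fin r))
    (h : i + 1 < x.length) :
    T κ i f (x ++ y) = T κ i (fun u => f (u ++ y)) x := by
  induction i generalizing κ f x with
  | zero =>
    rcases x with _ | ⟨a, _ | ⟨b, t⟩⟩
    · simp at h
    · simp at h
    · by_cases hab : a = b
      · subst hab
        rw [T_zero_eq, List.cons_append, List.cons_append, T_zero_eq]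
      · rw [T_zero_ne κ _ hab, List.cons_append, List.cons_append, T_zero_ne κ _ hab]
        rfl
  | succ i ih =>
    rcases x with _ | ⟨a, t⟩
    · simp at h
    · rw [List.cons_append, T_succ, T_succ, ih _ _ _ (by simpa using h)]
      rfl

lemma T_append_right (κ : Fin r → ℕ) (j : ℕ) (f : List (Fin r) → K) (x y : List (Fin r)) :
    T κ (x.length + j) f (x ++ y) = T (sh κ x) j (fun u => f (x ++ u)) y := by
  induction x generalizing κ f with
  | nil => simp [sh]
  | cons a t ih =>
    have h1 : (a :: t).length + j = (t.length + j) + 1 := by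
      simp only [List.length_cons]; omega
    rw [h1, List.cons_append, T_succ, ih]
    rfl

/-! ### contents of the letters of a word -/

/-- content of the `t`-th box -/
def cn : (Fin r → ℕ) → List (Fin r) → ℕ → ℤ
  | κ, a :: _, 0 => ct κ a
  | κ, a :: w, t + 1 => cn (add κ a) w t
  | _, [], _ => 0

lemma loc (κ : Fin r → ℕ) (t : ℕ) (w : List (Fin r)) (h : t + 1 < w.length) :
    (coA K κ t w = 1 ∧ coC K κ t w = 0 ∧ cn κ w (t + 1) = cn κ w t + 1) ∨
    (coA K κ t w = (((cn κ w (t + 1) - cn κ w t : ℤ) : K))⁻¹ ∧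
      coC K κ t w = 1 - (((cn κ w (t + 1) - cn κ w t : ℤ) : K))⁻¹ ∧
      coA K κ t (sw t w) = (((cn κ w t - cn κ w (t + 1) : ℤ) : K))⁻¹ ∧
      coC K κ t (sw t w) = 1 - (((cn κ w t - cn κ w (t + 1) : ℤ) : K))⁻¹ ∧
      cn κ (sw t w) t = cn κ w (t + 1) ∧ cn κ (sw t w) (t + 1) = cn κ w t ∧
      (Antitone (sh κ (w.take t)) → cn κ w (t + 1) - cn κ w t ≠ 0)) := by
  induction t generalizing κ w with
  | zero =>
    rcases w with _ | ⟨a, _ | ⟨b, u⟩⟩
    · simp at h
    · simp at h
    · by_cases hab : a = b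
      · subst hab
        left
        simp [coA, coC, cn, ct_add_same]
      · right
        have hba : b ≠ a := Ne.symm hab
        simp only [coA, coC, cn, sw, if_neg hab, if_neg hba, ct_add_ne κ hba, ct_add_ne κ hab,
          List.take_zero, sh, true_and]
        exact fun hκ => ct_ne hκ hab
  | succ t ih =>
    rcases w with _ | ⟨a, u⟩
    · simp at h
    · have := ih (add κ a) u (by simpa using h)
      simpa only [coA, coC, cn, sw, List.take_succ_cons, sh] using this

lemma abs_cn_sub {B : ℕ} {κ : Fin r → ℕ} {n : ℕ} (hB : Bd B κ n) {w : List (Fin r)}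
    (hl : w.length = n) {s t : ℕ} (hs : s < n) (ht : t < n) :
    |cn κ w s - cn κ w t| < B := by
  -- contents lie in (-r, max κ + n)
  have key : ∀ (w : List (Fin r)) (κ : Fin r → ℕ) (n : ℕ), Bd B κ n → w.length = n → ∀ t < n,
      -(r : ℤ) < cn κ w t ∧ cn κ w t + r < B := by
    intro w
    induction w with
    | nil =>
      intro κ n _ hl t ht
      simp at hl
      omega
    | cons a w ih =>
      intro κ n hB hl t ht
      obtain ⟨n, rfl⟩ : ∃ n', n = n' + 1 := ⟨n - 1, by omega⟩
      rcases t with _ | t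
      · simp only [cn, ct]
        have h1 := hB a
        have h2 := a.2
        constructor <;> omega
      · simp only [cn]
        exact ih (add κ a) n (hB.add a) (by simpa using hl) t (by omega)
  have h1 := key w κ n hB hl s hs
  have h2 := key w κ n hB hl t ht
  rw [abs_lt]
  constructor <;> omega

/-! ### the modules -/

/-- the operators on `V` -/
def TV (κ : Fin r → ℕ) (n i : ℕ) : Module.End K (V K κ n) :=
  (T κ i).restrict (fun _ hf => T_mem i hf)

@[simp] lemma TV_coe (κ : Fin r → ℕ) (n i : ℕ) (f : V K κ n) :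
    ((TV κ n i f : V K κ n) : List (Fin r) → K) = T κ i f := rfl

theorem rel_TV {B : ℕ} (hK : HK K B) {κ : Fin r → ℕ} {n : ℕ} (hB : Bd B κ (n + 1)) :
    Cox.Rel n (TV (K := K) κ (n + 1)) where
  sq i _ := by
    ext1 f
    apply Subtype.ext
    exact T_sq hK i hB f.2
  braid i hi := by
    ext1 f
    apply Subtype.ext
    exact T_braid hK i hB (by omega) f.2
  comm i j hi _ := by
    ext1 f
    apply Subtype.ext
    exact T_comm i j hi κ _

/-- the representation of the symmetric group on `V κ (n+1)` -/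
noncomputable def rho {B : ℕ} (hK : HK K B) {κ : Fin r → ℕ} {n : ℕ} (hB : Bd B κ (n + 1)) :
    Equiv.Perm (Fin (n + 1)) →* Module.End K (V K κ (n + 1)) :=
  Classical.choose (Cox.exists_hom_nat n _ (rel_TV hK hB))

theorem rho_s {B : ℕ} (hK : HK K B) {κ : Fin r → ℕ} {n : ℕ} (hB : Bd B κ (n + 1)) (i : ℕ)
    (hi : i < n) : rho hK hB (Cox.s n i) = TV κ (n + 1) i :=
  Classical.choose_spec (Cox.exists_hom_nat n _ (rel_TV hK hB)) i hi

/-- the representation of the group algebra -/
noncomputable def rhoA {B : ℕ} (hK : HK K B) {κ : Fin r → ℕ} {n : ℕ} (hB : Bd B κ (n + 1)) :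
    MonoidAlgebra K (Equiv.Perm (Fin (n + 1))) →ₐ[K] Module.End K (V K κ (n + 1)) :=
  MonoidAlgebra.lift K _ _ (rho hK hB)

@[simp] theorem rhoA_of {B : ℕ} (hK : HK K B) {κ : Fin r → ℕ} {n : ℕ} (hB : Bd B κ (n + 1))
    (g : Equiv.Perm (Fin (n + 1))) : rhoA hK hB (MonoidAlgebra.of K _ g) = rho hK hB g := by
  unfold rhoA
  rw [MonoidAlgebra.lift_of]

/-! ### Jucys–Murphy elements -/

/-- Jucys–Murphy elements of a family -/
def JM {A : Type*} [Semiring A] (f : ℕ → A) : ℕ → A
  | 0 => 0
  | t + 1 => f t * JM f t * f t + f t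

lemma cn_zero_eq {κ : Fin r → ℕ} (hκ : κ = 0) {w : List (Fin r)} (hw : Lat κ w) :
    cn κ w 0 = 0 := by
  subst hκ
  rcases w with _ | ⟨a, t⟩
  · rfl
  · simp only [cn, ct, Pi.zero_apply]
    have h1 : Antitone (add (0 : Fin r → ℕ) a) := hw.2.anti
    by_contra h
    have h2 : 0 < (a : ℕ) := by omega
    let z : Fin r := ⟨0, by omega⟩
    have hz : z < a := h2
    have h3 := h1 hz.le
    rw [add_same, add_ne _ hz.ne] at h3
    simp at h3

/-- **Jucys–Murphy elements act by contents** (empty start shape). -/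
theorem JM_TV {B : ℕ} (hK : HK K B) {n : ℕ} (hB : Bd B (0 : Fin r → ℕ) n) (t : ℕ) (ht : t < n)
    (f : V K (0 : Fin r → ℕ) n) (w : List (Fin r)) :
    (JM (TV (K := K) 0 n) t f : List (Fin r) → K) w = (cn 0 w t : K) * (f : List (Fin r) → K) w := by
  induction t generalizing f w with
  | zero =>
    by_cases hw : Lat 0 w ∧ w.length = n
    · rw [cn_zero_eq rfl hw.1]
      simp [JM]
    · rw [f.2 w hw, mul_zero]
      simp [JM]
  | succ t ih =>
    by_cases hw : Lat 0 w ∧ w.length = n
    swap
    · rw [f.2 w hw, mul_zero]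
      exact (JM (TV (K := K) 0 n) (t + 1) f).2 w hw
    have hih := ih (by omega) (TV 0 n t f)
    have e1 : (JM (TV (K := K) 0 n) (t + 1) f : List (Fin r) → K) w =
        coA K 0 t w * ((cn 0 w t : K) * (T 0 t f) w) +
          coC K 0 t w * ((cn 0 (sw t w) t : K) * (T 0 t f) (sw t w)) + (T 0 t f) w := by
      have h1 : (JM (TV (K := K) 0 n) (t + 1) f : List (Fin r) → K) w =
          (TV (K := K) 0 n t (JM (TV (K := K) 0 n) t (TV 0 n t f)) : List (Fin r) → K) w +
            (T 0 t f) w := rfl
      rw [h1, TV_coe, T_apply, hih w, hih (sw t w)]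
      rfl
    rw [e1, T_apply, T_apply, sw_sw]
    rcases loc (K := K) 0 t w (by omega) with ⟨h1, h2, h3⟩ | ⟨h1, h2, h3, h4, h5, h6, h7⟩
    · rw [h1, h2, h3]
      push_cast
      ring
    · have hlat : Antitone (sh (0 : Fin r → ℕ) (w.take t)) := by
        have h8 : Lat (0 : Fin r → ℕ) (w.take t ++ w.drop t) := by
          rw [List.take_append_drop]
          exact hw.1
        exact ((lat_append _ _ _).1 h8).1.sh_anti
      have h9 : (((cn 0 w (t + 1) - cn 0 w t : ℤ) : K)) ≠ 0 :=
        hK.int (h7 hlat) (abs_cn_sub hB hw.2 ht (by omega)).le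
      rw [h1, h2, h3, h4, h5]
      have e2 : (((cn 0 w t - cn 0 w (t + 1) : ℤ) : K)) =
          -(((cn 0 w (t + 1) - cn 0 w t : ℤ) : K)) := by push_cast; ring
      have e3 : ((cn 0 w (t + 1) : ℤ) : K) = ((cn 0 w (t + 1) - cn 0 w t : ℤ) : K) +
          (cn 0 w t : K) := by push_cast; ring
      rw [e2, e3]
      set d := (((cn 0 w (t + 1) - cn 0 w t : ℤ) : K))
      field_simp
      ring

end Crest.Agent.R187.SN
private theorem rz_217a603f29 : type_of% @_root_.Crest.Agent.R187.SN.JM.eq_def := @_root_.Crest.Agent.R187.SN.JM.eq_def -- L155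
private theorem rz_96ac99136f : type_of% @_root_.Crest.Agent.R187.SN.JM.eq_1 := @_root_.Crest.Agent.R187.SN.JM.eq_1 -- L155
private theorem rz_c01030475d : type_of% @_root_.Crest.Agent.R187.SN.cn.eq_def := @_root_.Crest.Agent.R187.SN.cn.eq_def -- L49
private theorem rz_c5500782f0 : type_of% @_root_.Crest.Agent.R187.SN.cn.eq_1 := @_root_.Crest.Agent.R187.SN.cn.eq_1 -- L49
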