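import Mathlib
import Crest.Agent.R187.SN.Jucys

-- ▼ part R187/SN/Density
section

/-!
# Row 187, PLAN S, block (A3): density and the dimension inequality
-/

set_option autoImplicit false

namespace Crest.Agent.R187.SN

open scoped Classical

variable {r : ℕ} {K : Type*} [Field K]

/-! ### the finite set of words -/

/-- all words of length `n` -/
noncomputable def words (r : ℕ) : ℕ → Finset (List (Fin r))
  | 0 => {[]}
  | n + 1 => Finset.univ.biUnion fun a : Fin r => (words r n).image (fun w => a :: w)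

lemma mem_words {n : ℕ} {w : List (Fin r)} : w ∈ words r n ↔ w.length = n := by
  induction n generalizing w with
  | zero => simp [words, List.length_eq_zero_iff]
  | succ n ih =>
    simp only [words, Finset.mem_biUnion, Finset.mem_univ, true_and, Finset.mem_image]
    constructor
    · rintro ⟨a, u, hu, rfl⟩
      simp [ih.1 hu]
    · intro h
      rcases w with _ | ⟨a, u⟩
      · simp at h
      · exact ⟨a, u, ih.2 (by simpa using h), rfl⟩

/-- lattice words of length `n` with final shape `lam` (empty start shape) -/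
noncomputable def LW (n : ℕ) (lam : Fin r → ℕ) : Finset (List (Fin r)) :=
  (words r n).filter (fun w => Lat 0 w ∧ sh 0 w = lam)

lemma mem_LW {n : ℕ} {lam : Fin r → ℕ} {w : List (Fin r)} :
    w ∈ LW n lam ↔ w.length = n ∧ Lat 0 w ∧ sh 0 w = lam := by
  unfold LW
  rw [Finset.mem_filter, mem_words]

/-- all lattice words of length `n` -/
noncomputable def LA (r n : ℕ) : Finset (List (Fin r)) := (words r n).filter (fun w => Lat 0 w)

lemma mem_LA {n : ℕ} {w : List (Fin r)} : w ∈ LA r n ↔ w.length = n ∧ Lat 0 w := by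
  unfold LA
  rw [Finset.mem_filter, mem_words]

/-! ### basis vectors -/

/-- basis vector -/
noncomputable def dl (K : Type*) [Field K] {n : ℕ} (w : List (Fin r)) (hw : w ∈ LA r n) :
    V K (0 : Fin r → ℕ) n :=
  ⟨fun u => if u = w then 1 else 0, by
    intro u hu
    change (if u = w then (1 : K) else 0) = 0
    rw [if_neg]
    rintro rfl
    rw [mem_LA] at hw
    exact hu ⟨hw.2, hw.1⟩⟩

lemma dl_apply {n : ℕ} (w : List (Fin r)) (hw : w ∈ LA r n) (u : List (Fin r)) :
    (dl K w hw : List (Fin r) → K) u = if u = w then 1 else 0 := rfl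

lemma V_eq_zero {n : ℕ} (f : V K (0 : Fin r → ℕ) n) {w : List (Fin r)} (hw : w ∉ LA r n) :
    (f : List (Fin r) → K) w = 0 := by
  apply f.2
  rintro ⟨h1, h2⟩
  exact hw (mem_LA.2 ⟨h2, h1⟩)

/-! ### images of Jucys–Murphy elements -/

lemma map_JM {A C : Type*} [Semiring A] [Semiring C] (φ : A →+* C) (f : ℕ → A) (t : ℕ) :
    φ (JM f t) = JM (fun i => φ (f i)) t := by
  induction t with
  | zero => simp [JM]
  | succ t ih => simp [JM, ih]

lemma JM_congr {A : Type*} [Semiring A] {f g : ℕ → A} (t : ℕ) (h : ∀ i < t, f i = g i) :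
    JM f t = JM g t := by
  induction t with
  | zero => rfl
  | succ t ih =>
    simp only [JM]
    rw [ih (fun i hi => h i (by omega)), h t (by omega)]

section main

variable {B n : ℕ} (hK : HK K B) (hB : Bd B (0 : Fin r → ℕ) (n + 1))

/-- functions which are realised as diagonal operators -/
def IsDiag (φ : List (Fin r) → K) : Prop :=
  ∃ y : MonoidAlgebra K (Equiv.Perm (Fin (n + 1))), ∀ (f : V K (0 : Fin r → ℕ) (n + 1))
    (w : List (Fin r)), (rhoA hK hB y f : List (Fin r) → K) w = φ w * (f : List (Fin r) → K) w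

lemma isDiag_mul {φ ψ : List (Fin r) → K} (h1 : IsDiag hK hB φ) (h2 : IsDiag hK hB ψ) :
    IsDiag hK hB (φ * ψ) := by
  obtain ⟨y, hy⟩ := h1
  obtain ⟨z, hz⟩ := h2
  refine ⟨y * z, fun f w => ?_⟩
  rw [map_mul, Module.End.mul_apply, hy, hz, Pi.mul_apply]
  ring

lemma isDiag_one : IsDiag hK hB (1 : List (Fin r) → K) := by
  refine ⟨1, fun f w => ?_⟩
  rw [map_one, Module.End.one_apply, Pi.one_apply, one_mul]

lemma isDiag_prod {ι : Type*} (s : Finset ι) (φ : ι → List (Fin r) → K)
    (h : ∀ i ∈ s, IsDiag hK hB (φ i)) : IsDiag hK hB (∏ i ∈ s, φ i) := by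
  induction s using Finset.induction_on with
  | empty => simpa using isDiag_one hK hB
  | insert a s ha ih =>
    rw [Finset.prod_insert ha]
    exact isDiag_mul hK hB (h a (Finset.mem_insert_self _ _))
      (ih fun i hi => h i (Finset.mem_insert_of_mem hi))

lemma isDiag_lin (t : ℕ) (ht : t < n + 1) (c e : K) :
    IsDiag hK hB (fun w => e * ((cn 0 w t : K) - c)) := by
  let s : ℕ → MonoidAlgebra K (Equiv.Perm (Fin (n + 1))) :=
    fun i => MonoidAlgebra.of K _ (Cox.s n i)
  refine ⟨e • (JM s t - c • 1), fun f w => ?_⟩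
  have h1 : rhoA hK hB (JM s t) = JM (TV (K := K) 0 (n + 1)) t := by
    have h2 := map_JM (rhoA hK hB).toRingHom s t
    have h3 : rhoA hK hB (JM s t) = JM (fun i => rhoA hK hB (s i)) t := h2
    rw [h3]
    apply JM_congr
    intro i hi
    change rhoA hK hB (MonoidAlgebra.of K _ (Cox.s n i)) = _
    rw [rhoA_of, rho_s hK hB i (by omega)]
  have h4 := JM_TV hK hB t ht f w
  rw [map_smul, map_sub, map_smul, map_one, h1]
  have h5 : (((e • (JM (TV (K := K) 0 (n + 1)) t - c • 1) :
      Module.End K (V K (0 : Fin r → ℕ) (n + 1))) f :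
      V K (0 : Fin r → ℕ) (n + 1)) : List (Fin r) → K) w =
      e * ((JM (TV (K := K) 0 (n + 1)) t f : List (Fin r) → K) w -
        c * (f : List (Fin r) → K) w) := rfl
  rw [h5, h4]
  ring

lemma cn_bounds {κ : Fin r → ℕ} {m : ℕ} (hB : Bd B κ m) {w : List (Fin r)}
    (hl : w.length = m) {t : ℕ} (ht : t < m) : -(r : ℤ) < cn κ w t ∧ cn κ w t + r < B := by
  induction w generalizing κ m t with
  | nil =>
    simp at hl
    omega
  | cons a w ih =>
    obtain ⟨m, rfl⟩ : ∃ m', m = m' + 1 := ⟨m - 1, by omega⟩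
    rcases t with _ | t
    · simp only [cn, ct]
      have h1 := hB a
      have h2 := a.2
      constructor <;> omega
    · simp only [cn]
      exact ih (hB.add a) (by simpa using hl) (by omega)

lemma separate {κ : Fin r → ℕ} {w v : List (Fin r)} (hw : Lat κ w) (hv : Lat κ v)
    (hl : w.length = v.length) (hne : w ≠ v) : ∃ t < w.length, cn κ w t ≠ cn κ v t := by
  induction w generalizing κ v with
  | nil =>
    exfalso
    apply hne
    simp at hl
    exact (List.length_eq_zero_iff.1 hl.symm).symm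
  | cons a w ih =>
    rcases v with _ | ⟨b, v⟩
    · simp at hl
    · by_cases hab : a = b
      · subst hab
        have hne' : w ≠ v := fun h => hne (by rw [h])
        obtain ⟨t, ht, h⟩ := ih hw.2 hv.2 (by simpa using hl) hne'
        exact ⟨t + 1, by simpa using ht, h⟩
      · refine ⟨0, by simp, ?_⟩
        simp only [cn]
        have := ct_ne hw.1 hab
        omega

/-- indicator functions of single words are realised -/
lemma isDiag_single (w₀ : List (Fin r)) (h₀ : w₀ ∈ LA r (n + 1)) :
    ∃ φ : List (Fin r) → K, IsDiag hK hB φ ∧ ∀ w ∈ LA r (n + 1), φ w = if w = w₀ then 1 else 0 := by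
  have hsep : ∀ v : {v // v ∈ (LA r (n + 1)).erase w₀}, ∃ t < n + 1, ((cn 0 w₀ t - cn 0 v.1 t : ℤ) : K) ≠ 0 := by
    rintro ⟨v, hv⟩
    rw [Finset.mem_erase] at hv
    obtain ⟨hl0, hlat0⟩ := mem_LA.1 h₀
    obtain ⟨hl, hlat⟩ := mem_LA.1 hv.2
    obtain ⟨t, ht, h⟩ := separate hlat0 hlat (by rw [hl0, hl]) (Ne.symm hv.1)
    rw [hl0] at ht
    have h1 := cn_bounds hB hl0 ht
    have h2 := cn_bounds hB hl ht
    have h3 : |cn 0 w₀ t - cn 0 v t| ≤ (B : ℤ) := by
      rw [abs_le]
      constructor <;> omega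
    exact ⟨t, ht, hK.int (sub_ne_zero.2 h) h3⟩
  choose t ht hne using hsep
  refine ⟨∏ v ∈ ((LA r (n + 1)).erase w₀).attach,
    (fun w => (((cn 0 w₀ (t v) - cn 0 v.1 (t v) : ℤ) : K))⁻¹ *
      ((cn 0 w (t v) : K) - (cn 0 v.1 (t v) : K))), ?_, ?_⟩
  · apply isDiag_prod
    intro v _
    exact isDiag_lin hK hB (t v) (ht v) _ _
  · intro w hw
    rw [Finset.prod_apply]
    by_cases h : w = w₀
    · rw [if_pos h]
      apply Finset.prod_eq_one
      intro v _
      subst h
      have := hne v
      push_cast at this ⊢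
      exact inv_mul_cancel₀ this
    · rw [if_neg h]
      have hmem : w ∈ (LA r (n + 1)).erase w₀ := Finset.mem_erase.2 ⟨h, hw⟩
      apply Finset.prod_eq_zero (Finset.mem_attach _ ⟨w, hmem⟩)
      simp

lemma exists_E (w₀ : List (Fin r)) (h₀ : w₀ ∈ LA r (n + 1)) :
    ∃ y : MonoidAlgebra K (Equiv.Perm (Fin (n + 1))), ∀ f : V K (0 : Fin r → ℕ) (n + 1),
      rhoA hK hB y f = (f : List (Fin r) → K) w₀ • dl K w₀ h₀ := by
  obtain ⟨φ, ⟨y, hy⟩, hφ⟩ := isDiag_single hK hB w₀ h₀
  refine ⟨y, fun f => ?_⟩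
  apply Subtype.ext
  funext w
  rw [hy]
  change φ w * (f : List (Fin r) → K) w = (f : List (Fin r) → K) w₀ * (if w = w₀ then 1 else 0)
  by_cases hw : w ∈ LA r (n + 1)
  · rw [hφ w hw]
    split_ifs with h
    · rw [h]; ring
    · ring
  · rw [V_eq_zero f hw, if_neg (by rintro rfl; exact hw h₀)]
    ring

/-! ### connectivity -/

lemma rtg_lift {α β : Type*} {R : α → α → Prop} {S : β → β → Prop} (f : α → β)
    (h : ∀ a b, R a b → S (f a) (f b)) {a b : α} (hab : Relation.ReflTransGen R a b) :
    Relation.ReflTransGen S (f a) (f b) := by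
  induction hab with
  | refl => exact Relation.ReflTransGen.refl
  | tail _ h2 ih => exact ih.tail (h _ _ h2)

lemma rtg_symm {α : Type*} {R : α → α → Prop} (h : ∀ a b, R a b → R b a) {a b : α}
    (hab : Relation.ReflTransGen R a b) : Relation.ReflTransGen R b a := by
  induction hab with
  | refl => exact Relation.ReflTransGen.refl
  | tail _ h2 ih => exact Relation.ReflTransGen.head (h _ _ h2) ih

/-- adjacency of lattice words -/
def Adj (κ : Fin r → ℕ) (w v : List (Fin r)) : Prop :=
  ∃ i, i + 1 < w.length ∧ v = sw i w ∧ v ≠ w ∧ Lat κ w ∧ Lat κ v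

lemma Adj.symm {κ : Fin r → ℕ} {w v : List (Fin r)} (h : Adj κ w v) : Adj κ v w := by
  obtain ⟨i, hi, rfl, hne, h1, h2⟩ := h
  exact ⟨i, by simpa using hi, by simp, hne.symm, h2, h1⟩

lemma Adj.cons {κ : Fin r → ℕ} {w v : List (Fin r)} (hκ : Antitone κ) {a : Fin r}
    (h : Adj (add κ a) w v) : Adj κ (a :: w) (a :: v) := by
  obtain ⟨i, hi, rfl, hne, h1, h2⟩ := h
  refine ⟨i + 1, by simpa using hi, rfl, ?_, ⟨hκ, h1⟩, ⟨hκ, h2⟩⟩
  intro h
  exact hne (List.cons.inj h).2

lemma descent {κ : Fin r → ℕ} {a b : Fin r} {u : List (Fin r)} (h : Lat κ (a :: b :: u))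
    (hba : b < a) : Lat κ (b :: a :: u) := by
  have h3 : Lat (add (add κ a) b) u := h.2.2
  refine ⟨h.1, ?_, ?_⟩
  · intro x y hxy
    by_cases hy : y = b
    · subst hy
      by_cases hx : x = y
      · rw [hx]
      · have h4 := h3.anti hxy
        have hxa : x ≠ a := by
          rintro rfl
          exact absurd hxy (not_le.2 hba)
        rw [add_same, add_ne _ hba.ne, add_ne _ hx, add_ne _ hxa] at h4
        rw [add_same, add_ne _ hx]
        exact h4
    · rw [add_ne _ hy]
      refine (h.1 hxy).trans ?_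
      by_cases hx : x = b
      · subst hx
        rw [add_same]
        omega
      · rw [add_ne _ hx]
  · rw [add_comm']
    exact h3

lemma reach_insert (a : Fin r) (u : List (Fin r)) (κ : Fin r → ℕ) (h : Lat κ (a :: u)) :
    Relation.ReflTransGen (Adj κ) (a :: u) (u.orderedInsert (· ≤ ·) a) := by
  induction u generalizing κ with
  | nil => exact Relation.ReflTransGen.refl
  | cons b u ih =>
    rw [List.orderedInsert_cons]
    split_ifs with hab
    · exact Relation.ReflTransGen.refl
    · have hba : b < a := not_le.1 hab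
      have h1 := descent h hba
      have h2 : Adj κ (a :: b :: u) (b :: a :: u) :=
        ⟨0, by simp, rfl, fun h3 => hba.ne (List.cons.inj h3).1, h, h1⟩
      refine Relation.ReflTransGen.head h2 ?_
      exact rtg_lift (fun u => b :: u) (fun _ _ h => h.cons h1.1) (ih (add κ b) h1.2)

lemma reach_lat {κ : Fin r → ℕ} {w v : List (Fin r)} (h : Relation.ReflTransGen (Adj κ) w v)
    (hw : Lat κ w) : Lat κ v := by
  induction h with
  | refl => exact hw
  | tail _ h2 _ =>
    obtain ⟨i, _, _, _, _, h6⟩ := h2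
    exact h6

lemma reach_sort (w : List (Fin r)) (κ : Fin r → ℕ) (h : Lat κ w) :
    Relation.ReflTransGen (Adj κ) w (w.insertionSort (· ≤ ·)) := by
  induction w generalizing κ with
  | nil => exact Relation.ReflTransGen.refl
  | cons a u ih =>
    have h1 : Relation.ReflTransGen (Adj κ) (a :: u) (a :: u.insertionSort (· ≤ ·)) :=
      rtg_lift (fun u => a :: u) (fun _ _ h' => h'.cons h.1) (ih (add κ a) h.2)
    rw [List.insertionSort_cons]
    exact h1.trans (reach_insert a _ κ (reach_lat h1 h))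

lemma sh_count (κ : Fin r → ℕ) (w : List (Fin r)) (a : Fin r) :
    sh κ w a = κ a + w.count a := by
  induction w generalizing κ with
  | nil => simp [sh]
  | cons b u ih =>
    simp only [sh]
    rw [ih, List.count_cons]
    by_cases h : b = a
    · subst h
      rw [add_same]
      simp
      omega
    · rw [add_ne _ (Ne.symm h)]
      simp [h]

lemma reach {κ : Fin r → ℕ} {w v : List (Fin r)} (hw : Lat κ w) (hv : Lat κ v)
    (h : sh κ w = sh κ v) : Relation.ReflTransGen (Adj κ) w v := by
  have hperm : w.Perm v := by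
    rw [List.perm_iff_count]
    intro a
    have := congrFun h a
    rw [sh_count, sh_count] at this
    omega
  have hs : w.insertionSort (· ≤ ·) = v.insertionSort (· ≤ ·) := by
    apply List.Perm.eq_of_pairwise (le := (· ≤ ·)) (fun _ _ _ _ h1 h2 => le_antisymm h1 h2)
      (List.pairwise_insertionSort (· ≤ ·) w) (List.pairwise_insertionSort (· ≤ ·) v)
    exact (List.perm_insertionSort _ w).trans (hperm.trans (List.perm_insertionSort _ v).symm)
  have h1 := reach_sort w κ hw
  have h2 := reach_sort v κ hv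
  rw [hs] at h1
  refine h1.trans ?_
  exact rtg_symm (fun _ _ h => h.symm) h2

end main

end Crest.Agent.R187.SN
private theorem rz_31c63a7579 : type_of% @_root_.Crest.Agent.R187.SN.words.eq_def := @_root_.Crest.Agent.R187.SN.words.eq_def -- L19
private theorem rz_18e295e08b : type_of% @_root_.Crest.Agent.R187.SN.words.eq_1 := @_root_.Crest.Agent.R187.SN.words.eq_1 -- L19
end

-- ▼ part R187/SN/Dim

/-!
# Row 187, PLAN S, block (A3): the dimension inequality
-/

set_option autoImplicit false

namespace Crest.Agent.R187.SN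

open scoped Classical

variable {r : ℕ} {K : Type*} [Field K]

/-- for lattice words with distinct adjacent letters the off-diagonal coefficient is nonzero -/
lemma coC_ne_zero {B : ℕ} (hK : HK K B) (i : ℕ) {κ : Fin r → ℕ} {m : ℕ} (hB : Bd B κ m)
    {w : List (Fin r)} (hw : Lat κ w) (hl : w.length = m) (hi : i + 1 < m) (hne : sw i w ≠ w) :
    coC K κ i w ≠ 0 := by
  induction i generalizing κ m w with
  | zero =>
    rcases w with _ | ⟨a, _ | ⟨b, u⟩⟩
    · exact absurd rfl hne
    · exact absurd rfl hne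
    · by_cases hab : a = b
      · subst hab
        exact absurd rfl hne
      · simp only [coC, if_neg hab]
        have h1 : ct κ b - ct κ a ≠ 1 := ct_ne_one hw.1 hab hw.2.anti
        have h2 := abs_ct_sub hB a b
        have h3 : ((ct κ b - ct κ a - 1 : ℤ) : K) ≠ 0 := by
          apply hK.int (by omega)
          have h5 : |ct κ b - ct κ a - 1| ≤ |ct κ b - ct κ a| + |(1 : ℤ)| := abs_sub _ _
          rw [abs_one] at h5
          omega
        intro h4
        apply h3
        have h5 : (((ct κ b - ct κ a : ℤ) : K))⁻¹ = 1 := by linear_combination -h4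
        rw [inv_eq_one] at h5
        rw [Int.cast_sub, h5]
        simp
  | succ i ih =>
    rcases w with _ | ⟨a, u⟩
    · simp at hl
      omega
    · obtain ⟨m, rfl⟩ : ∃ m', m = m' + 1 := ⟨m - 1, by omega⟩
      simp only [coC]
      refine ih (hB.add a) hw.2 (by simpa using hl) (by omega) ?_
      intro h
      apply hne
      simp only [sw, h]

section main

variable {B n : ℕ} (hK : HK K B) (hB : Bd B (0 : Fin r → ℕ) (n + 1))

/-- the operator `f ↦ f v • δ_w` is realised -/
lemma conn {v w : List (Fin r)} (hv : v ∈ LA r (n + 1)) (hw : w ∈ LA r (n + 1))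
    (hsh : sh (0 : Fin r → ℕ) v = sh 0 w) :
    ∃ y : MonoidAlgebra K (Equiv.Perm (Fin (n + 1))), ∀ f : V K (0 : Fin r → ℕ) (n + 1),
      rhoA hK hB y f = (f : List (Fin r) → K) v • dl K w hw := by
  obtain ⟨hlv, hlatv⟩ := mem_LA.1 hv
  obtain ⟨hlw, hlatw⟩ := mem_LA.1 hw
  have h := reach hlatv hlatw hsh
  have key : ∀ u, Relation.ReflTransGen (Adj 0) v u → ∀ hu : u ∈ LA r (n + 1),
      ∃ y : MonoidAlgebra K (Equiv.Perm (Fin (n + 1))), ∀ f : V K (0 : Fin r → ℕ) (n + 1),
      rhoA hK hB y f = (f : List (Fin r) → K) v • dl K u hu := by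
    intro u hu
    induction hu with
    | refl => exact fun hu => exists_E hK hB v hu
    | @tail x u hx hadj ih =>
      intro hu
      obtain ⟨i, hi, hux, hne, hlx, hlu⟩ := hadj
      have hlen : u.length = x.length := by rw [hux]; simp
      have hxm : x ∈ LA r (n + 1) := mem_LA.2 ⟨by rw [← hlen]; exact (mem_LA.1 hu).1, hlx⟩
      obtain ⟨y, hy⟩ := ih hxm
      obtain ⟨z, hz⟩ := exists_E hK hB u hu
      have hlu' := (mem_LA.1 hu).1
      have hi' : i < n := by omega
      have hxu : x = sw i u := by rw [hux]; simp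
      have hne' : sw i u ≠ u := by rw [← hxu]; exact hne.symm
      have hc : coC K 0 i u ≠ 0 := coC_ne_zero hK i hB hlu hlu' (by omega) hne'
      refine ⟨(coC K 0 i u)⁻¹ • (z * (MonoidAlgebra.of K _ (Cox.s n i) * y)), fun f => ?_⟩
      rw [map_smul, map_mul, map_mul, rhoA_of, rho_s hK hB i hi', LinearMap.smul_apply,
        Module.End.mul_apply, Module.End.mul_apply, hy, map_smul, map_smul, hz, TV_coe, T_apply,
        dl_apply, dl_apply, if_neg (by rw [hux]; rw [← hux]; exact hne), if_pos hxu.symm]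
      rw [mul_zero, zero_add, mul_one, smul_smul, smul_smul]
      congr 1
      field_simp
  exact key w h hw

/-- the operator `f ↦ f v • z` is realised for `z` supported on the shape of `v` -/
lemma conn_vec {v : List (Fin r)} (hv : v ∈ LA r (n + 1)) (z : V K (0 : Fin r → ℕ) (n + 1))
    (hz : ∀ w, sh 0 w ≠ sh 0 v → (z : List (Fin r) → K) w = 0) :
    ∃ y : MonoidAlgebra K (Equiv.Perm (Fin (n + 1))), ∀ f : V K (0 : Fin r → ℕ) (n + 1),
      rhoA hK hB y f = (f : List (Fin r) → K) v • z := by
  have hmem : ∀ w : {w // w ∈ LW (n + 1) (sh (0 : Fin r → ℕ) v)}, w.1 ∈ LA r (n + 1) := by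
    intro w
    have := mem_LW.1 w.2
    exact mem_LA.2 ⟨this.1, this.2.1⟩
  have hy : ∀ w : {w // w ∈ LW (n + 1) (sh (0 : Fin r → ℕ) v)},
      ∃ y : MonoidAlgebra K (Equiv.Perm (Fin (n + 1))), ∀ f : V K (0 : Fin r → ℕ) (n + 1),
      rhoA hK hB y f = (f : List (Fin r) → K) v • dl K w.1 (hmem w) :=
    fun w => conn hK hB hv (hmem w) (mem_LW.1 w.2).2.2.symm
  choose y hy using hy
  refine ⟨∑ w, (z : List (Fin r) → K) w.1 • y w, fun f => ?_⟩
  rw [map_sum, LinearMap.sum_apply]
  simp only [map_smul, LinearMap.smul_apply, hy]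
  apply Subtype.ext
  funext u
  have e1 : ((∑ w : {w // w ∈ LW (n + 1) (sh (0 : Fin r → ℕ) v)},
      (z : List (Fin r) → K) w.1 • ((f : List (Fin r) → K) v • dl K w.1 (hmem w)) :
      V K (0 : Fin r → ℕ) (n + 1)) : List (Fin r) → K) u =
      ∑ w : {w // w ∈ LW (n + 1) (sh (0 : Fin r → ℕ) v)},
        (z : List (Fin r) → K) w.1 * ((f : List (Fin r) → K) v * (if u = w.1 then 1 else 0)) := by
    rw [Submodule.coe_sum, Finset.sum_apply]
    rfl
  rw [e1]
  change _ = (f : List (Fin r) → K) v * (z : List (Fin r) → K) u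
  by_cases hu : u ∈ LW (n + 1) (sh (0 : Fin r → ℕ) v)
  · rw [Finset.sum_eq_single ⟨u, hu⟩]
    · simp
      ring
    · intro w _ hw
      rw [if_neg]
      · ring
      · rintro rfl
        exact hw rfl
    · intro h
      exact absurd (Finset.mem_univ _) h
  · have hzu : (z : List (Fin r) → K) u = 0 := by
      by_cases h1 : u ∈ LA r (n + 1)
      · apply hz
        intro h2
        exact hu (mem_LW.2 ⟨(mem_LA.1 h1).1, (mem_LA.1 h1).2, h2⟩)
      · exact V_eq_zero z h1
    rw [hzu, mul_zero]
    apply Finset.sum_eq_zero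
    intro w _
    rw [if_neg]
    · ring
    · rintro rfl
      exact hu w.2

/-- projection to a shape -/
noncomputable def Pr (K : Type*) [Field K] (n : ℕ) (lam : Fin r → ℕ) :
    Module.End K (V K (0 : Fin r → ℕ) n) where
  toFun f := ⟨fun w => if sh 0 w = lam then (f : List (Fin r) → K) w else 0, by
    intro w hw
    change (if sh 0 w = lam then (f : List (Fin r) → K) w else 0) = 0
    rw [f.2 w hw]
    simp⟩
  map_add' f g := by
    apply Subtype.ext
    funext w
    change (if sh 0 w = lam then (f : List (Fin r) → K) w + (g : List (Fin r) → K) w else 0) =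
      (if sh 0 w = lam then (f : List (Fin r) → K) w else 0) +
        (if sh 0 w = lam then (g : List (Fin r) → K) w else 0)
    split_ifs <;> simp
  map_smul' c f := by
    apply Subtype.ext
    funext w
    change (if sh 0 w = lam then c * (f : List (Fin r) → K) w else 0) =
      c * (if sh 0 w = lam then (f : List (Fin r) → K) w else 0)
    split_ifs <;> simp

lemma Pr_apply (lam : Fin r → ℕ) {n : ℕ} (f : V K (0 : Fin r → ℕ) n) (w : List (Fin r)) :
    (Pr K n lam f : List (Fin r) → K) w = if sh 0 w = lam then (f : List (Fin r) → K) w else 0 :=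
  rfl

lemma commute_TV (lam : Fin r → ℕ) (i : ℕ) : Commute (TV (K := K) 0 (n + 1) i) (Pr K (n + 1) lam) := by
  change _ * _ = _ * _
  ext1 f
  apply Subtype.ext
  funext w
  rw [Module.End.mul_apply, Module.End.mul_apply, TV_coe, Pr_apply, TV_coe, T_apply, T_apply,
    Pr_apply, Pr_apply, sh_sw]
  split_ifs <;> ring

lemma commute_rho (lam : Fin r → ℕ) (g : Equiv.Perm (Fin (n + 1))) :
    Commute (rho hK hB g) (Pr K (n + 1) lam) := by
  have hg : g ∈ Submonoid.closure (Set.range fun i : Fin n => Equiv.swap i.castSucc i.succ) := by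
    rw [Equiv.Perm.mclosure_swap_castSucc_succ]
    trivial
  induction hg using Submonoid.closure_induction with
  | mem x hx =>
    obtain ⟨i, rfl⟩ := hx
    change Commute (rho hK hB (Equiv.swap i.castSucc i.succ)) _
    rw [← Cox.s_eq, rho_s hK hB i i.2]
    exact commute_TV lam i
  | one =>
    rw [map_one]
    exact Commute.one_left _
  | mul x y _ _ hx hy =>
    rw [map_mul]
    exact hx.mul_left hy

lemma commute_rhoA (lam : Fin r → ℕ) (x : MonoidAlgebra K (Equiv.Perm (Fin (n + 1)))) :
    Commute (rhoA hK hB x) (Pr K (n + 1) lam) := by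
  induction x using MonoidAlgebra.induction_on with
  | of g =>
    rw [rhoA_of]
    exact commute_rho hK hB lam g
  | add x y hx hy =>
    rw [map_add]
    exact hx.add_left hy
  | smul c x hx =>
    rw [map_smul]
    exact hx.smul_left c

/-- **(A3)** the dimension inequality -/
theorem dim_ge (x : MonoidAlgebra K (Equiv.Perm (Fin (n + 1)))) (Λ : Finset (Fin r → ℕ))
    (R : (Fin r → ℕ) → ℕ) (z : ∀ lam : Fin r → ℕ, Fin (R lam) → V K (0 : Fin r → ℕ) (n + 1))
    (hz : ∀ lam ∈ Λ, ∀ j, z lam j ∈ LinearMap.range (rhoA hK hB x))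
    (hsupp : ∀ lam ∈ Λ, ∀ j, ∀ w, sh 0 w ≠ lam → (z lam j : List (Fin r) → K) w = 0)
    (hli : ∀ lam ∈ Λ, LinearIndependent K (z lam)) :
    ∑ lam ∈ Λ, R lam * (LW (n + 1) lam).card ≤
      Module.finrank K (LinearMap.range (LinearMap.mulLeft K x)) := by
  -- preimages supported on the shape
  have h1 : ∀ (i : {lam // lam ∈ Λ}) (j : Fin (R i.1)), ∃ z' : V K (0 : Fin r → ℕ) (n + 1),
      rhoA hK hB x z' = z i.1 j ∧ ∀ w, sh 0 w ≠ i.1 → (z' : List (Fin r) → K) w = 0 := by
    rintro ⟨lam, hlam⟩ j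
    obtain ⟨z₀, hz₀⟩ := hz lam hlam j
    refine ⟨Pr K (n + 1) lam z₀, ?_, ?_⟩
    · have h2 := commute_rhoA hK hB lam x
      have h3 : rhoA hK hB x (Pr K (n + 1) lam z₀) = Pr K (n + 1) lam (rhoA hK hB x z₀) :=
        LinearMap.congr_fun h2 z₀
      rw [h3, hz₀]
      apply Subtype.ext
      funext w
      rw [Pr_apply]
      split_ifs with h
      · rfl
      · exact (hsupp lam hlam j w h).symm
    · intro w hw
      rw [Pr_apply, if_neg hw]
  choose z' hz' hz's using h1
  have h2 : ∀ (i : {lam // lam ∈ Λ}) (j : Fin (R i.1)) (v : {v // v ∈ LW (n + 1) i.1}),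
      ∃ y : MonoidAlgebra K (Equiv.Perm (Fin (n + 1))), ∀ f : V K (0 : Fin r → ℕ) (n + 1),
      rhoA hK hB y f = (f : List (Fin r) → K) v.1 • z' i j := by
    intro i j v
    have hv := mem_LW.1 v.2
    apply conn_vec hK hB (mem_LA.2 ⟨hv.1, hv.2.1⟩) (z' i j)
    intro w hw
    apply hz's
    rwa [hv.2.2] at hw
  choose y hy using h2
  let ι := (i : {lam // lam ∈ Λ}) × (Fin (R i.1) × {v // v ∈ LW (n + 1) i.1})
  let F : ι → LinearMap.range (LinearMap.mulLeft K x) := fun p =>
    ⟨x * y p.1 p.2.1 p.2.2, ⟨y p.1 p.2.1 p.2.2, rfl⟩⟩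
  have hF : LinearIndependent K F := by
    apply LinearIndependent.of_comp (Submodule.subtype _)
    rw [Fintype.linearIndependent_iff]
    intro c hc
    rintro ⟨i₀, j₀, v₀⟩
    have hv₀ := mem_LW.1 v₀.2
    have hv₀A : v₀.1 ∈ LA r (n + 1) := mem_LA.2 ⟨hv₀.1, hv₀.2.1⟩
    have h3 : rhoA hK hB (∑ p : ι, c p • (x * y p.1 p.2.1 p.2.2)) (dl K v₀.1 hv₀A) = 0 := by
      have h4 : (∑ p : ι, c p • (x * y p.1 p.2.1 p.2.2)) = 0 := hc
      rw [h4, map_zero]
      rfl
    rw [map_sum, LinearMap.sum_apply] at h3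
    have h5 : ∀ p : ι, (rhoA hK hB (c p • (x * y p.1 p.2.1 p.2.2))) (dl K v₀.1 hv₀A) =
        (c p * (if p.2.2.1 = v₀.1 then 1 else 0)) • z p.1.1 p.2.1 := by
      intro p
      rw [map_smul, map_mul, LinearMap.smul_apply, Module.End.mul_apply, hy, map_smul, hz',
        dl_apply, smul_smul]
    rw [Finset.sum_congr rfl fun p _ => h5 p, Fintype.sum_sigma] at h3
    -- only i = i₀ contributes
    rw [Finset.sum_eq_single i₀] at h3
    · rw [Fintype.sum_prod_type] at h3
      have h6 : ∀ j : Fin (R i₀.1), ∑ v : {v // v ∈ LW (n + 1) i₀.1},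
          (c ⟨i₀, j, v⟩ * (if v.1 = v₀.1 then 1 else 0)) • z i₀.1 j = c ⟨i₀, j, v₀⟩ • z i₀.1 j := by
        intro j
        rw [Finset.sum_eq_single v₀]
        · simp
        · intro v _ hv
          rw [if_neg (fun h => hv (Subtype.ext h)), mul_zero, zero_smul]
        · intro h
          exact absurd (Finset.mem_univ _) h
      have h7 : ∑ j : Fin (R i₀.1), c ⟨i₀, j, v₀⟩ • z i₀.1 j = 0 := by
        rw [← h3]
        apply Finset.sum_congr rfl
        intro j _
        exact (h6 j).symm
      exact (Fintype.linearIndependent_iff.1 (hli i₀.1 i₀.2)) _ h7 j₀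
    · intro i _ hi
      apply Finset.sum_eq_zero
      rintro ⟨j, v⟩ _
      rw [if_neg, mul_zero, zero_smul]
      intro h
      apply hi
      apply Subtype.ext
      have h8 := (mem_LW.1 v.2).2.2
      change v.1 = v₀.1 at h
      rw [← h8, h, hv₀.2.2]
    · intro h
      exact absurd (Finset.mem_univ _) h
  have hcard := hF.fintype_card_le_finrank
  refine le_trans (le_of_eq ?_) hcard
  rw [Fintype.card_sigma]
  simp only [Fintype.card_prod, Fintype.card_fin, Fintype.card_coe]
  exact (Finset.sum_coe_sort Λ (fun lam => R lam * (LW (n + 1) lam).card)).symm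

end main

end Crest.Agent.R187.SN
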