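import Crest.Agent.R187.Final

-- ▼ part R187/Soft
section

/-! Row 187 (S0286): the soft part.  Fischer pairing, kernels, equivariant injections. -/

set_option autoImplicit false

namespace Crest.Agent.R187

open MvPolynomial Crest.AlgebraR.FoulkesHowe

section Fischer

variable {σ : Type*} [Fintype σ]

/-- factorial of an exponent -/
def mfac (m : σ →₀ ℕ) : ℕ := ∏ i, (m i).factorial

theorem mfac_pos (m : σ →₀ ℕ) : 0 < mfac m := Finset.prod_pos (fun _ _ => Nat.factorial_pos _)

theorem mfac_add_single (m : σ →₀ ℕ) (i : σ) :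
    mfac (m + Finsupp.single i 1) = (m i + 1) * mfac m := by
  classical
  unfold mfac
  rw [← Finset.mul_prod_erase Finset.univ _ (Finset.mem_univ i),
    ← Finset.mul_prod_erase Finset.univ (fun j => (m j).factorial) (Finset.mem_univ i),
    ← mul_assoc]
  congr 1
  · simp [Nat.factorial_succ]
  · apply Finset.prod_congr rfl
    intro j hj
    rw [Finset.mem_erase] at hj
    simp [hj.1.symm]

/-- the Fischer pairing `<f, h> = ∑ α, α! f_α h_α` -/
noncomputable def fis : MvPolynomial σ ℂ →ₗ[ℂ] MvPolynomial σ ℂ →ₗ[ℂ] ℂ :=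
  (basisMonomials σ ℂ).constr ℂ (fun m => (mfac m : ℂ) • lcoeff ℂ m)

theorem fis_monomial (m : σ →₀ ℕ) (c : ℂ) (h : MvPolynomial σ ℂ) :
    fis (monomial m c) h = c * (mfac m * coeff m h) := by
  have h1 : (monomial m c : MvPolynomial σ ℂ) = c • basisMonomials σ ℂ m := by
    rw [coe_basisMonomials, smul_monomial, smul_eq_mul, mul_one]
  rw [h1, map_smul, fis, Module.Basis.constr_basis]
  simp [lcoeff]

theorem fis_eq_sum (f h : MvPolynomial σ ℂ) :
    fis f h = ∑ m ∈ f.support, coeff m f * (mfac m * coeff m h) := by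
  conv_lhs => rw [← support_sum_monomial_coeff f]
  rw [map_sum, LinearMap.sum_apply]
  exact Finset.sum_congr rfl (fun m _ => fis_monomial m _ h)

theorem fis_mul_X (i : σ) (f h : MvPolynomial σ ℂ) :
    fis (f * X i) h = fis f (pderiv i h) := by
  induction f using MvPolynomial.induction_on' with
  | add p q hp hq => rw [add_mul, map_add, map_add, LinearMap.add_apply, LinearMap.add_apply, hp, hq]
  | monomial m c =>
    rw [X, monomial_mul, mul_one, fis_monomial, fis_monomial, mfac_add_single, coeff_pderiv]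
    push_cast
    ring

theorem fis_C (c : ℂ) (h : MvPolynomial σ ℂ) : fis (C c) h = c * constantCoeff h := by
  rw [← monomial_zero', fis_monomial, constantCoeff_eq]
  simp [mfac]

/-- positivity -/
theorem fis_self_conj {f : MvPolynomial σ ℂ} (hf : fis f (map (starRingEnd ℂ) f) = 0) : f = 0 := by
  rw [fis_eq_sum] at hf
  have h1 : ∑ m ∈ f.support, coeff m f * (mfac m * coeff m (map (starRingEnd ℂ) f))
      = ((∑ m ∈ f.support, (mfac m : ℝ) * Complex.normSq (coeff m f) : ℝ) : ℂ) := by
    push_cast
    apply Finset.sum_congr rfl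
    intro m _
    rw [coeff_map, Complex.normSq_eq_conj_mul_self]
    ring
  rw [h1] at hf
  have h2 : (∑ m ∈ f.support, (mfac m : ℝ) * Complex.normSq (coeff m f) : ℝ) = 0 := by
    exact_mod_cast hf
  rw [Finset.sum_eq_zero_iff_of_nonneg] at h2
  · ext m
    rw [coeff_zero]
    by_contra hm
    have h3 := h2 m (mem_support_iff.mpr hm)
    rcases mul_eq_zero.mp h3 with h4 | h4
    · have := mfac_pos m
      have h5 : (mfac m : ℝ) ≠ 0 := by positivity
      exact h5 h4
    · exact hm (Complex.normSq_eq_zero.mp h4)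
  · intro m _
    exact mul_nonneg (Nat.cast_nonneg _) (Complex.normSq_nonneg _)

end Fischer

section adj

theorem linSubst_X {a n : ℕ} (g : Matrix (Fin n) (Fin n) ℂ) (v : Var a n) :
    linSubst a g (X v) = ∑ l : Fin n, g v.2 l • X (v.1, l) := by
  rw [linSubst, aeval_X]

theorem constantCoeff_linSubst {a n : ℕ} (g : Matrix (Fin n) (Fin n) ℂ)
    (h : MvPolynomial (Var a n) ℂ) : constantCoeff (linSubst a g h) = constantCoeff h := by
  induction h using MvPolynomial.induction_on with
  | C c => rw [← algebraMap_eq, AlgHom.commutes]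
  | add p q hp hq => rw [map_add, map_add, map_add, hp, hq]
  | mul_X p i hp =>
    rw [map_mul, map_mul, map_mul, hp, linSubst_X, map_sum]
    have : ∀ l : Fin n, constantCoeff (g i.2 l • (X (i.1, l) : MvPolynomial (Var a n) ℂ)) = 0 := by
      intro l
      rw [smul_eq_C_mul, map_mul, constantCoeff_X, mul_zero]
    simp [this]

theorem pderiv_linSubst {a n : ℕ} (g : Matrix (Fin n) (Fin n) ℂ) (v : Var a n)
    (h : MvPolynomial (Var a n) ℂ) :
    pderiv v (linSubst a g.transpose h) = ∑ l : Fin n, g v.2 l • linSubst a g.transpose (pderiv (v.1, l) h) := by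
  classical
  induction h using MvPolynomial.induction_on with
  | C c =>
    rw [← algebraMap_eq, AlgHom.commutes]
    simp [algebraMap_eq]
  | add p q hp hq =>
    simp only [map_add, hp, hq, smul_add, Finset.sum_add_distrib]
  | mul_X p w hp =>
    rw [map_mul, pderiv_mul, hp]
    simp only [pderiv_mul, map_add, map_mul, smul_add, Finset.sum_add_distrib, Finset.sum_mul,
      smul_mul_assoc]
    congr 1
    have h1 : pderiv v (linSubst a g.transpose (X w))
        = if v.1 = w.1 then C (g v.2 w.2) else 0 := by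
      rw [linSubst_X, map_sum]
      simp only [Derivation.map_smul, pderiv_X]
      split_ifs with h
      · rw [Finset.sum_eq_single v.2]
        · have : (w.1, v.2) = v := by rw [← h]
          rw [this, Pi.single_eq_same, Matrix.transpose_apply, smul_eq_C_mul, mul_one]
        · intro l _ hl
          rw [Pi.single_eq_of_ne, smul_zero]
          intro h2
          exact hl (congrArg Prod.snd h2)
        · intro h2; exact absurd (Finset.mem_univ _) h2
      · apply Finset.sum_eq_zero
        intro l _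
        rw [Pi.single_eq_of_ne, smul_zero]
        intro h2
        exact h (congrArg Prod.fst h2).symm
    rw [h1]
    have h2 : ∀ l : Fin n, linSubst a g.transpose (pderiv (v.1, l) (X w : MvPolynomial (Var a n) ℂ))
        = if v.1 = w.1 ∧ l = w.2 then 1 else 0 := by
      intro l
      rw [pderiv_X]
      by_cases h3 : v.1 = w.1 ∧ l = w.2
      · rw [if_pos h3]
        have : (v.1, l) = w := by rw [h3.1, h3.2]
        rw [this, Pi.single_eq_same, map_one]
      · rw [if_neg h3, Pi.single_eq_of_ne, map_zero]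
        intro h4
        apply h3
        rw [h4]
        exact ⟨rfl, rfl⟩
    simp only [h2]
    by_cases h5 : v.1 = w.1
    · simp only [h5, true_and, if_true]
      rw [Finset.sum_eq_single w.2]
      · rw [if_pos rfl, mul_one, smul_eq_C_mul, mul_comm]
      · intro l _ hl; rw [if_neg hl, mul_zero, smul_zero]
      · intro h2; exact absurd (Finset.mem_univ _) h2
    · simp [h5]

/-- the adjoint of a linear substitution is the transposed one -/
theorem fis_linSubst {a n : ℕ} (g : Matrix (Fin n) (Fin n) ℂ) (f h : MvPolynomial (Var a n) ℂ) :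
    fis (linSubst a g f) h = fis f (linSubst a g.transpose h) := by
  induction f using MvPolynomial.induction_on generalizing h with
  | C c => rw [← algebraMap_eq, AlgHom.commutes, algebraMap_eq, fis_C, fis_C, constantCoeff_linSubst]
  | add p q hp hq => rw [map_add, map_add, map_add, LinearMap.add_apply, LinearMap.add_apply, hp, hq]
  | mul_X p v hp =>
    rw [map_mul, linSubst_X, Finset.mul_sum, map_sum, LinearMap.sum_apply, fis_mul_X,
      pderiv_linSubst, map_sum]
    apply Finset.sum_congr rfl
    intro l _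
    rw [mul_smul_comm, map_smul, LinearMap.smul_apply, fis_mul_X, hp, map_smul]

end adj

section kernel

variable {a b n : ℕ}

/-- kernels: polynomials in y (b blocks) with coefficients polynomials in x (a blocks) -/
abbrev Ker (a b n : ℕ) : Type := MvPolynomial (Var b n) (MvPolynomial (Var a n) ℂ)

/-- the map given by a kernel -/
noncomputable def kmap (K : Ker a b n) : MvPolynomial (Var a n) ℂ →ₗ[ℂ] MvPolynomial (Var b n) ℂ :=
  ∑ β ∈ K.support, (monomial β : ℂ →ₗ[ℂ] MvPolynomial (Var b n) ℂ) ∘ₗ (fis.flip (coeff β K))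

theorem coeff_kmap (K : Ker a b n) (f : MvPolynomial (Var a n) ℂ) (β : Var b n →₀ ℕ) :
    coeff β (kmap K f) = fis f (coeff β K) := by
  classical
  rw [kmap, LinearMap.sum_apply, coeff_sum]
  simp only [LinearMap.comp_apply, LinearMap.flip_apply, coeff_monomial]
  rw [Finset.sum_ite_eq' K.support β]
  split_ifs with h
  · rfl
  · rw [notMem_support_iff.mp h, map_zero]

/-- linear functional applied to the coefficients of a product kernel -/
theorem kmap_C_mul (s : MvPolynomial (Var a n) ℂ) (p : MvPolynomial (Var b n) ℂ)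
    (f : MvPolynomial (Var a n) ℂ) :
    kmap (C s * map (algebraMap ℂ (MvPolynomial (Var a n) ℂ)) p) f = fis f s • p := by
  ext β
  rw [coeff_kmap, coeff_C_mul, coeff_map, coeff_smul, mul_comm, ← Algebra.smul_def, map_smul,
    smul_eq_mul, smul_eq_mul, mul_comm]

theorem kmap_add (K L : Ker a b n) (f : MvPolynomial (Var a n) ℂ) :
    kmap (K + L) f = kmap K f + kmap L f := by
  ext β
  rw [coeff_add, coeff_kmap, coeff_kmap, coeff_kmap, coeff_add, map_add]

/-- substitution in the y variables of a kernel -/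
noncomputable def ysub (g : Matrix (Fin n) (Fin n) ℂ) : Ker a b n →ₐ[MvPolynomial (Var a n) ℂ] Ker a b n :=
  aeval fun v => ∑ l : Fin n, C (C (g v.2 l)) * X (v.1, l)

theorem ysub_map (g : Matrix (Fin n) (Fin n) ℂ) (p : MvPolynomial (Var b n) ℂ) :
    ysub (a := a) g (map (algebraMap ℂ (MvPolynomial (Var a n) ℂ)) p)
      = map (algebraMap ℂ (MvPolynomial (Var a n) ℂ)) (linSubst b g p) := by
  induction p using MvPolynomial.induction_on with
  | C c =>
    have h0 : linSubst b g (C c) = C c := (linSubst b g).commutes c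
    rw [h0, map_C]
    exact (ysub (a := a) g).commutes _
  | add p q hp hq => simp only [map_add, hp, hq]
  | mul_X p w hp =>
    rw [map_mul, map_mul, map_mul, hp, map_mul, map_X, ysub, aeval_X, linSubst_X, map_sum]
    congr 1
    apply Finset.sum_congr rfl
    intro l _
    rw [smul_eq_C_mul, map_mul, map_C, map_X]
    rfl

theorem kmap_ysub (g : Matrix (Fin n) (Fin n) ℂ) (K : Ker a b n) (f : MvPolynomial (Var a n) ℂ) :
    kmap (ysub g K) f = linSubst b g (kmap K f) := by
  induction K using MvPolynomial.induction_on' with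
  | add p q hp hq => rw [map_add, kmap_add, kmap_add, map_add, hp, hq]
  | monomial m s =>
    have h1 : (monomial m s : Ker a b n)
        = C s * map (algebraMap ℂ (MvPolynomial (Var a n) ℂ)) (monomial m 1) := by
      rw [map_monomial, map_one, C_mul_monomial, mul_one]
    rw [h1, map_mul, ysub_map, kmap_C_mul, map_smul]
    have h2 : ysub g (C s : Ker a b n) = C s := by
      rw [← algebraMap_eq, AlgHom.commutes]
    rw [h2, kmap_C_mul]

theorem kmap_linSubst (g : Matrix (Fin n) (Fin n) ℂ) (K : Ker a b n)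
    (hK : map (linSubst a g.transpose).toRingHom K = ysub g K) (f : MvPolynomial (Var a n) ℂ) :
    kmap K (linSubst a g f) = linSubst b g (kmap K f) := by
  rw [← kmap_ysub, ← hK]
  ext β
  rw [coeff_kmap, coeff_kmap, coeff_map, fis_linSubst]
  rfl

theorem kmap_blockSym (K : Ker a b n)
    (h1 : ∀ i : Fin b, IsWeightedHomogeneous (blockWeight (n := n) i) K a)
    (h2 : ∀ σ : Equiv.Perm (Fin b), rename (blockPerm σ) K = K) (f : MvPolynomial (Var a n) ℂ) :
    kmap K f ∈ blockSym b n a := by
  rw [mem_blockSym]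
  refine ⟨fun i β hβ => h1 i (d := β) ?_, fun σ => ?_⟩
  · intro h0
    apply hβ
    rw [coeff_kmap, h0, map_zero]
  · have hinj : Function.Injective (blockPerm (n := n) σ) := by
      rintro ⟨i, k⟩ ⟨j, l⟩ h
      simp only [blockPerm, Prod.mk.injEq, EmbeddingLike.apply_eq_iff_eq] at h
      exact Prod.ext h.1 h.2
    have hsurj : Function.Surjective (blockPerm (n := n) σ) := by
      rintro ⟨i, k⟩
      exact ⟨(σ.symm i, k), by simp [blockPerm]⟩
    ext β
    obtain ⟨γ, rfl⟩ : ∃ γ, Finsupp.mapDomain (blockPerm (n := n) σ) γ = β :=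
      Finsupp.mapDomain_surjective hsurj β
    rw [act, coeff_rename_mapDomain _ hinj, coeff_kmap, coeff_kmap]
    conv_rhs => rw [← h2 σ]
    rw [coeff_rename_mapDomain _ hinj]

/-- value of the kernel at a point y = c -/
noncomputable def kev (K : Ker a b n) (c : Var b n → ℂ) : MvPolynomial (Var a n) ℂ :=
  eval (fun v => algebraMap ℂ (MvPolynomial (Var a n) ℂ) (c v)) K

theorem fis_kev {K : Ker a b n} {f : MvPolynomial (Var a n) ℂ} (hf : kmap K f = 0)
    (c : Var b n → ℂ) : fis f (kev K c) = 0 := by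
  rw [kev, eval_eq, map_sum]
  apply Finset.sum_eq_zero
  intro β _
  have : ∏ i ∈ β.support, (algebraMap ℂ (MvPolynomial (Var a n) ℂ) (c i)) ^ β i
        = algebraMap ℂ (MvPolynomial (Var a n) ℂ) (∏ i ∈ β.support, c i ^ β i) := by
    rw [map_prod]; simp only [map_pow]
  rw [this, ← Algebra.commutes, ← Algebra.smul_def, map_smul, ← coeff_kmap, hf, coeff_zero, smul_zero]

/-- blockSym is stable under complex conjugation -/
theorem conj_blockSym {f : MvPolynomial (Var a n) ℂ} (hf : f ∈ blockSym a n b) :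
    map (starRingEnd ℂ) f ∈ blockSym a n b := by
  rw [mem_blockSym] at hf ⊢
  refine ⟨fun i β hβ => hf.1 i (d := β) ?_, fun σ => ?_⟩
  · intro h0
    apply hβ
    rw [coeff_map, h0, map_zero]
  · have := hf.2 σ
    rw [act] at this ⊢
    conv_rhs => rw [← this]
    rw [map_rename]

/-- General form of the soft part: a kernel which is equivariant, block symmetric and
multihomogeneous in `y`, and whose values span `blockSym a n b`, gives an equivariant injection. -/
theorem soft_kernel (K : Ker a b n)
    (h1 : ∀ i : Fin b, IsWeightedHomogeneous (blockWeight (n := n) i) K a)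
    (h2 : ∀ σ : Equiv.Perm (Fin b), rename (blockPerm σ) K = K)
    (h3 : ∀ g : Matrix (Fin n) (Fin n) ℂ, map (linSubst a g.transpose).toRingHom K = ysub g K)
    (h4 : blockSym a n b ≤ Submodule.span ℂ (Set.range (kev K))) :
    ∃ φ : MvPolynomial (Var a n) ℂ →ₗ[ℂ] MvPolynomial (Var b n) ℂ,
      (∀ f ∈ blockSym a n b, φ f ∈ blockSym b n a) ∧
      Set.InjOn φ (blockSym a n b) ∧
      ∀ g : Matrix (Fin n) (Fin n) ℂ, IsUnit g →
        ∀ f ∈ blockSym a n b, φ (linSubst a g f) = linSubst b g (φ f) := by
  refine ⟨kmap K, fun f _ => kmap_blockSym K h1 h2 f, ?_, fun g _ f _ => kmap_linSubst g K (h3 g) f⟩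
  have key : ∀ f ∈ blockSym a n b, kmap K f = 0 → f = 0 := by
    intro f hf h0
    apply fis_self_conj
    have h5 : ∀ u ∈ Submodule.span ℂ (Set.range (kev K)), fis f u = 0 := by
      intro u hu
      induction hu using Submodule.span_induction with
      | mem u hu => obtain ⟨c, rfl⟩ := hu; exact fis_kev h0 c
      | zero => rw [map_zero]
      | add x y _ _ hx hy => rw [map_add, hx, hy, add_zero]
      | smul c x _ hx => rw [map_smul, hx, smul_zero]
    exact h5 _ (h4 (conj_blockSym hf))
  intro f hf g hg hfg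
  rw [← sub_eq_zero]
  apply key _ (Submodule.sub_mem _ hf hg)
  rw [map_sub, sub_eq_zero]
  exact hfg

end kernel

end Crest.Agent.R187
end

-- ▼ part R187/Canon
section

/-! Row 187 (S0286): the canonical kernel; reduction of S0286 to one membership. -/

set_option autoImplicit false

namespace Crest.Agent.R187

open MvPolynomial Crest.AlgebraR.FoulkesHowe

section canon

variable {a b n : ℕ}

/-- the pairing `<x_i, y_j>` as a kernel -/
noncomputable def pr (i : Fin a) (j : Fin b) : Ker a b n := ∑ k : Fin n, X (j, k) * C (X (i, k))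

theorem pr_wh (i : Fin a) (j j' : Fin b) :
    IsWeightedHomogeneous (blockWeight (n := n) j') (pr i j : Ker a b n) (if j = j' then 1 else 0) := by
  refine Submodule.sum_mem (weightedHomogeneousSubmodule (MvPolynomial (Var a n) ℂ)
    (blockWeight (n := n) j') (if j = j' then 1 else 0)) (fun k _ => ?_)
  have h1 := (isWeightedHomogeneous_X (MvPolynomial (Var a n) ℂ) (blockWeight (n := n) j') (j, k)).mul
    (isWeightedHomogeneous_C (blockWeight (n := n) j') (X (i, k) : MvPolynomial (Var a n) ℂ))
  rw [add_zero] at h1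
  exact h1

theorem rename_pr (σ : Equiv.Perm (Fin b)) (i : Fin a) (j : Fin b) :
    rename (blockPerm σ) (pr i j : Ker a b n) = pr i (σ j) := by
  simp only [pr, map_sum, map_mul, rename_X, rename_C, blockPerm]

theorem pr_linSubst (g : Matrix (Fin n) (Fin n) ℂ) (i : Fin a) (j : Fin b) :
    map (linSubst a g.transpose).toRingHom (pr i j : Ker a b n) = ysub g (pr i j) := by
  have e1 : map (linSubst a g.transpose).toRingHom (pr i j : Ker a b n)
      = ∑ k : Fin n, ∑ l : Fin n, X (j, k) * (C (C (g l k)) * C (X (i, l))) := by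
    rw [pr, map_sum]
    apply Finset.sum_congr rfl
    intro k _
    rw [map_mul, map_X, map_C]
    have : (linSubst a g.transpose).toRingHom (X (i, k)) = ∑ l : Fin n, C (g l k) * X (i, l) := by
      show linSubst a g.transpose (X (i, k)) = _
      rw [linSubst_X]
      apply Finset.sum_congr rfl
      intro l _
      rw [smul_eq_C_mul, Matrix.transpose_apply]
    rw [this, map_sum, Finset.mul_sum]
    apply Finset.sum_congr rfl
    intro l _
    rw [map_mul]
  have e2 : ysub g (pr i j : Ker a b n)
      = ∑ k : Fin n, ∑ l : Fin n, (C (C (g k l)) * X (j, l)) * C (X (i, k)) := by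
    rw [pr, map_sum]
    apply Finset.sum_congr rfl
    intro k _
    rw [map_mul]
    have h2 : ysub g (C (X (i, k)) : Ker a b n) = C (X (i, k)) := (ysub g).commutes _
    rw [h2, ysub, aeval_X, Finset.sum_mul]
  rw [e1, e2, Finset.sum_comm]
  apply Finset.sum_congr rfl
  intro k _
  apply Finset.sum_congr rfl
  intro l _
  ring

/-- the canonical kernel -/
noncomputable def K0 (a b n : ℕ) : Ker a b n := ∏ j : Fin b, ∏ i : Fin a, pr i j

theorem K0_wh (j' : Fin b) : IsWeightedHomogeneous (blockWeight (n := n) j') (K0 a b n) a := by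
  have h := IsWeightedHomogeneous.prod (w := blockWeight (n := n) j') Finset.univ
    (fun j : Fin b => ∏ i : Fin a, (pr i j : Ker a b n)) (fun j => if j = j' then a else 0) (by
      intro j _
      have h1 := IsWeightedHomogeneous.prod (w := blockWeight (n := n) j') Finset.univ
        (fun i : Fin a => (pr i j : Ker a b n)) (fun _ => if j = j' then 1 else 0)
        (fun i _ => pr_wh i j j')
      convert h1 using 1
      rw [Finset.sum_const, Finset.card_univ, Fintype.card_fin]
      split_ifs <;> simp)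
  rw [Finset.sum_ite_eq' Finset.univ j', if_pos (Finset.mem_univ j')] at h
  exact h

theorem K0_rename (σ : Equiv.Perm (Fin b)) : rename (blockPerm σ) (K0 a b n) = K0 a b n := by
  simp only [K0, map_prod, rename_pr]
  exact Equiv.prod_comp σ (fun j => ∏ i : Fin a, (pr i j : Ker a b n))

theorem K0_linSubst (g : Matrix (Fin n) (Fin n) ℂ) :
    map (linSubst a g.transpose).toRingHom (K0 a b n) = ysub g (K0 a b n) := by
  simp only [K0, map_prod, pr_linSubst]

theorem kev_pr (c : Var b n → ℂ) (i : Fin a) (j : Fin b) :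
    kev (pr i j : Ker a b n) c = blk i (∑ k : Fin n, c (j, k) • (X k : P n)) := by
  rw [kev, pr, map_sum, map_sum]
  apply Finset.sum_congr rfl
  intro k _
  rw [map_mul, eval_X, eval_C, map_smul, Algebra.smul_def, blk, rename_X]

theorem kev_K0 (c : Var b n → ℂ) :
    kev (K0 a b n) c = ∏ j : Fin b, Nm a (∑ k : Fin n, c (j, k) • (X k : P n)) := by
  have h1 : kev (K0 a b n) c = ∏ j : Fin b, ∏ i : Fin a, kev (pr i j : Ker a b n) c := by
    simp only [kev, K0, map_prod]
  rw [h1]
  simp only [kev_pr]
  rfl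

theorem mem_H_one {F : P n} (hF : F ∈ H n 1) : ∃ c : Fin n → ℂ, F = ∑ k : Fin n, c k • (X k : P n) := by
  rw [H, homogeneousSubmodule_one_eq_span_X] at hF
  obtain ⟨c, hc⟩ := (Submodule.mem_span_range_iff_exists_fun ℂ).mp hF
  exact ⟨c, hc.symm⟩

theorem D_pow_le_span : D a n 1 ^ b ≤ Submodule.span ℂ (Set.range (kev (K0 a b n))) := by
  rw [D, Submodule.span_pow, Submodule.span_le]
  intro x hx
  rw [Set.mem_pow] at hx
  obtain ⟨f, rfl⟩ := hx
  apply Submodule.subset_span
  choose F hF hF2 using fun j : Fin b => (f j).2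
  choose c hc using fun j : Fin b => mem_H_one (hF j)
  refine ⟨fun v => c v.1 v.2, ?_⟩
  rw [kev_K0, List.prod_ofFn]
  apply Finset.prod_congr rfl
  intro j _
  have := hF2 j
  simp only [pow_one] at this
  rw [← this, hc j]

/-- SOFT PART, canonical map -/
theorem soft_canon (a b n : ℕ) (h : blockSym a n b ≤ D a n 1 ^ b) :
    ∃ φ : MvPolynomial (Var a n) ℂ →ₗ[ℂ] MvPolynomial (Var b n) ℂ,
      (∀ f ∈ blockSym a n b, φ f ∈ blockSym b n a) ∧
      Set.InjOn φ (blockSym a n b) ∧
      ∀ g : Matrix (Fin n) (Fin n) ℂ, IsUnit g →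
        ∀ f ∈ blockSym a n b, φ (linSubst a g f) = linSubst b g (φ f) :=
  soft_kernel (K0 a b n) K0_wh K0_rename K0_linSubst (h.trans D_pow_le_span)

theorem blk_wh' (i j : Fin a) {F : P n} (hF : F ∈ H n b) :
    IsWeightedHomogeneous (blockWeight (n := n) i) (blk j F) (if j = i then b else 0) := by
  rw [H, mem_homogeneousSubmodule] at hF
  rw [F.as_sum, map_sum]
  refine Submodule.sum_mem (weightedHomogeneousSubmodule ℂ
    (blockWeight (n := n) i) (if j = i then b else 0)) (fun m hm => ?_)
  have h1 := hF (mem_support_iff.mp hm)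
  rw [blk, rename_monomial]
  apply isWeightedHomogeneous_monomial
  rw [Finsupp.weight_apply, Finsupp.sum_mapDomain_index (by simp) (by intros; simp [add_mul])]
  rw [Finsupp.weight_apply] at h1
  split_ifs with h2
  · rw [← h1]
    apply Finsupp.sum_congr
    intro k _
    simp [blockWeight, h2]
  · simp [blockWeight, h2]

theorem R_le_blockSym : R a n b ≤ blockSym a n b := by
  rw [R, Submodule.span_le]
  rintro _ ⟨F, hF, rfl⟩
  show Nm a F ∈ blockSym a n b
  rw [mem_blockSym]
  refine ⟨fun i => ?_, fun σ => act_Nm σ F⟩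
  have h := IsWeightedHomogeneous.prod (w := blockWeight (n := n) i) Finset.univ
    (fun j : Fin a => blk j F) (fun j => if j = i then b else 0) (fun j _ => blk_wh' i j hF)
  rw [Finset.sum_ite_eq' Finset.univ i, if_pos (Finset.mem_univ i)] at h
  exact h

theorem R_eq_blockSym : R a n b = blockSym a n b := le_antisymm R_le_blockSym blockSym_le_R



/-- propagation (McKay): from degree `b0` to all larger degrees -/
theorem propagate (b0 : ℕ) (hb0 : a ≤ b0 + 1) (h : blockSym a n b0 ≤ D a n 1 ^ b0) (b : ℕ)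
    (hb : b0 ≤ b) : blockSym a n b ≤ D a n 1 ^ b := by
  induction b, hb using Nat.le_induction with
  | base => exact h
  | succ b hb ih =>
    rw [← R_eq_blockSym] at ih ⊢
    refine (stepB n 1 a (b + 1) (by omega)).trans ?_
    rw [Nat.add_sub_cancel, pow_succ']
    exact mul_le_mul' le_rfl ih

end canon

section T

/-- the generator `T_b = ∑_σ ∏_i x_{i, σ i}^b` (n = a) -/
noncomputable def T (a b : ℕ) : SA a a := ∑ σ : Equiv.Perm (Fin a), ∏ i, X (i, σ i) ^ b

/-- substitution of linear forms `w` in all blocks -/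
noncomputable def wsub {a n m : ℕ} (w : Fin m → P n) : SA a m →ₐ[ℂ] SA a n :=
  aeval (fun v => blk v.1 (w v.2))

theorem wsub_blk {a n m : ℕ} (w : Fin m → P n) (i : Fin a) (F : P m) :
    wsub w (blk i F) = blk i (aeval w F) := by
  have : ((wsub (a := a) w).comp (blk i)) = (blk i).comp (aeval w) := by
    ext k
    simp [wsub, blk]
  exact DFunLike.congr_fun this F

theorem wsub_Nm {a n m : ℕ} (w : Fin m → P n) (F : P m) :
    wsub (a := a) w (Nm a F) = Nm a (aeval w F) := by
  simp only [Nm, map_prod, wsub_blk]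

theorem wsub_D {a n m k : ℕ} (w : Fin m → P n) (hw : ∀ i, w i ∈ H n 1) {z : SA a m}
    (hz : z ∈ D a m k) : wsub w z ∈ D a n k := by
  rw [D] at hz
  induction hz using Submodule.span_induction with
  | mem z hz =>
    obtain ⟨F, hF, rfl⟩ := hz
    obtain ⟨c, rfl⟩ := mem_H_one hF
    show wsub w (Nm a _ ^ k) ∈ _
    rw [map_pow, wsub_Nm]
    apply Nm_pow_mem_D
    rw [map_sum]
    apply Submodule.sum_mem
    intro i _
    rw [map_smul, aeval_X]
    exact Submodule.smul_mem _ _ (hw i)
  | zero => rw [map_zero]; exact Submodule.zero_mem _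
  | add x y _ _ hx hy => rw [map_add]; exact Submodule.add_mem _ hx hy
  | smul c x _ hx => rw [map_smul]; exact Submodule.smul_mem _ _ hx

theorem wsub_D_pow {a n m k b : ℕ} (w : Fin m → P n) (hw : ∀ i, w i ∈ H n 1) {z : SA a m}
    (hz : z ∈ D a m k ^ b) : wsub w z ∈ D a n k ^ b := by
  have h1 : (D a m k ^ b).map (wsub (a := a) w).toLinearMap ≤ D a n k ^ b := by
    rw [Submodule.map_pow]
    apply pow_le_pow_left'
    rintro _ ⟨z, hz, rfl⟩
    exact wsub_D w hw hz
  exact h1 ⟨z, hz, rfl⟩

theorem wsub_T {a n b : ℕ} (w : Fin a → P n) :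
    wsub w (T a b) = ∑ σ : Equiv.Perm (Fin a), ∏ i, blk i (w (σ i)) ^ b := by
  simp only [T, map_sum, map_prod, map_pow, wsub, aeval_X]

/-- everything follows from the membership of `T` -/
theorem R_le_of_T {a n b : ℕ} (hT : T a b ∈ D a a 1 ^ b) : R a n b ≤ D a n 1 ^ b := by
  rw [R, Submodule.span_le]
  rintro _ ⟨F, hF, rfl⟩
  show Nm a F ∈ D a n 1 ^ b
  -- the symmetrised products of b-th powers lie in the target
  have key : ∀ w : Fin a → P n, (∀ i, w i ∈ H n 1) →
      Sy a n (∏ i, blk i (w i ^ b)) ∈ D a n 1 ^ b := by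
    intro w hw
    have h1 := wsub_D_pow w hw hT
    rw [wsub_T] at h1
    rw [Sy_apply]
    simp only [map_prod, act_blk, map_pow]
    convert h1 using 1
    rw [← Equiv.sum_comp (Equiv.inv (Equiv.Perm (Fin a)))]
    apply Finset.sum_congr rfl
    intro σ _
    rw [← Equiv.prod_comp σ]
    apply Finset.prod_congr rfl
    intro i _
    simp
  -- multilinear extension
  have h2 : ∀ Fs : Fin a → P n, (∀ i, Fs i ∈ H n b) →
      Sy a n (∏ i, blk i (Fs i)) ∈ D a n 1 ^ b := by
    intro Fs hFs
    have h3 : ∀ s : Finset (Fin a), ∀ Gs : Fin a → P n,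
        (∀ i, i ∈ s → Gs i ∈ H n b) → (∀ i, i ∉ s → ∃ w ∈ H n 1, Gs i = w ^ b) →
        Sy a n (∏ i, blk i (Gs i)) ∈ D a n 1 ^ b := by
      classical
      intro s
      induction s using Finset.induction_on with
      | empty =>
        intro Gs _ h5
        choose w hw hw2 using fun i => h5 i (Finset.notMem_empty i)
        simp only [hw2]
        exact key w hw
      | insert j s hj ih =>
        intro Gs h4 h5
        have h6 : ∀ G ∈ Submodule.span ℂ ((fun w : P n => w ^ b) '' (H n 1 : Set (P n))),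
            Sy a n (∏ i, blk i (Function.update Gs j G i)) ∈ D a n 1 ^ b := by
          intro G hG
          have hupd : ∀ G : P n, ∏ i, blk (a := a) i (Function.update Gs j G i)
              = blk j G * ∏ i ∈ Finset.univ.erase j, blk i (Gs i) := by
            intro G
            rw [← Finset.mul_prod_erase Finset.univ _ (Finset.mem_univ j)]
            congr 1
            · rw [Function.update_self]
            · apply Finset.prod_congr rfl
              intro i hi
              rw [Function.update_of_ne (Finset.ne_of_mem_erase hi)]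
          induction hG using Submodule.span_induction with
          | mem G hG =>
            obtain ⟨w, hw, rfl⟩ := hG
            apply ih
            · intro i hi
              have hij : i ≠ j := fun h => hj (h ▸ hi)
              rw [Function.update_of_ne hij]
              exact h4 i (Finset.mem_insert_of_mem hi)
            · intro i hi
              by_cases hij : i = j
              · subst hij
                exact ⟨w, hw, by rw [Function.update_self]⟩
              · rw [Function.update_of_ne hij]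
                exact h5 i (by simp [hij, hi])
          | zero => rw [hupd, map_zero, zero_mul, map_zero]; exact Submodule.zero_mem _
          | add x y _ _ hx hy =>
            rw [hupd] at hx hy ⊢
            rw [map_add, add_mul, map_add]; exact Submodule.add_mem _ hx hy
          | smul c x _ hx =>
            rw [hupd] at hx ⊢
            rw [map_smul, smul_mul_assoc, map_smul]; exact Submodule.smul_mem _ _ hx
        have h7 := h6 (Gs j) (H_le_span_pow n b (h4 j (Finset.mem_insert_self j s)))
        rwa [Function.update_eq_self] at h7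
    exact h3 Finset.univ Fs (fun i _ => hFs i) (fun i hi => absurd (Finset.mem_univ i) hi)
  have h8 := h2 (fun _ => F) (fun _ => hF)
  have h9 : Sy a n (∏ i, blk i F) = (Nat.factorial a : ℂ) • Nm a F := by
    rw [← Sy_of_Inv (Nm_mem_Inv F)]; rfl
  rw [h9] at h8
  have h10 : (Nat.factorial a : ℂ) ≠ 0 := by exact_mod_cast Nat.factorial_ne_zero a
  have h11 := Submodule.smul_mem (D a n 1 ^ b) ((Nat.factorial a : ℂ)⁻¹) h8
  rwa [smul_smul, inv_mul_cancel₀ h10, one_smul] at h11

/-- S0286 from the single membership `T 6 7 ∈ D_1^7`. -/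
theorem final_of_T (hT : T 6 7 ∈ D 6 6 1 ^ 7) (n b : ℕ) (hb : 6 ≤ b) :
    ∃ φ : MvPolynomial (Var 6 n) ℂ →ₗ[ℂ] MvPolynomial (Var b n) ℂ,
      (∀ f ∈ blockSym 6 n b, φ f ∈ blockSym b n 6) ∧
      Set.InjOn φ (blockSym 6 n b) ∧
      ∀ g : Matrix (Fin n) (Fin n) ℂ, IsUnit g →
        ∀ f ∈ blockSym 6 n b, φ (linSubst 6 g f) = linSubst b g (φ f) := by
  rcases Nat.eq_or_lt_of_le hb with rfl | hb
  · exact ⟨LinearMap.id, fun f hf => hf, fun x _ y _ h => h, fun g _ f _ => rfl⟩
  · apply soft_canon
    exact propagate 7 (by norm_num) (blockSym_le_R.trans (R_le_of_T hT)) b hb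

end T

end Crest.Agent.R187
end

-- ▼ part R187/SN/Link

/-!
Row 187, PLAN S, block (A4): the link between the rank of the element
`E = (row sum) * (column sum)` of the group algebra of the symmetric group (over `ZMod p`)
and the membership `T a b ∈ D a a 1 ^ b`.
-/

set_option autoImplicit false

namespace Crest.Agent.R187.SN.Link

open Crest.Agent.R187 Crest.AlgebraR.FoulkesHowe

section general

variable {G : Type*} [Group G] [Fintype G]

open Classical in
/-- the sum of the elements of a subgroup -/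
noncomputable def ysum (R : Type*) [Semiring R] (H : Subgroup G) : MonoidAlgebra R G :=
  ∑ g : G, if g ∈ H then MonoidAlgebra.single g 1 else 0

theorem ysum_map {R S : Type*} [Semiring R] [Semiring S] (f : R →+* S) (H : Subgroup G) :
    MonoidAlgebra.mapRingHom G f (ysum R H) = ysum S H := by
  classical
  simp only [ysum, map_sum]
  refine Finset.sum_congr rfl fun g _ => ?_
  split_ifs <;> simp

theorem single_mul_ysum {R : Type*} [Semiring R] {H : Subgroup G} {h : G} (hh : h ∈ H) :
    MonoidAlgebra.single h 1 * ysum R H = ysum R H := by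
  classical
  rw [ysum, Finset.mul_sum]
  refine Fintype.sum_equiv (Equiv.mulLeft h) _ _ fun g => ?_
  rw [mul_ite, mul_zero, MonoidAlgebra.single_mul_single, mul_one, Equiv.coe_mulLeft]
  by_cases hg : g ∈ H
  · rw [if_pos hg, if_pos (H.mul_mem hh hg)]
  · rw [if_neg hg, if_neg (fun h' => hg (by simpa using H.mul_mem (H.inv_mem hh) h'))]

theorem ysum_mul_single {R : Type*} [Semiring R] {H : Subgroup G} {h : G} (hh : h ∈ H) :
    ysum R H * MonoidAlgebra.single h 1 = ysum R H := by
  classical
  rw [ysum, Finset.sum_mul]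
  refine Fintype.sum_equiv (Equiv.mulRight h) _ _ fun g => ?_
  rw [ite_mul, zero_mul, MonoidAlgebra.single_mul_single, mul_one, Equiv.coe_mulRight]
  by_cases hg : g ∈ H
  · rw [if_pos hg, if_pos (H.mul_mem hg hh)]
  · rw [if_neg hg, if_neg (fun h' => hg (by simpa using H.mul_mem h' (H.inv_mem hh)))]

theorem single_conj_ysum {R : Type*} [Semiring R] {H : Subgroup G} {s : G}
    (hs : ∀ g, g ∈ H ↔ s * g * s⁻¹ ∈ H) :
    MonoidAlgebra.single s 1 * ysum R H = ysum R H * MonoidAlgebra.single s 1 := by
  classical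
  rw [ysum, Finset.mul_sum, Finset.sum_mul]
  refine Fintype.sum_equiv (MulAut.conj s).toEquiv _ _ fun g => ?_
  have e : (MulAut.conj s).toEquiv g = s * g * s⁻¹ := rfl
  rw [mul_ite, mul_zero, ite_mul, zero_mul, MonoidAlgebra.single_mul_single,
    MonoidAlgebra.single_mul_single, mul_one, e, inv_mul_cancel_right]
  by_cases hg : g ∈ H
  · rw [if_pos hg, if_pos ((hs g).1 hg)]
  · rw [if_neg hg, if_neg (fun h' => hg ((hs g).2 h'))]

/-- if every element of `H` fixes `x` then `ysum H * x = |H| • x` -/
theorem ysum_mul_of_fixed {R : Type*} [Semiring R] {H : Subgroup G} {x : MonoidAlgebra R G}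
    (hx : ∀ h ∈ H, MonoidAlgebra.single h 1 * x = x) :
    ysum R H * x = (Nat.card H) • x := by
  classical
  rw [ysum, Finset.sum_mul]
  have : ∀ g : G, (if g ∈ H then MonoidAlgebra.single g (1 : R) else 0) * x
      = if g ∈ H then x else 0 := by
    intro g
    split_ifs with h
    · exact hx g h
    · exact zero_mul _
  rw [Finset.sum_congr rfl (fun g _ => this g), ← Finset.sum_filter, Finset.sum_const]
  congr 1
  rw [Nat.card_eq_fintype_card, Fintype.card_subtype]

/-! ### integral linear independence -/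

theorem li_of_mod (p : ℕ) [hp : Fact p.Prime] {ι X : Type*} [Finite ι] (v : ι → X → ℤ)
    (h : LinearIndependent (ZMod p) (fun i x => ((v i x : ℤ) : ZMod p))) :
    LinearIndependent ℤ v := by
  have := Fintype.ofFinite ι
  rw [Fintype.linearIndependent_iff] at h ⊢
  have step : ∀ c : ι → ℤ, ∑ i, c i • v i = 0 → ∀ i, (p : ℤ) ∣ c i := by
    intro c hc i
    have h1 := h (fun i => (c i : ZMod p)) (by
      funext x
      have h2 := congrFun hc x
      simp only [Finset.sum_apply, Pi.smul_apply, smul_eq_mul, Pi.zero_apply] at h2 ⊢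
      have h3 := congrArg (Int.cast : ℤ → ZMod p) h2
      simpa using h3) i
    exact (ZMod.intCast_zmod_eq_zero_iff_dvd _ _).1 h1
  have all : ∀ k : ℕ, ∀ c : ι → ℤ, ∑ i, c i • v i = 0 → ∀ i, (p : ℤ) ^ k ∣ c i := by
    intro k
    induction k with
    | zero => intro c _ i; simp
    | succ k ih =>
      intro c hc i
      choose d hd using step c hc
      have hp0 : (p : ℤ) ≠ 0 := by exact_mod_cast hp.out.ne_zero
      have h4 : ∑ i, d i • v i = 0 := by
        have h5 : (p : ℤ) • ∑ i, d i • v i = 0 := by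
          rw [← hc, Finset.smul_sum]
          refine Finset.sum_congr rfl fun i _ => ?_
          rw [smul_smul, ← hd i]
        exact (smul_eq_zero.1 h5).resolve_left hp0
      rw [hd i, pow_succ']
      exact mul_dvd_mul_left _ (ih d h4 i)
  intro c hc i
  have h6 := all (c i).natAbs c hc i
  refine Int.eq_zero_of_abs_lt_dvd h6 ?_
  have h7 : (c i).natAbs < p ^ (c i).natAbs := Nat.lt_pow_self hp.out.one_lt
  rw [Int.abs_eq_natAbs]
  exact_mod_cast h7

theorem li_rat {ι X : Type*} (v : ι → X → ℤ) (h : LinearIndependent ℤ v) :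
    LinearIndependent ℚ (fun i x => ((v i x : ℤ) : ℚ)) := by
  rw [← LinearIndependent.iff_fractionRing (R := ℤ) (K := ℚ)]
  have h1 := h.map' ((Int.castAddHom ℚ).toIntLinearMap.compLeft X) (by
    rw [LinearMap.ker_eq_bot]
    intro x y hxy
    funext i
    have := congrFun hxy i
    simpa using this)
  exact h1

/-- coefficients as a linear map to functions -/
noncomputable def cf (K : Type*) [Field K] : MonoidAlgebra K G →ₗ[K] (G → K) where
  toFun x g := x.coeff g
  map_add' x y := by funext g; simp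
  map_smul' c x := by funext g; simp

omit [Group G] [Fintype G] in
theorem cf_inj (K : Type*) [Field K] : Function.Injective (cf (G := G) K) := by
  intro x y h
  ext g
  exact congrFun h g

omit [Fintype G] in
theorem range_mulLeft (K : Type*) [Field K] (E : MonoidAlgebra K G) :
    LinearMap.range (LinearMap.mulLeft K E)
      = Submodule.span K (Set.range (fun g : G => E * MonoidAlgebra.single g 1)) := by
  have htop : (⊤ : Submodule K (MonoidAlgebra K G))
      = Submodule.span K (Set.range (fun g : G => MonoidAlgebra.single g (1 : K))) := by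
    symm
    rw [eq_top_iff]
    intro x _
    induction x using MonoidAlgebra.induction_linear with
    | zero => exact Submodule.zero_mem _
    | add x y hx hy => exact Submodule.add_mem _ (hx trivial) (hy trivial)
    | single g c =>
      have : MonoidAlgebra.single g c = c • MonoidAlgebra.single g (1 : K) := by
        rw [MonoidAlgebra.smul_single, smul_eq_mul, mul_one]
      rw [this]
      exact Submodule.smul_mem _ _ (Submodule.subset_span ⟨g, rfl⟩)
  rw [← Submodule.map_top, htop, Submodule.map_span, ← Set.range_comp]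
  rfl

theorem finrank_le (p : ℕ) [hp : Fact p.Prime] (E : MonoidAlgebra ℤ G) :
    Module.finrank (ZMod p) (LinearMap.range (LinearMap.mulLeft (ZMod p)
      (MonoidAlgebra.mapRingHom G (Int.castRingHom (ZMod p)) E)))
    ≤ Module.finrank ℚ (LinearMap.range (LinearMap.mulLeft ℚ
      (MonoidAlgebra.mapRingHom G (Int.castRingHom ℚ) E))) := by
  classical
  set w : G → MonoidAlgebra (ZMod p) G := fun g =>
    MonoidAlgebra.mapRingHom G (Int.castRingHom (ZMod p)) E * MonoidAlgebra.single g 1 with hw
  set w' : G → MonoidAlgebra ℚ G := fun g =>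
    MonoidAlgebra.mapRingHom G (Int.castRingHom ℚ) E * MonoidAlgebra.single g 1 with hw'
  rw [range_mulLeft, range_mulLeft]
  obtain ⟨κ, α, hα, hspan, hli⟩ := exists_linearIndependent' (K := ZMod p) w
  have hfin : Finite κ := Finite.of_injective α hα
  have := Fintype.ofFinite κ
  let v : κ → G → ℤ := fun k x => (E * MonoidAlgebra.single (α k) 1).coeff x
  have hv1 : (fun i x => ((v i x : ℤ) : ZMod p)) = fun i => cf (ZMod p) (w (α i)) := by
    funext i x
    have : w (α i) = MonoidAlgebra.mapRingHom G (Int.castRingHom (ZMod p))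
        (E * MonoidAlgebra.single (α i) 1) := by
      rw [map_mul]; simp [hw]
    rw [this]
    show _ = (MonoidAlgebra.mapRingHom G (Int.castRingHom (ZMod p))
        (E * MonoidAlgebra.single (α i) 1)).coeff x
    rw [MonoidAlgebra.coeff_mapRingHom]
    rfl
  have hv2 : (fun i x => ((v i x : ℤ) : ℚ)) = fun i => cf ℚ (w' (α i)) := by
    funext i x
    have : w' (α i) = MonoidAlgebra.mapRingHom G (Int.castRingHom ℚ)
        (E * MonoidAlgebra.single (α i) 1) := by
      rw [map_mul]; simp [hw']
    rw [this]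
    show _ = (MonoidAlgebra.mapRingHom G (Int.castRingHom ℚ)
        (E * MonoidAlgebra.single (α i) 1)).coeff x
    rw [MonoidAlgebra.coeff_mapRingHom]
    rfl
  have h1 : LinearIndependent (ZMod p) (fun i x => ((v i x : ℤ) : ZMod p)) := by
    rw [hv1]
    exact hli.map' (cf (ZMod p)) (LinearMap.ker_eq_bot.2 (cf_inj _))
  have h2 := li_rat v (li_of_mod p v h1)
  rw [hv2] at h2
  have h3 : LinearIndependent ℚ (fun i => w' (α i)) := LinearIndependent.of_comp (cf ℚ) h2
  have h4 : Module.finrank (ZMod p) (Submodule.span (ZMod p) (Set.range w)) = Fintype.card κ := by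
    rw [← hspan]
    exact finrank_span_eq_card hli
  have h5 : Module.finrank ℚ (Submodule.span ℚ (Set.range (fun i => w' (α i))))
      = Fintype.card κ := finrank_span_eq_card h3
  have : FiniteDimensional ℚ (Submodule.span ℚ (Set.range w')) :=
    FiniteDimensional.span_of_finite ℚ (Set.finite_range w')
  calc Module.finrank (ZMod p) (Submodule.span (ZMod p) (Set.range w))
      = Module.finrank ℚ (Submodule.span ℚ (Set.range (fun i => w' (α i)))) := by rw [h4, h5]
    _ ≤ Module.finrank ℚ (Submodule.span ℚ (Set.range w')) := by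
        apply Submodule.finrank_mono
        apply Submodule.span_mono
        rintro _ ⟨i, rfl⟩
        exact ⟨α i, rfl⟩

/-- dimension of `ysum H * K[G]` is at most the index -/
theorem finrank_ysum_le (K : Type*) [Field K] (H : Subgroup G) :
    Module.finrank K (LinearMap.range (LinearMap.mulLeft K (ysum K H)))
      ≤ Nat.card (G ⧸ H) := by
  classical
  rw [range_mulLeft]
  let f : G ⧸ H → MonoidAlgebra K G := fun q => ysum K H * MonoidAlgebra.single (q.out)⁻¹ 1
  have hsub : Submodule.span K (Set.range (fun g : G => ysum K H * MonoidAlgebra.single g 1))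
      = Submodule.span K (Set.range f) := by
    congr 1
    apply Set.Subset.antisymm
    · rintro _ ⟨g, rfl⟩
      refine ⟨QuotientGroup.mk g⁻¹, ?_⟩
      obtain ⟨k, hk⟩ := QuotientGroup.mk_out_eq_mul H g⁻¹
      show ysum K H * MonoidAlgebra.single ((QuotientGroup.mk g⁻¹ : G ⧸ H).out)⁻¹ 1 = _
      rw [hk]
      have h1 : MonoidAlgebra.single (g⁻¹ * (k : G))⁻¹ (1 : K)
          = MonoidAlgebra.single ((k : G)⁻¹) 1 * MonoidAlgebra.single g 1 := by
        rw [MonoidAlgebra.single_mul_single, mul_one, mul_inv_rev, inv_inv]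
      rw [h1, ← mul_assoc, ysum_mul_single (H.inv_mem k.2)]
    · rintro _ ⟨q, rfl⟩
      exact ⟨(q.out)⁻¹, rfl⟩
  rw [hsub, Nat.card_eq_fintype_card]
  exact finrank_range_le_card f

end general

section perm

open MvPolynomial

theorem pai {X : Type*} (g : Equiv.Perm X) (x : X) : g (g⁻¹ x) = x := g.apply_symm_apply x

theorem pia {X : Type*} (g : Equiv.Perm X) (x : X) : g⁻¹ (g x) = x := g.symm_apply_apply x

section subgroups

variable {a b : ℕ} {X : Type*}

/-- permutations preserving every row -/
def rowSub (e : Fin a × Fin b ≃ X) : Subgroup (Equiv.Perm X) where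
  carrier := {h | ∀ x, (e.symm (h x)).1 = (e.symm x).1}
  mul_mem' := by
    intro g h hg hh x
    rw [Equiv.Perm.mul_apply, hg, hh]
  one_mem' := fun x => rfl
  inv_mem' := by
    intro g hg x
    have := hg (g⁻¹ x)
    rw [pai] at this
    exact this.symm

/-- permutations preserving every column -/
def colSub (e : Fin a × Fin b ≃ X) : Subgroup (Equiv.Perm X) where
  carrier := {h | ∀ x, (e.symm (h x)).2 = (e.symm x).2}
  mul_mem' := by
    intro g h hg hh x
    rw [Equiv.Perm.mul_apply, hg, hh]
  one_mem' := fun x => rfl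
  inv_mem' := by
    intro g hg x
    have := hg (g⁻¹ x)
    rw [pai] at this
    exact this.symm

/-- permutations permuting the rows -/
def wrSub (e : Fin a × Fin b ≃ X) : Subgroup (Equiv.Perm X) where
  carrier := {h | ∃ σ : Equiv.Perm (Fin a), ∀ x, (e.symm (h x)).1 = σ (e.symm x).1}
  mul_mem' := by
    rintro g h ⟨σ, hσ⟩ ⟨τ, hτ⟩
    exact ⟨σ * τ, fun x => by rw [Equiv.Perm.mul_apply, hσ, hτ, Equiv.Perm.mul_apply]⟩
  one_mem' := ⟨1, fun x => rfl⟩
  inv_mem' := by
    rintro g ⟨σ, hσ⟩
    refine ⟨σ⁻¹, fun x => ?_⟩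
    have := hσ (g⁻¹ x)
    rw [pai] at this
    rw [this, pia]

theorem mem_rowSub {e : Fin a × Fin b ≃ X} {h : Equiv.Perm X} :
    h ∈ rowSub e ↔ ∀ x, (e.symm (h x)).1 = (e.symm x).1 := Iff.rfl

theorem mem_colSub {e : Fin a × Fin b ≃ X} {h : Equiv.Perm X} :
    h ∈ colSub e ↔ ∀ x, (e.symm (h x)).2 = (e.symm x).2 := Iff.rfl


end subgroups

variable {a b : ℕ} {X : Type*} [Fintype X] [DecidableEq X]

/-- THE element: (row sum) * (column sum) -/
noncomputable def E (R : Type*) [Semiring R] (e : Fin a × Fin b ≃ X) :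
    MonoidAlgebra R (Equiv.Perm X) :=
  ysum R (rowSub e) * ysum R (colSub e)

theorem E_map {R S : Type*} [Semiring R] [Semiring S] (f : R →+* S) (e : Fin a × Fin b ≃ X) :
    MonoidAlgebra.mapRingHom (Equiv.Perm X) f (E R e) = E S e := by
  rw [E, map_mul, ysum_map, ysum_map, E]

/-- the block permutation -/
def blkP (e : Fin a × Fin b ≃ X) (σ : Equiv.Perm (Fin a)) : Equiv.Perm X :=
  e.permCongr (σ.prodCongr (Equiv.refl _))

omit [Fintype X] [DecidableEq X] in
theorem blkP_apply (e : Fin a × Fin b ≃ X) (σ : Equiv.Perm (Fin a)) (x : X) :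
    blkP e σ x = e (σ (e.symm x).1, (e.symm x).2) := by
  rw [blkP, Equiv.permCongr_apply]
  rfl

omit [Fintype X] [DecidableEq X] in
theorem symm_blkP (e : Fin a × Fin b ≃ X) (σ : Equiv.Perm (Fin a)) (x : X) :
    e.symm (blkP e σ x) = (σ (e.symm x).1, (e.symm x).2) := by
  rw [blkP_apply, Equiv.symm_apply_apply]

omit [Fintype X] [DecidableEq X] in
theorem symm_blkP_inv (e : Fin a × Fin b ≃ X) (σ : Equiv.Perm (Fin a)) (x : X) :
    e.symm ((blkP e σ)⁻¹ x) = (σ⁻¹ (e.symm x).1, (e.symm x).2) := by
  have h := symm_blkP e σ ((blkP e σ)⁻¹ x)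
  rw [pai] at h
  rw [h]
  simp

theorem wr_fix {R : Type*} [Semiring R] (e : Fin a × Fin b ≃ X) {k : Equiv.Perm X}
    (hk : k ∈ wrSub e) : MonoidAlgebra.single k 1 * E R e = E R e := by
  obtain ⟨σ, hσ⟩ := hk
  have hs : blkP e σ ∈ colSub e := fun x => by rw [symm_blkP]
  have hr : k * (blkP e σ)⁻¹ ∈ rowSub e := fun x => by
    rw [Equiv.Perm.mul_apply, hσ, symm_blkP_inv]
    simp
  have h1 : MonoidAlgebra.single k (1 : R)
      = MonoidAlgebra.single (k * (blkP e σ)⁻¹) 1 * MonoidAlgebra.single (blkP e σ) 1 := by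
    rw [MonoidAlgebra.single_mul_single, mul_one, inv_mul_cancel_right]
  have hn : ∀ g, g ∈ rowSub e ↔ blkP e σ * g * (blkP e σ)⁻¹ ∈ rowSub e := by
    intro g
    constructor
    · intro hg x
      rw [Equiv.Perm.mul_apply, Equiv.Perm.mul_apply, symm_blkP, hg, symm_blkP_inv]
      simp
    · intro hg x
      have := hg (blkP e σ x)
      rw [Equiv.Perm.mul_apply, Equiv.Perm.mul_apply, symm_blkP, pia,
        symm_blkP] at this
      simpa using this
  rw [h1, E, ← mul_assoc, mul_assoc (MonoidAlgebra.single (k * (blkP e σ)⁻¹) 1),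
    single_conj_ysum hn, ← mul_assoc, single_mul_ysum hr, mul_assoc, single_mul_ysum hs]

theorem range_E_le (e : Fin a × Fin b ≃ X) :
    LinearMap.range (LinearMap.mulLeft ℚ (E ℚ e))
      ≤ LinearMap.range (LinearMap.mulLeft ℚ (ysum ℚ (wrSub e))) := by
  rintro _ ⟨x, rfl⟩
  have h1 := ysum_mul_of_fixed (R := ℚ) (H := wrSub e) (x := E ℚ e * x) (fun h hh => by
    rw [← mul_assoc, wr_fix e hh])
  have h2 : (Nat.card (wrSub e) : ℚ) ≠ 0 := by
    exact_mod_cast Nat.card_pos.ne'
  refine ⟨(Nat.card (wrSub e) : ℚ)⁻¹ • (E ℚ e * x), ?_⟩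
  rw [LinearMap.mulLeft_apply, LinearMap.mulLeft_apply, mul_smul_comm, h1,
    ← Nat.cast_smul_eq_nsmul ℚ, smul_smul, inv_mul_cancel₀ h2, one_smul]

omit [DecidableEq X] in
theorem card_wrSub (hb : 0 < b) (e : Fin a × Fin b ≃ X) :
    b.factorial ^ a * a.factorial ≤ Nat.card (wrSub e) := by
  let φ : Equiv.Perm (Fin a) × (Fin a → Equiv.Perm (Fin b)) → wrSub e := fun p =>
    ⟨e.permCongr (Equiv.prodShear p.1 p.2), ⟨p.1, fun x => by
      rw [Equiv.permCongr_apply, Equiv.symm_apply_apply]; rfl⟩⟩
  have hφ : Function.Injective φ := by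
    rintro ⟨σ, τ⟩ ⟨σ', τ'⟩ h
    have h1 : e.permCongr (Equiv.prodShear σ τ) = e.permCongr (Equiv.prodShear σ' τ') :=
      congrArg Subtype.val h
    have h2 := e.permCongr.injective h1
    have h3 : ∀ i j, (σ i, τ i j) = (σ' i, τ' i j) := fun i j =>
      congrArg (fun q : Equiv.Perm (Fin a × Fin b) => q (i, j)) h2
    refine Prod.ext ?_ ?_
    · ext i
      have := congrArg Prod.fst (h3 i ⟨0, hb⟩)
      simpa using congrArg Fin.val this
    · funext i
      ext j
      have := congrArg Prod.snd (h3 i j)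
      simpa using congrArg Fin.val this
  have h := Nat.card_le_card_of_injective φ hφ
  rw [Nat.card_prod, Nat.card_eq_fintype_card, Nat.card_eq_fintype_card, Fintype.card_perm,
    Fintype.card_fin, Fintype.card_fun, Fintype.card_perm, Fintype.card_fin, Fintype.card_fin,
    mul_comm] at h
  exact h

/-- if the rank is as large as possible, the wreath sum lies in `E * ℚ[G]` -/
theorem exists_of_rank (p : ℕ) [hp : Fact p.Prime] (hb : 0 < b) (e : Fin a × Fin b ≃ X)
    (h : (Fintype.card X).factorial ≤ Module.finrank (ZMod p)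
      (LinearMap.range (LinearMap.mulLeft (ZMod p) (E (ZMod p) e)))
        * (b.factorial ^ a * a.factorial)) :
    ∃ y : MonoidAlgebra ℚ (Equiv.Perm X), E ℚ e * y = ysum ℚ (wrSub e) := by
  have h1 := finrank_le p (E ℤ e)
  rw [E_map, E_map] at h1
  have h2 := finrank_ysum_le ℚ (wrSub e)
  have h3 := Subgroup.card_eq_card_quotient_mul_card_subgroup (wrSub e)
  rw [Nat.card_eq_fintype_card, Fintype.card_perm] at h3
  have h4 := card_wrSub hb e
  have hpos : 0 < b.factorial ^ a * a.factorial :=
    Nat.mul_pos (pow_pos (Nat.factorial_pos _) _) (Nat.factorial_pos _)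
  have h5 : Nat.card (Equiv.Perm X ⧸ wrSub e) ≤ Module.finrank (ZMod p)
      (LinearMap.range (LinearMap.mulLeft (ZMod p) (E (ZMod p) e))) := by
    refine Nat.le_of_mul_le_mul_right ?_ hpos
    calc Nat.card (Equiv.Perm X ⧸ wrSub e) * (b.factorial ^ a * a.factorial)
        ≤ Nat.card (Equiv.Perm X ⧸ wrSub e) * Nat.card (wrSub e) := Nat.mul_le_mul_left _ h4
      _ = (Fintype.card X).factorial := h3.symm
      _ ≤ _ := h
  have hfin : FiniteDimensional ℚ (LinearMap.range (LinearMap.mulLeft ℚ (ysum ℚ (wrSub e)))) := by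
    rw [range_mulLeft]
    exact FiniteDimensional.span_of_finite ℚ (Set.finite_range _)
  have h6 := Submodule.eq_of_le_of_finrank_le (range_E_le e) ((h2.trans h5).trans h1)
  have h7 : ysum ℚ (wrSub e) ∈ LinearMap.range (LinearMap.mulLeft ℚ (E ℚ e)) := by
    rw [h6]
    exact ⟨1, by rw [LinearMap.mulLeft_apply, mul_one]⟩
  obtain ⟨y, hy⟩ := h7
  exact ⟨y, hy⟩

/-! ### evaluation in the polynomial ring -/

/-- the monomial attached to a permutation -/
noncomputable def th (e : Fin a × Fin b ≃ X) (g : Equiv.Perm X) : SA a a :=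
  ∏ x : X, MvPolynomial.X ((e.symm x).1, (e.symm (g⁻¹ x)).1)

omit [DecidableEq X] in
theorem th_row (e : Fin a × Fin b ≃ X) {h : Equiv.Perm X} (hh : h ∈ rowSub e)
    (g : Equiv.Perm X) : th e (h * g) = th e g := by
  rw [th, th]
  refine (Fintype.prod_equiv h _ _ fun x => ?_).symm
  rw [hh x, mul_inv_rev, Equiv.Perm.mul_apply, pia]

theorem perm_X_mem (f : Fin a → Fin a) :
    ∑ σ : Equiv.Perm (Fin a), ∏ i, (MvPolynomial.X (i, f (σ i)) : SA a a) ∈ D a a 1 := by
  have key := perm_mem (D a a 1) (fun i j => (MvPolynomial.X (i, f j) : SA a a)) (by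
    intro t
    have h1 : ∏ i : Fin a, ∑ j, t j • (MvPolynomial.X (i, f j) : SA a a)
        = Nm a (∑ j, t j • (MvPolynomial.X (f j) : P a)) := by
      rw [Nm]
      refine Finset.prod_congr rfl fun i _ => ?_
      rw [map_sum]
      refine Finset.sum_congr rfl fun j _ => ?_
      rw [map_smul, blk, rename_X]
    rw [h1]
    apply Nm_mem_D
    refine Submodule.sum_mem _ fun j _ => Submodule.smul_mem _ _ ?_
    rw [H, mem_homogeneousSubmodule]
    exact isHomogeneous_X _ _)
  exact key

omit [DecidableEq X] in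
theorem th_col (e : Fin a × Fin b ≃ X) (τ : Fin b → Equiv.Perm (Fin a)) (g : Equiv.Perm X)
    (c : Equiv.Perm X) (hc : ∀ i j, c⁻¹ (e (i, j)) = e (τ j i, j)) :
    th e (c * g) = ∏ j : Fin b, ∏ i : Fin a,
      MvPolynomial.X (i, (e.symm (g⁻¹ (e (τ j i, j)))).1) := by
  rw [th, ← Equiv.prod_comp e, Fintype.prod_prod_type, Finset.prod_comm]
  refine Finset.prod_congr rfl fun j _ => Finset.prod_congr rfl fun i _ => ?_
  rw [Equiv.symm_apply_apply, mul_inv_rev, Equiv.Perm.mul_apply, hc]

/-- column permutations from families -/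
def colP (e : Fin a × Fin b ≃ X) (τ : Fin b → Equiv.Perm (Fin a)) : Equiv.Perm X :=
  e.permCongr
    { toFun := fun x => (τ x.2 x.1, x.2)
      invFun := fun x => ((τ x.2)⁻¹ x.1, x.2)
      left_inv := fun x => by simp
      right_inv := fun x => by simp }

omit [Fintype X] [DecidableEq X] in
theorem colP_apply (e : Fin a × Fin b ≃ X) (τ : Fin b → Equiv.Perm (Fin a)) (x : X) :
    colP e τ x = e (τ (e.symm x).2 (e.symm x).1, (e.symm x).2) := by
  simp [colP, Equiv.permCongr_apply]

theorem sum_col (e : Fin a × Fin b ≃ X) (F : Equiv.Perm X → SA a a) [DecidablePred (· ∈ colSub e)] :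
    ∑ c : Equiv.Perm X with c ∈ colSub e, F c
      = ∑ τ : Fin b → Equiv.Perm (Fin a), F (colP e τ)⁻¹ := by
  symm
  refine Finset.sum_bij (fun τ _ => (colP e τ)⁻¹) ?_ ?_ ?_ ?_
  · intro τ _
    rw [Finset.mem_filter]
    refine ⟨Finset.mem_univ _, (colSub e).inv_mem fun x => ?_⟩
    rw [colP_apply, Equiv.symm_apply_apply]
  · intro τ _ τ' _ h
    have h1 := inv_injective h
    funext j
    ext i
    have h2 := congrArg (fun q : Equiv.Perm X => q (e (i, j))) h1
    simp only [colP_apply, Equiv.symm_apply_apply] at h2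
    have h3 := congrArg Prod.fst (e.injective h2)
    exact congrArg Fin.val h3
  · intro c hc
    rw [Finset.mem_filter] at hc
    have hc1 : c⁻¹ ∈ colSub e := (colSub e).inv_mem hc.2
    have hc2 := hc.2
    have key : ∀ (g : Equiv.Perm X), g ∈ colSub e → ∀ i j,
        e ((e.symm (g (e (i, j)))).1, j) = g (e (i, j)) := by
      intro g hg i j
      have h1 : (e.symm (g (e (i, j)))).2 = j := by rw [hg]; simp
      have h2 : ((e.symm (g (e (i, j)))).1, j) = e.symm (g (e (i, j))) := Prod.ext rfl h1.symm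
      rw [h2, Equiv.apply_symm_apply]
    refine ⟨fun j =>
      { toFun := fun i => (e.symm (c⁻¹ (e (i, j)))).1
        invFun := fun i => (e.symm (c (e (i, j)))).1
        left_inv := fun i => by
          show (e.symm (c (e ((e.symm (c⁻¹ (e (i, j)))).1, j)))).1 = i
          rw [key c⁻¹ hc1, pai, Equiv.symm_apply_apply]
        right_inv := fun i => by
          show (e.symm (c⁻¹ (e ((e.symm (c (e (i, j)))).1, j)))).1 = i
          rw [key c hc2, pia, Equiv.symm_apply_apply] }, Finset.mem_univ _, ?_⟩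
    rw [inv_eq_iff_eq_inv]
    ext x
    rw [colP_apply]
    show e ((e.symm (c⁻¹ (e ((e.symm x).1, (e.symm x).2)))).1, (e.symm x).2) = c⁻¹ x
    rw [key c⁻¹ hc1, Prod.mk.eta, Equiv.apply_symm_apply]
  · intro τ _
    rfl

theorem sum_th_mem (e : Fin a × Fin b ≃ X) (g : Equiv.Perm X) [DecidablePred (· ∈ colSub e)] :
    ∑ c : Equiv.Perm X with c ∈ colSub e, th e (c * g) ∈ D a a 1 ^ b := by
  rw [sum_col]
  have h1 : ∀ τ : Fin b → Equiv.Perm (Fin a), th e ((colP e τ)⁻¹ * g)
      = ∏ j : Fin b, ∏ i : Fin a, MvPolynomial.X (i, (e.symm (g⁻¹ (e (τ j i, j)))).1) := by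
    intro τ
    apply th_col
    intro i j
    rw [inv_inv, colP_apply, Equiv.symm_apply_apply]
  rw [Finset.sum_congr rfl fun τ _ => h1 τ]
  have h2 := Finset.prod_univ_sum (fun _ : Fin b => (Finset.univ : Finset (Equiv.Perm (Fin a))))
    (fun j σ => ∏ i : Fin a, (MvPolynomial.X (i, (e.symm (g⁻¹ (e (σ i, j)))).1) : SA a a))
  rw [Fintype.piFinset_univ] at h2
  rw [← h2]
  have h3 : ∀ s : Finset (Fin b), ∏ j ∈ s, ∑ σ : Equiv.Perm (Fin a), ∏ i : Fin a,
      (MvPolynomial.X (i, (e.symm (g⁻¹ (e (σ i, j)))).1) : SA a a) ∈ D a a 1 ^ s.card := by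
    intro s
    induction s using Finset.induction_on with
    | empty => rw [Finset.prod_empty, Finset.card_empty, pow_zero]; exact Submodule.one_le.1 le_rfl
    | insert j s hj ih =>
      rw [Finset.prod_insert hj, Finset.card_insert_of_notMem hj, pow_succ']
      exact Submodule.mul_mem_mul (perm_X_mem (fun i => (e.symm (g⁻¹ (e (i, j)))).1)) ih
  have h4 := h3 Finset.univ
  rwa [Finset.card_univ, Fintype.card_fin] at h4

/-- linear extension of `th` -/
noncomputable def thL (e : Fin a × Fin b ≃ X) :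
    MonoidAlgebra ℂ (Equiv.Perm X) →ₗ[ℂ] SA a a :=
  (Finsupp.linearCombination ℂ (th e)) ∘ₗ (MonoidAlgebra.coeffLinearEquiv ℂ).toLinearMap

omit [DecidableEq X] in
theorem thL_single (e : Fin a × Fin b ≃ X) (g : Equiv.Perm X) (c : ℂ) :
    thL e (MonoidAlgebra.single g c) = c • th e g := by
  show Finsupp.linearCombination ℂ (th e) (MonoidAlgebra.single g c).coeff = _
  rw [MonoidAlgebra.coeff_single, Finsupp.linearCombination_single]

theorem thL_E_mem (e : Fin a × Fin b ≃ X) (y : MonoidAlgebra ℂ (Equiv.Perm X)) :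
    thL e (E ℂ e * y) ∈ D a a 1 ^ b := by
  classical
  induction y using MonoidAlgebra.induction_linear with
  | zero => rw [mul_zero, map_zero]; exact Submodule.zero_mem _
  | add x y hx hy => rw [mul_add, map_add]; exact Submodule.add_mem _ hx hy
  | single g c =>
    have h1 : E ℂ e * MonoidAlgebra.single g c
        = ∑ r : Equiv.Perm X with r ∈ rowSub e, ∑ q : Equiv.Perm X with q ∈ colSub e,
            MonoidAlgebra.single (r * (q * g)) c := by
      rw [E, ysum, ysum, Finset.sum_mul, Finset.sum_mul, Finset.sum_filter]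
      refine Finset.sum_congr rfl fun r _ => ?_
      split_ifs with hr
      · rw [Finset.mul_sum, Finset.sum_mul, Finset.sum_filter]
        refine Finset.sum_congr rfl fun q _ => ?_
        split_ifs with hq
        · rw [MonoidAlgebra.single_mul_single, MonoidAlgebra.single_mul_single, mul_assoc, one_mul,
            one_mul]
        · rw [mul_zero, zero_mul]
      · rw [zero_mul, zero_mul]
    rw [h1, map_sum]
    refine Submodule.sum_mem _ fun r hr => ?_
    rw [map_sum]
    rw [Finset.mem_filter] at hr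
    have h2 : ∑ q : Equiv.Perm X with q ∈ colSub e, thL e (MonoidAlgebra.single (r * (q * g)) c)
        = c • ∑ q : Equiv.Perm X with q ∈ colSub e, th e (q * g) := by
      rw [Finset.smul_sum]
      refine Finset.sum_congr rfl fun q _ => ?_
      rw [thL_single, th_row e hr.2]
    rw [h2]
    exact Submodule.smul_mem _ _ (sum_th_mem e g)

omit [DecidableEq X] in
theorem th_wr (e : Fin a × Fin b ≃ X) {k : Equiv.Perm X} {ρ : Equiv.Perm (Fin a)}
    (hk : ∀ x, (e.symm (k x)).1 = ρ (e.symm x).1) :
    th e k = ∏ i : Fin a, MvPolynomial.X (i, ρ⁻¹ i) ^ b := by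
  have hk' : ∀ x, (e.symm (k⁻¹ x)).1 = ρ⁻¹ (e.symm x).1 := by
    intro x
    have := hk (k⁻¹ x)
    rw [pai] at this
    rw [this, pia]
  rw [th, ← Equiv.prod_comp e, Fintype.prod_prod_type]
  refine Finset.prod_congr rfl fun i _ => ?_
  have h1 : ∀ j ∈ (Finset.univ : Finset (Fin b)),
      (MvPolynomial.X ((e.symm (e (i, j))).1, (e.symm (k⁻¹ (e (i, j)))).1) : SA a a)
        = MvPolynomial.X (i, ρ⁻¹ i) := by
    intro j _
    rw [hk', Equiv.symm_apply_apply]
  rw [Finset.prod_congr rfl h1, Finset.prod_const, Finset.card_univ, Fintype.card_fin]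

theorem thL_wr (e : Fin a × Fin b ≃ X) :
    (a.factorial : ℂ) • thL e (ysum ℂ (wrSub e)) = (Nat.card (wrSub e) : ℂ) • T a b := by
  classical
  have h0 : thL e (ysum ℂ (wrSub e)) = ∑ k : Equiv.Perm X with k ∈ wrSub e, th e k := by
    rw [ysum, map_sum, Finset.sum_filter]
    refine Finset.sum_congr rfl fun k _ => ?_
    split_ifs with hk
    · rw [thL_single, one_smul]
    · rw [map_zero]
  have h1 : ∀ σ : Equiv.Perm (Fin a), ∑ k : Equiv.Perm X with k ∈ wrSub e, th e (blkP e σ * k)
      = ∑ k : Equiv.Perm X with k ∈ wrSub e, th e k := by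
    intro σ
    have hσ : blkP e σ ∈ wrSub e := ⟨σ, fun x => by rw [symm_blkP]⟩
    refine Finset.sum_bij (fun k _ => blkP e σ * k) ?_ ?_ ?_ ?_
    · intro k hk
      rw [Finset.mem_filter] at hk ⊢
      exact ⟨Finset.mem_univ _, (wrSub e).mul_mem hσ hk.2⟩
    · intro k _ k' _ h
      exact mul_left_cancel h
    · intro k hk
      rw [Finset.mem_filter] at hk
      refine ⟨(blkP e σ)⁻¹ * k, ?_, by rw [mul_inv_cancel_left]⟩
      rw [Finset.mem_filter]
      exact ⟨Finset.mem_univ _, (wrSub e).mul_mem ((wrSub e).inv_mem hσ) hk.2⟩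
    · intro k _
      rfl
  have h2 : ∑ σ : Equiv.Perm (Fin a), ∑ k : Equiv.Perm X with k ∈ wrSub e, th e (blkP e σ * k)
      = (a.factorial : ℂ) • ∑ k : Equiv.Perm X with k ∈ wrSub e, th e k := by
    rw [Finset.sum_congr rfl fun σ _ => h1 σ, Finset.sum_const, Finset.card_univ,
      Fintype.card_perm, Fintype.card_fin, Nat.cast_smul_eq_nsmul]
  have h3 : ∀ k ∈ (Finset.univ : Finset (Equiv.Perm X)).filter (· ∈ wrSub e),
      ∑ σ : Equiv.Perm (Fin a), th e (blkP e σ * k) = T a b := by
    intro k hk
    obtain ⟨ρ, hρ⟩ := (Finset.mem_filter.1 hk).2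
    have h4 : ∀ σ : Equiv.Perm (Fin a), th e (blkP e σ * k)
        = ∏ i : Fin a, MvPolynomial.X (i, (σ * ρ)⁻¹ i) ^ b := by
      intro σ
      apply th_wr
      intro x
      rw [Equiv.Perm.mul_apply, symm_blkP, hρ, Equiv.Perm.mul_apply]
    rw [Finset.sum_congr rfl fun σ _ => h4 σ, T]
    refine Fintype.sum_equiv ((Equiv.mulRight ρ).trans (Equiv.inv _)) _ _ fun σ => ?_
    rfl
  rw [h0, ← h2, Finset.sum_comm, Finset.sum_congr rfl h3, Finset.sum_const,
    ← Nat.cast_smul_eq_nsmul ℂ]
  congr 2
  rw [Nat.card_eq_fintype_card, Fintype.card_subtype]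

/-- THE LINK (PLAN S, block A4) -/
theorem link (p : ℕ) [hp : Fact p.Prime] (hb : 0 < b) (e : Fin a × Fin b ≃ X)
    (h : (Fintype.card X).factorial ≤ Module.finrank (ZMod p)
      (LinearMap.range (LinearMap.mulLeft (ZMod p) (E (ZMod p) e)))
        * (b.factorial ^ a * a.factorial)) :
    T a b ∈ D a a 1 ^ b := by
  obtain ⟨y, hy⟩ := exists_of_rank p hb e h
  have h1 := congrArg (MonoidAlgebra.mapRingHom (Equiv.Perm X) (algebraMap ℚ ℂ)) hy
  rw [map_mul, E_map, ysum_map] at h1
  have h2 := thL_E_mem e (MonoidAlgebra.mapRingHom (Equiv.Perm X) (algebraMap ℚ ℂ) y)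
  rw [h1] at h2
  have h3 := Submodule.smul_mem _ (a.factorial : ℂ) h2
  rw [thL_wr] at h3
  have h4 : (Nat.card (wrSub e) : ℂ) ≠ 0 := by exact_mod_cast Nat.card_pos.ne'
  have h5 := Submodule.smul_mem _ ((Nat.card (wrSub e) : ℂ)⁻¹) h3
  rwa [smul_smul, inv_mul_cancel₀ h4, one_smul] at h5

/-- the case needed for S0286 -/
theorem link67 (p : ℕ) [hp : Fact p.Prime] (e : Fin 6 × Fin 7 ≃ Fin 42)
    (h : Nat.factorial 42 ≤ Module.finrank (ZMod p)
      (LinearMap.range (LinearMap.mulLeft (ZMod p) (E (ZMod p) e)))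
        * (Nat.factorial 7 ^ 6 * Nat.factorial 6)) :
    T 6 7 ∈ D 6 6 1 ^ 7 := by
  apply link p (by norm_num) e
  rwa [Fintype.card_fin]

end perm

end Crest.Agent.R187.SN.Link
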