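import Crest.Agent.R187.SN.Spec
import Crest.Agent.R187.SN.Dim
import Crest.Agent.R187.SN.Link

/-!
# Row 187, PLAN S: assembly of the blocks

Open interfaces: `TargetC` (theory of the recursion), `TargetE` (certificate), `TargetF` (count).
-/

set_option autoImplicit false

namespace Crest.Agent.R187.SN.Assemble

open Crest.Agent.R187 Crest.Agent.R187.SN Module

/-- row-major identification -/
def e67 : Fin 6 × Fin 7 ≃ Fin 42 := finProdFinEquiv

/-- (C): the computed spaces `Spec.D` embed into the range of `E` on the seminormal module -/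
def TargetC (K : Type*) [Field K] : Prop :=
  ∀ (B : ℕ) (hK : HK K B) (hB : Bd B (0 : Fin 6 → ℕ) (41 + 1)) (lam : Spec.Sh), Antitone lam →
    ∑ i, lam i = 42 →
    ∃ ι : (Spec.D K 6 7 lam) →ₗ[K] (V K (0 : Fin 6 → ℕ) (41 + 1)), Function.Injective ι ∧
      (∀ x, ι x ∈ LinearMap.range (rhoA hK hB (Link.E K e67))) ∧
      ∀ x w, sh 0 w ≠ lam → (ι x : List (Fin 6) → K) w = 0

/-- (E): lower bounds for the dimensions of the computed spaces -/
def TargetE (K : Type*) [Field K] (Λ : Finset Spec.Sh) (m : Spec.Sh → ℕ) : Prop :=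
  ∀ lam ∈ Λ, Antitone lam ∧ ∑ i, lam i = 42 ∧ m lam ≤ finrank K (Spec.D K 6 7 lam)

/-- (F): the count -/
def TargetF (Λ : Finset Spec.Sh) (m : Spec.Sh → ℕ) : Prop :=
  Nat.factorial 42 ≤ (∑ lam ∈ Λ, m lam * (LW 42 lam).card) * (Nat.factorial 7 ^ 6 * Nat.factorial 6)

/-- assembly -/
theorem assemble (p : ℕ) [hp : Fact p.Prime] (hp48 : 48 < p) (Λ : Finset Spec.Sh) (m : Spec.Sh → ℕ)
    (hC : TargetC (ZMod p)) (hE : TargetE (ZMod p) Λ m) (hF : TargetF Λ m) :
    Crest.Agent.R187.T 6 7 ∈ Crest.Agent.R187.D 6 6 1 ^ 7 := by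
  apply Link.link67 p e67
  refine hF.trans (Nat.mul_le_mul_right _ ?_)
  have hK : HK (ZMod p) 48 := by
    intro k hk hk'
    intro h
    rw [ZMod.natCast_eq_zero_iff] at h
    exact absurd (Nat.le_of_dvd hk h) (by omega)
  have hB : Bd 48 (0 : Fin 6 → ℕ) (41 + 1) := by
    intro a
    simp
  have key : ∀ lam ∈ Λ, ∃ z : Fin (m lam) → V (ZMod p) (0 : Fin 6 → ℕ) (41 + 1),
      (∀ j, z j ∈ LinearMap.range (rhoA hK hB (Link.E (ZMod p) e67))) ∧
      (∀ j w, sh 0 w ≠ lam → (z j : List (Fin 6) → ZMod p) w = 0) ∧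
      LinearIndependent (ZMod p) z := by
    intro lam hlam
    obtain ⟨h1, h2, h3⟩ := hE lam hlam
    obtain ⟨ι, hi, hr, hs⟩ := hC 48 hK hB lam h1 h2
    rcases Nat.eq_zero_or_pos (m lam) with h0 | h0
    · refine ⟨fun _ => 0, ?_, ?_, ?_⟩
      · intro j; exact absurd j.2 (by omega)
      · intro j; exact absurd j.2 (by omega)
      · have : IsEmpty (Fin (m lam)) := by rw [h0]; infer_instance
        exact linearIndependent_empty_type
    · have hfin : Module.Finite (ZMod p) (Spec.D (ZMod p) 6 7 lam) :=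
        Module.finite_of_finrank_pos (by omega)
      obtain ⟨v, hv⟩ := exists_linearIndependent_of_le_finrank h3
      refine ⟨fun j => ι (v j), fun j => hr _, fun j w hw => hs _ w hw, ?_⟩
      exact hv.map' ι (LinearMap.ker_eq_bot.2 hi)
  choose! z hz1 hz2 hz3 using key
  exact dim_ge hK hB (Link.E (ZMod p) e67) Λ m z hz1 hz2 hz3

end Crest.Agent.R187.SN.Assemble
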