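import Mathlib

/-!
# Row 187, PLAN S, block E1: packed matrices mod `p = 2^k - 1` inside one natural number

A matrix with row stride `S` and slot width `W` bits is one number `x`; its entry `(i, j)` is the
slot `S * i + j` of `x`: `slot W x n = x / (2^W)^n % 2^W`, and
`mat p W S r c x : Matrix (Fin r) (Fin c) (ZMod p)` is the matrix of the residues.
`Good W k S r c x`: all slots are `< 2^k` and vanish outside `i < r, j < c`.

All kernel functions use raw `Nat.add, Nat.mul, Nat.land, Nat.shiftRight, Nat.mod, ...` only.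
-/

set_option autoImplicit false

namespace Crest.Agent.R187.SN.Kern

open Polynomial

/-! ### slots -/

/-- the `i`-th slot (width `W` bits) of `x`; kernel-friendly -/
def slot (W x i : ℕ) : ℕ := Nat.mod (Nat.shiftRight x (Nat.mul W i)) (Nat.pow 2 W)

theorem slot_def (W x i : ℕ) : slot W x i = x / (2 ^ W) ^ i % 2 ^ W := by
  show x >>> (W * i) % 2 ^ W = _
  rw [Nat.shiftRight_eq_div_pow, pow_mul]

theorem slot_lt (W x i : ℕ) : slot W x i < 2 ^ W := by
  rw [slot_def]; exact Nat.mod_lt _ (by positivity)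

theorem eval_split (b : ℕ) (P : ℕ[X]) : P.eval b = b * P.divX.eval b + P.coeff 0 := by
  conv_lhs => rw [← Polynomial.divX_mul_X_add P]
  rw [eval_add, eval_mul, eval_X, eval_C, mul_comm]

theorem eval_div_pow (b : ℕ) (hb : 0 < b) (i : ℕ) : ∀ (P : ℕ[X]), (∀ j, P.coeff j < b) →
    P.eval b / b ^ i % b = P.coeff i := by
  induction i with
  | zero =>
    intro P hP
    rw [eval_split, pow_zero, Nat.div_one, Nat.mul_add_mod, Nat.mod_eq_of_lt (hP 0)]
  | succ i ih =>
    intro P hP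
    have h1 : P.eval b / b = P.divX.eval b := by
      rw [eval_split, Nat.mul_add_div hb, Nat.div_eq_of_lt (hP 0), add_zero]
    rw [pow_succ', ← Nat.div_div_eq_div_mul, h1, ih P.divX
      (fun j => by rw [coeff_divX]; exact hP _), coeff_divX]

theorem slot_eval {W : ℕ} (P : ℕ[X]) (hP : ∀ j, P.coeff j < 2 ^ W) (i : ℕ) :
    slot W (P.eval (2 ^ W)) i = P.coeff i := by
  rw [slot_def]; exact eval_div_pow _ (by positivity) i P hP

/-- the polynomial of the slots -/
noncomputable def sp (W x : ℕ) : ℕ[X] := ∑ i ∈ Finset.range (x + 1), monomial i (slot W x i)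

theorem sum_slots (b x : ℕ) : ∀ n, ∑ i ∈ Finset.range n, (x / b ^ i % b) * b ^ i = x % b ^ n := by
  intro n
  induction n with
  | zero => simp [Nat.mod_one]
  | succ n ih => rw [Finset.sum_range_succ, ih, Nat.mod_pow_succ, mul_comm]

theorem sp_eval {W : ℕ} (hW : 0 < W) (x : ℕ) : (sp W x).eval (2 ^ W) = x := by
  have h : (sp W x).eval (2 ^ W) = x % (2 ^ W) ^ (x + 1) := by
    rw [sp, eval_finsetSum, ← sum_slots]
    refine Finset.sum_congr rfl (fun i _ => ?_)
    rw [eval_monomial, slot_def]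
  rw [h]
  refine Nat.mod_eq_of_lt ?_
  have h2 : x < 2 ^ x := Nat.lt_two_pow_self
  have h3 : 2 ^ x ≤ 2 ^ (W * (x + 1)) :=
    Nat.pow_le_pow_right (by norm_num) (by nlinarith)
  rw [← pow_mul]; omega

theorem slot_zero_of_lt {W x i : ℕ} (h : x < 2 ^ (W * i)) : slot W x i = 0 := by
  rw [slot_def, ← pow_mul, Nat.div_eq_of_lt h, Nat.zero_mod]

@[simp] theorem slot_zero (W i : ℕ) : slot W 0 i = 0 := by simp [slot_def]

theorem sp_coeff {W : ℕ} (hW : 0 < W) (x i : ℕ) : (sp W x).coeff i = slot W x i := by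
  rw [sp, finsetSum_coeff]
  simp only [coeff_monomial]
  rw [Finset.sum_ite_eq']
  split_ifs with h
  · rfl
  · rw [Finset.mem_range, not_lt] at h
    refine (slot_zero_of_lt ?_).symm
    have h2 : x < 2 ^ x := Nat.lt_two_pow_self
    have h3 : 2 ^ x ≤ 2 ^ (W * i) := Nat.pow_le_pow_right (by norm_num) (by nlinarith)
    omega

theorem ext_slot {W x y : ℕ} (hW : 0 < W) (h : ∀ i, slot W x i = slot W y i) : x = y := by
  rw [← sp_eval hW x, ← sp_eval hW y]
  congr 1
  ext i
  rw [sp_coeff hW, sp_coeff hW, h]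

theorem slot_add {W x y i : ℕ} (hW : 0 < W) (h : ∀ j, slot W x j + slot W y j < 2 ^ W) :
    slot W (Nat.add x y) i = slot W x i + slot W y i := by
  have h1 : Nat.add x y = (sp W x + sp W y).eval (2 ^ W) := by
    rw [eval_add, sp_eval hW, sp_eval hW]; rfl
  rw [h1, slot_eval]
  · rw [coeff_add, sp_coeff hW, sp_coeff hW]
  · intro j; rw [coeff_add, sp_coeff hW, sp_coeff hW]; exact h j

theorem slot_smul {W c x i : ℕ} (hW : 0 < W) (h : ∀ j, c * slot W x j < 2 ^ W) :
    slot W (Nat.mul c x) i = c * slot W x i := by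
  have h1 : Nat.mul c x = (C c * sp W x).eval (2 ^ W) := by
    rw [eval_mul, eval_C, sp_eval hW]; rfl
  rw [h1, slot_eval]
  · rw [coeff_C_mul, sp_coeff hW]
  · intro j; rw [coeff_C_mul, sp_coeff hW]; exact h j

theorem slot_sub {W x y i : ℕ} (hW : 0 < W) (h : ∀ j, slot W y j ≤ slot W x j) :
    slot W (Nat.sub x y) i = slot W x i - slot W y i := by
  set D : ℕ[X] := ∑ j ∈ Finset.range (x + 1), monomial j (slot W x j - slot W y j) with hD
  have hc : ∀ j, D.coeff j = slot W x j - slot W y j := by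
    intro j
    rw [hD, finsetSum_coeff]
    simp only [coeff_monomial]
    rw [Finset.sum_ite_eq']
    split_ifs with h1
    · rfl
    · have h2 := sp_coeff hW x j
      have h3 : (sp W x).coeff j = 0 := by
        rw [sp, finsetSum_coeff]
        simp only [coeff_monomial]
        rw [Finset.sum_ite_eq', if_neg h1]
      rw [← h2, h3, Nat.zero_sub]
  have h0 : sp W x = sp W y + D := by
    ext j
    rw [coeff_add, hc, sp_coeff hW, sp_coeff hW]
    have := h j
    omega
  have h4 : Nat.sub x y = D.eval (2 ^ W) := by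
    show x - y = _
    have h5 := congrArg (Polynomial.eval (2 ^ W)) h0
    rw [eval_add, sp_eval hW, sp_eval hW] at h5
    omega
  rw [h4, slot_eval _ (fun j => by rw [hc]; have := slot_lt W x j; omega), hc]

theorem slot_sum {W : ℕ} (hW : 0 < W) (f : ℕ → ℕ) (K : ℕ)
    (h : ∀ n, ∑ j ∈ Finset.range K, slot W (f j) n < 2 ^ W) (n : ℕ) :
    slot W (∑ j ∈ Finset.range K, f j) n = ∑ j ∈ Finset.range K, slot W (f j) n := by
  have h1 : ∑ j ∈ Finset.range K, f j = (∑ j ∈ Finset.range K, sp W (f j)).eval (2 ^ W) := by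
    rw [eval_finsetSum]
    exact Finset.sum_congr rfl (fun j _ => (sp_eval hW _).symm)
  have h2 : ∀ n, (∑ j ∈ Finset.range K, sp W (f j)).coeff n
      = ∑ j ∈ Finset.range K, slot W (f j) n := by
    intro n
    rw [finsetSum_coeff]
    exact Finset.sum_congr rfl (fun j _ => sp_coeff hW _ _)
  rw [h1, slot_eval _ (fun j => by rw [h2]; exact h j), h2]


/-- shifting by whole slots to the right -/
theorem slot_shr {W : ℕ} (x j n : ℕ) : slot W (Nat.shiftRight x (Nat.mul W j)) n
    = slot W x (j + n) := by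
  rw [slot_def, slot_def]
  show (x >>> (W * j)) / (2 ^ W) ^ n % 2 ^ W = _
  rw [Nat.shiftRight_eq_div_pow, pow_mul, Nat.div_div_eq_div_mul, ← pow_add]

/-- shifting by whole slots to the left -/
theorem slot_shl {W : ℕ} (hW : 0 < W) (x j n : ℕ) :
    slot W (Nat.shiftLeft x (Nat.mul W j)) n = if j ≤ n then slot W x (n - j) else 0 := by
  have h1 : Nat.shiftLeft x (Nat.mul W j) = (sp W x * X ^ j).eval (2 ^ W) := by
    rw [eval_mul, sp_eval hW, eval_pow, eval_X]
    show x <<< (W * j) = _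
    rw [Nat.shiftLeft_eq, pow_mul]
  have h2 : ∀ n, (sp W x * X ^ j).coeff n = if j ≤ n then slot W x (n - j) else 0 := by
    intro n
    rw [coeff_mul_X_pow']
    split_ifs
    · exact sp_coeff hW _ _
    · rfl
  rw [h1, slot_eval _ (fun m => by rw [h2]; split_ifs; exacts [slot_lt _ _ _, by positivity]), h2]

/-- truncation to `S` slots -/
theorem slot_mod {W : ℕ} (x S n : ℕ) :
    slot W (Nat.mod x (Nat.pow 2 (Nat.mul W S))) n = if n < S then slot W x n else 0 := by
  rw [slot_def, slot_def]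
  show x % 2 ^ (W * S) / (2 ^ W) ^ n % 2 ^ W = _
  split_ifs with h
  · have h1 : (2 : ℕ) ^ (W * S) = (2 ^ W) ^ n * (2 ^ W) ^ (S - n) := by
      rw [← pow_add, pow_mul]; congr 1; omega
    rw [h1, Nat.mod_mul_right_div_self, Nat.mod_mod_of_dvd]
    exact dvd_pow_self _ (by omega)
  · have h1 : x % 2 ^ (W * S) < (2 ^ W) ^ n := by
      calc x % 2 ^ (W * S) < 2 ^ (W * S) := Nat.mod_lt _ (by positivity)
        _ ≤ (2 ^ W) ^ n := by
          rw [← pow_mul]
          exact Nat.pow_le_pow_right (by norm_num) (Nat.mul_le_mul_left _ (not_lt.1 h))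
    rw [Nat.div_eq_of_lt h1, Nat.zero_mod]

/-! ### bitwise operations on slots -/

theorem slot_land (W x y i : ℕ) : slot W (Nat.land x y) i = Nat.land (slot W x i) (slot W y i) := by
  show (x &&& y) >>> (W * i) % 2 ^ W = (x >>> (W * i) % 2 ^ W) &&& (y >>> (W * i) % 2 ^ W)
  rw [Nat.shiftRight_and_distrib, Nat.and_mod_two_pow]

/-- `∑_{i<n} 2^{W i}`; kernel-friendly -/
def ones (W n : ℕ) : ℕ := Nat.div (Nat.sub (Nat.pow 2 (Nat.mul W n)) 1) (Nat.sub (Nat.pow 2 W) 1)

theorem ones_eq {W : ℕ} (hW : 0 < W) (n : ℕ) :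
    ones W n = ∑ i ∈ Finset.range n, (2 ^ W) ^ i := by
  have h2 : 2 ≤ 2 ^ W := by
    calc 2 = 2 ^ 1 := rfl
      _ ≤ 2 ^ W := Nat.pow_le_pow_right (by norm_num) hW
  rw [Nat.geomSum_eq h2]
  show (2 ^ (W * n) - 1) / (2 ^ W - 1) = _
  rw [pow_mul]

/-- all entries of the block `i < r, j < c` (row stride `S`) equal to `m` -/
def blk (W S r c m : ℕ) : ℕ := Nat.mul m (Nat.mul (ones (Nat.mul W S) r) (ones W c))

theorem slot_blk {W S c m : ℕ} (hW : 0 < W) (hS : 0 < S) (hc : c ≤ S) (hm : m < 2 ^ W) (r n : ℕ) :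
    slot W (blk W S r c m) n = if n / S < r ∧ n % S < c then m else 0 := by
  have h1 : blk W S r c m = (∑ i ∈ Finset.range r, ∑ j ∈ Finset.range c,
      monomial (S * i + j) m : ℕ[X]).eval (2 ^ W) := by
    have hWS : 0 < W * S := Nat.mul_pos hW hS
    show m * (ones (W * S) r * ones W c) = _
    rw [ones_eq hWS, ones_eq hW, Finset.sum_mul_sum, Finset.mul_sum, eval_finsetSum]
    refine Finset.sum_congr rfl (fun i _ => ?_)
    rw [Finset.mul_sum, eval_finsetSum]
    refine Finset.sum_congr rfl (fun j _ => ?_)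
    rw [eval_monomial, pow_add, ← pow_mul, ← pow_mul, ← pow_mul, ← mul_assoc W S i]
  have h2 : ∀ n, (∑ i ∈ Finset.range r, ∑ j ∈ Finset.range c,
      monomial (S * i + j) m : ℕ[X]).coeff n = if n / S < r ∧ n % S < c then m else 0 := by
    intro n
    rw [finsetSum_coeff]
    have h3 : ∀ i ∈ Finset.range r, (∑ j ∈ Finset.range c, monomial (S * i + j) m : ℕ[X]).coeff n
        = if i = n / S then (if n % S < c then m else 0) else 0 := by
      intro i _
      rw [finsetSum_coeff]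
      simp only [coeff_monomial]
      split_ifs with h4 h5
      · rw [Finset.sum_eq_single (n % S)]
        · rw [if_pos]; rw [h4]; exact Nat.div_add_mod n S
        · intro j _ hj
          rw [if_neg]
          intro h6
          apply hj
          have := Nat.div_add_mod n S
          rw [h4] at h6; omega
        · intro h6; exact absurd (Finset.mem_range.2 h5) h6
      · refine Finset.sum_eq_zero (fun j hj => ?_)
        rw [if_neg]
        intro h6
        have h7 := Finset.mem_range.1 hj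
        have := Nat.div_add_mod n S
        rw [h4] at h6; omega
      · refine Finset.sum_eq_zero (fun j hj => ?_)
        rw [if_neg]
        intro h6
        apply h4
        have h7 := Finset.mem_range.1 hj
        rw [← h6, Nat.mul_add_div hS, Nat.div_eq_of_lt (by omega), add_zero]
    rw [Finset.sum_congr rfl h3, Finset.sum_ite_eq']
    by_cases h5 : n / S < r
    · simp [h5]
    · simp [h5]
  rw [h1, slot_eval _ (fun j => by rw [h2]; split_ifs; exacts [hm, by positivity]), h2]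

/-! ### slotwise reduction modulo `p = 2^k - 1` -/

/-- `x ↦ (x &&& lo) + ((x >>> k) &&& hi)` -/
def fold (k lo hi x : ℕ) : ℕ := Nat.add (Nat.land x lo) (Nat.land (Nat.shiftRight x k) hi)

/-- the effect of `fold` on one slot -/
def f1 (k c : ℕ) : ℕ := c % 2 ^ k + c / 2 ^ k

theorem slot_shiftRight {W k x i : ℕ} (hk : k ≤ W) :
    (slot W (Nat.shiftRight x k) i) % 2 ^ (W - k) = slot W x i / 2 ^ k := by
  rw [slot_def, slot_def]
  show (x >>> k) / (2 ^ W) ^ i % 2 ^ W % 2 ^ (W - k) = x / (2 ^ W) ^ i % 2 ^ W / 2 ^ k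
  have h1 : (2 : ℕ) ^ W = 2 ^ k * 2 ^ (W - k) := by rw [← pow_add]; congr 1; omega
  rw [Nat.mod_mod_of_dvd _ (Nat.pow_dvd_pow 2 (by omega)), Nat.shiftRight_eq_div_pow,
    Nat.div_div_eq_div_mul, mul_comm (2 ^ k), ← Nat.div_div_eq_div_mul]
  have h2 := Nat.mod_mul_right_div_self (x / (2 ^ W) ^ i) (2 ^ k) (2 ^ (W - k))
  rw [← h1] at h2
  exact h2.symm

theorem slot_fold {W k S r c : ℕ} (hk0 : 0 < k) (hk : k < W) (hS : 0 < S) (hc : c ≤ S)
    (x n : ℕ) :
    slot W (fold k (blk W S r c (2 ^ k - 1)) (blk W S r c (2 ^ (W - k) - 1)) x) n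
      = if n / S < r ∧ n % S < c then f1 k (slot W x n) else 0 := by
  have hW : 0 < W := by omega
  have hkW : k ≤ W := by omega
  have hlt1 : 2 ^ k - 1 < 2 ^ W := lt_of_lt_of_le (Nat.sub_lt (by positivity) one_pos)
    (Nat.pow_le_pow_right (by norm_num) hkW)
  have hlt2 : 2 ^ (W - k) - 1 < 2 ^ W := lt_of_lt_of_le (Nat.sub_lt (by positivity) one_pos)
    (Nat.pow_le_pow_right (by norm_num) (by omega))
  have e1 : ∀ j, slot W (Nat.land x (blk W S r c (2 ^ k - 1))) j
      = if j / S < r ∧ j % S < c then slot W x j % 2 ^ k else 0 := by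
    intro j
    rw [slot_land, slot_blk hW hS hc hlt1]
    split_ifs with h
    · exact Nat.and_two_pow_sub_one_eq_mod _ _
    · exact Nat.and_zero _
  have e2 : ∀ j, slot W (Nat.land (Nat.shiftRight x k) (blk W S r c (2 ^ (W - k) - 1))) j
      = if j / S < r ∧ j % S < c then slot W x j / 2 ^ k else 0 := by
    intro j
    rw [slot_land, slot_blk hW hS hc hlt2]
    split_ifs with h
    · rw [← slot_shiftRight hkW]; exact Nat.and_two_pow_sub_one_eq_mod _ _
    · exact Nat.and_zero _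
  rw [fold, slot_add hW, e1, e2, f1]
  · split_ifs <;> rfl
  · intro j
    rw [e1, e2]
    have h1 : slot W x j % 2 ^ k < 2 ^ k := Nat.mod_lt _ (by positivity)
    have h2 : slot W x j / 2 ^ k < 2 ^ (W - k) := by
      rw [Nat.div_lt_iff_lt_mul (by positivity), ← pow_add]
      calc slot W x j < 2 ^ W := slot_lt W x j
        _ = 2 ^ (W - k + k) := by congr 1; omega
    have h3 : 2 ^ k + 2 ^ (W - k) ≤ 2 ^ W := by
      have a1 : (2 : ℕ) ^ k ≤ 2 ^ (W - 1) := Nat.pow_le_pow_right (by norm_num) (by omega)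
      have a2 : (2 : ℕ) ^ (W - k) ≤ 2 ^ (W - 1) := Nat.pow_le_pow_right (by norm_num) (by omega)
      have a3 : (2 : ℕ) ^ W = 2 ^ (W - 1) + 2 ^ (W - 1) := by
        rw [← two_mul, ← pow_succ']; congr 1; omega
      omega
    split_ifs
    · omega
    · positivity

/-- the residue is unchanged by one folding step -/
theorem f1_mod (k c : ℕ) : f1 k c ≡ c [MOD (2 ^ k - 1)] := by
  have h1 : c = 2 ^ k * (c / 2 ^ k) + c % 2 ^ k := (Nat.div_add_mod c (2 ^ k)).symm
  have h2 : 2 ^ k ≡ 1 [MOD (2 ^ k - 1)] := by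
    have : 2 ^ k = (2 ^ k - 1) + 1 := (Nat.sub_add_cancel Nat.one_le_two_pow).symm
    conv_lhs => rw [this]
    exact Nat.add_modEq_left
  have h3 : 2 ^ k * (c / 2 ^ k) ≡ c / 2 ^ k [MOD (2 ^ k - 1)] := by
    simpa using h2.mul_right (c / 2 ^ k)
  calc c % 2 ^ k + c / 2 ^ k ≡ c % 2 ^ k + 2 ^ k * (c / 2 ^ k) [MOD (2 ^ k - 1)] :=
        Nat.ModEq.add_left _ h3.symm
    _ = c := by rw [add_comm]; exact h1.symm

/-- bound for `f1` -/
def fb (k B : ℕ) : ℕ :=
  if B < 2 ^ k then B else if B + 1 < 2 ^ (k + 1) then 2 ^ k - 1 else 2 ^ k - 1 + B / 2 ^ k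

theorem f1_le_fb {k c B : ℕ} (h : c ≤ B) : f1 k c ≤ fb k B := by
  have hp : 0 < 2 ^ k := by positivity
  have h2 : 2 ^ (k + 1) = 2 ^ k + 2 ^ k := by rw [pow_succ]; ring
  unfold fb f1
  split_ifs with h1 h3
  · rw [Nat.mod_eq_of_lt (by omega), Nat.div_eq_of_lt (by omega)]; omega
  · rcases Nat.lt_or_ge c (2 ^ k) with h4 | h4
    · rw [Nat.mod_eq_of_lt h4, Nat.div_eq_of_lt h4]; omega
    · have h5 : c / 2 ^ k = 1 := Nat.div_eq_of_lt_le (by omega) (by omega)
      have h6 : c % 2 ^ k = c - 2 ^ k := by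
        rw [Nat.mod_eq_sub_mod h4, Nat.mod_eq_of_lt (by omega)]
      rw [h5, h6]; omega
  · have h4 := Nat.mod_lt c hp
    have h5 : c / 2 ^ k ≤ B / 2 ^ k := Nat.div_le_div_right h
    omega

/-- the parameters: prime `p = 2^k - 1`, slot width `W`; five folds reduce every slot `< 2^W` -/
structure Par (p W k : ℕ) : Prop where
  hp : p = 2 ^ k - 1
  hk0 : 0 < k
  hk : k < W
  hred : fb k (fb k (fb k (fb k (fb k (2 ^ W - 1))))) < 2 ^ k

theorem par127 : Par 127 24 7 := ⟨by norm_num, by norm_num, by norm_num, by norm_num [fb]⟩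

theorem Par.hW {p W k : ℕ} (h : Par p W k) : 0 < W := by have := h.hk; omega

/-- five folding steps; `lo`, `hi` = the two masks -/
def red (k lo hi x : ℕ) : ℕ :=
  fold k lo hi (fold k lo hi (fold k lo hi (fold k lo hi (fold k lo hi x))))

/-- all slots `< 2^k`, zero outside the block -/
def Good (W k S r c x : ℕ) : Prop :=
  ∀ n, slot W x n < 2 ^ k ∧ (¬ (n / S < r ∧ n % S < c) → slot W x n = 0)

theorem slot_red {p W k S r c : ℕ} (hP : Par p W k) (hS : 0 < S) (hc : c ≤ S) (x n : ℕ) :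
    slot W (red k (blk W S r c (2 ^ k - 1)) (blk W S r c (2 ^ (W - k) - 1)) x) n
      = if n / S < r ∧ n % S < c then f1 k (f1 k (f1 k (f1 k (f1 k (slot W x n))))) else 0 := by
  obtain ⟨_, hk0, hk, _⟩ := hP
  rw [red, slot_fold hk0 hk hS hc, slot_fold hk0 hk hS hc, slot_fold hk0 hk hS hc,
    slot_fold hk0 hk hS hc, slot_fold hk0 hk hS hc]
  split_ifs <;> rfl

theorem Par.f1_lt {p W k : ℕ} (hP : Par p W k) {c : ℕ} (hc : c < 2 ^ W) :
    f1 k (f1 k (f1 k (f1 k (f1 k c)))) < 2 ^ k :=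
  lt_of_le_of_lt (f1_le_fb (f1_le_fb (f1_le_fb (f1_le_fb (f1_le_fb (by omega)))))) hP.hred

theorem good_red {p W k S r c : ℕ} (hP : Par p W k) (hS : 0 < S) (hc : c ≤ S) (x : ℕ) :
    Good W k S r c (red k (blk W S r c (2 ^ k - 1)) (blk W S r c (2 ^ (W - k) - 1)) x) := by
  intro n
  rw [slot_red hP hS hc]
  constructor
  · split_ifs
    · exact hP.f1_lt (slot_lt _ _ _)
    · positivity
  · intro h; rw [if_neg h]

theorem cast_red {p W k S r c : ℕ} (hP : Par p W k) (hS : 0 < S) (hc : c ≤ S) (x n : ℕ)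
    (hn : n / S < r ∧ n % S < c) :
    (slot W (red k (blk W S r c (2 ^ k - 1)) (blk W S r c (2 ^ (W - k) - 1)) x) n : ZMod p)
      = (slot W x n : ZMod p) := by
  rw [slot_red hP hS hc, if_pos hn]
  refine (ZMod.natCast_eq_natCast_iff _ _ _).2 ?_
  rw [hP.hp]
  exact ((((f1_mod k _).trans (f1_mod k _)).trans (f1_mod k _)).trans (f1_mod k _)).trans
    (f1_mod k _)

/-! ### matrices -/

/-- the matrix of residues -/
def mat (p W S r c x : ℕ) : Matrix (Fin r) (Fin c) (ZMod p) :=
  fun i j => (slot W x (S * i + j) : ZMod p)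

theorem idx {S c : ℕ} (hc : c ≤ S) {r : ℕ} (i : Fin r) (j : Fin c) :
    (S * (i : ℕ) + j) / S = i ∧ (S * (i : ℕ) + j) % S = j := by
  have hS : 0 < S := lt_of_le_of_lt (Nat.zero_le _) (lt_of_lt_of_le j.2 hc)
  have hj : (j : ℕ) < S := lt_of_lt_of_le j.2 hc
  rw [Nat.mul_add_div hS, Nat.mul_add_mod, Nat.div_eq_of_lt hj, Nat.mod_eq_of_lt hj]
  simp

theorem mat_red {p W k S r c : ℕ} (hP : Par p W k) (hS : 0 < S) (hc : c ≤ S) (x : ℕ) :
    mat p W S r c (red k (blk W S r c (2 ^ k - 1)) (blk W S r c (2 ^ (W - k) - 1)) x)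
      = mat p W S r c x := by
  ext i j
  obtain ⟨h1, h2⟩ := idx hc i j
  exact cast_red hP hS hc x _ (by rw [h1, h2]; exact ⟨i.2, j.2⟩)

/-- data check: all slots `< 2^k`, zero outside the block -/
def goodChk (W k S r c x : ℕ) : Bool :=
  Nat.beq (Nat.land x (blk W S r c (Nat.sub (Nat.pow 2 k) 1))) x

theorem good_of_chk {W k S r c x : ℕ} (hk : k < W) (hS : 0 < S) (hc : c ≤ S)
    (h : goodChk W k S r c x = true) : Good W k S r c x := by
  have h1 : Nat.land x (blk W S r c (2 ^ k - 1)) = x := Nat.eq_of_beq_eq_true h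
  have hlt : 2 ^ k - 1 < 2 ^ W := lt_of_lt_of_le (Nat.sub_lt (by positivity) one_pos)
    (Nat.pow_le_pow_right (by norm_num) hk.le)
  have h2 : ∀ n, slot W x n = if n / S < r ∧ n % S < c then slot W x n % 2 ^ k else 0 := by
    intro n
    conv_lhs => rw [← h1]
    rw [slot_land, slot_blk (by omega) hS hc hlt]
    split_ifs with h
    · exact Nat.and_two_pow_sub_one_eq_mod _ _
    · exact Nat.and_zero _
  intro n
  constructor
  · rw [h2 n]
    split_ifs
    · exact Nat.mod_lt _ (by positivity)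
    · positivity
  · intro h3; rw [h2 n, if_neg h3]

/-! #### linear combinations -/

theorem mat_add {p W S r c x y : ℕ} (hW : 0 < W)
    (h : ∀ n, slot W x n + slot W y n < 2 ^ W) :
    mat p W S r c (Nat.add x y) = mat p W S r c x + mat p W S r c y := by
  ext i j
  show (slot W (Nat.add x y) _ : ZMod p) = (slot W x _ : ZMod p) + (slot W y _ : ZMod p)
  rw [slot_add hW h, Nat.cast_add]


/-! #### outer products -/

theorem slot_outer {W S x y : ℕ} (hW : 0 < W) (hS : 0 < S)
    (hx : ∀ n, n % S ≠ 0 → slot W x n = 0) (hy : ∀ n, S ≤ n → slot W y n = 0)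
    (hxy : ∀ i j, slot W x i * slot W y j < 2 ^ W) (n : ℕ) :
    slot W (Nat.mul x y) n = slot W x (S * (n / S)) * slot W y (n % S) := by
  have h1 : Nat.mul x y = (sp W x * sp W y).eval (2 ^ W) := by
    rw [eval_mul, sp_eval hW, sp_eval hW]; rfl
  have h2 : ∀ n, (sp W x * sp W y).coeff n = slot W x (S * (n / S)) * slot W y (n % S) := by
    intro n
    rw [coeff_mul, Finset.sum_eq_single (S * (n / S), n % S)]
    · rw [sp_coeff hW, sp_coeff hW]
    · rintro ⟨u, v⟩ huv hne
      rw [Finset.HasAntidiagonal.mem_antidiagonal] at huv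
      simp only at huv ⊢
      rw [sp_coeff hW, sp_coeff hW]
      by_cases hu : u % S = 0
      · by_cases hv : S ≤ v
        · rw [hy v hv, mul_zero]
        · exfalso
          apply hne
          have hu' : u = S * (u / S) := by
            have := Nat.div_add_mod u S; omega
          have h3 : n / S = u / S := by
            rw [← huv, hu', Nat.mul_add_div hS, Nat.div_eq_of_lt (not_le.1 hv), add_zero,
              Nat.mul_div_cancel_left _ hS]
          have h4 : n % S = v := by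
            rw [← huv, hu', Nat.mul_add_mod, Nat.mod_eq_of_lt (not_le.1 hv)]
          rw [h3, h4, ← hu']
      · rw [hx u hu, zero_mul]
    · intro h3
      exact absurd (Finset.HasAntidiagonal.mem_antidiagonal.2 (Nat.div_add_mod n S)) h3
  rw [h1, slot_eval _ (fun j => by rw [h2]; exact hxy _ _), h2]

/-- strided column `j`: entries at the positions `S * i`; `cm = blk W S r 1 (2^W-1)` -/
def col (W cm x j : ℕ) : ℕ := Nat.land (Nat.shiftRight x (Nat.mul W j)) cm

/-- row `i`; `rb = W * S` (bits of a row), `rm = 2^(W*S)` -/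
def row (rb rm x i : ℕ) : ℕ := Nat.mod (Nat.shiftRight x (Nat.mul rb i)) rm

theorem slot_col {W S r : ℕ} (hW : 0 < W) (hS : 0 < S) (x j n : ℕ) :
    slot W (col W (blk W S r 1 (2 ^ W - 1)) x j) n
      = if n / S < r ∧ n % S = 0 then slot W x (j + n) else 0 := by
  rw [col, slot_land, slot_blk hW hS hS (Nat.sub_lt (by positivity) one_pos), slot_shr]
  simp only [Nat.lt_one_iff]
  split_ifs with h
  · show slot W x (j + n) &&& (2 ^ W - 1) = _
    rw [Nat.and_two_pow_sub_one_eq_mod]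
    exact Nat.mod_eq_of_lt (slot_lt _ _ _)
  · exact Nat.and_zero _

theorem slot_row {W S : ℕ} (x i n : ℕ) :
    slot W (row (Nat.mul W S) (Nat.pow 2 (Nat.mul W S)) x i) n
      = if n < S then slot W x (S * i + n) else 0 := by
  have h : Nat.mul (Nat.mul W S) i = Nat.mul W (Nat.mul S i) := mul_assoc W S i
  rw [row, slot_mod, h, slot_shr]
  rfl

/-- `∑_{j<K} (column j of A) ⊗ (row j of B)`, unreduced -/
def mulAcc (W cm rb rm A B K : ℕ) : ℕ :=
  Nat.rec 0 (fun j ih => Nat.add ih (Nat.mul (col W cm A j) (row rb rm B j))) K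

theorem mulAcc_eq (W cm rb rm A B K : ℕ) :
    mulAcc W cm rb rm A B K = ∑ j ∈ Finset.range K, Nat.mul (col W cm A j) (row rb rm B j) := by
  induction K with
  | zero => rfl
  | succ K ih => rw [Finset.sum_range_succ, ← ih]; rfl

theorem slot_mulAcc {W k S K : ℕ} (r : ℕ) {A B : ℕ} (hW : 0 < W) (hS : 0 < S)
    (hK : K * 2 ^ (2 * k) ≤ 2 ^ W) (hA : ∀ n, slot W A n < 2 ^ k) (hB : ∀ n, slot W B n < 2 ^ k)
    (n : ℕ) :
    slot W (mulAcc W (blk W S r 1 (2 ^ W - 1)) (Nat.mul W S) (Nat.pow 2 (Nat.mul W S)) A B K) n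
      = if n / S < r then ∑ j ∈ Finset.range K, slot W A (S * (n / S) + j)
          * slot W B (S * j + n % S) else 0 := by
  rw [mulAcc_eq]
  have hsl : ∀ j < K, ∀ n, slot W (Nat.mul (col W (blk W S r 1 (2 ^ W - 1)) A j)
      (row (Nat.mul W S) (Nat.pow 2 (Nat.mul W S)) B j)) n
      = if n / S < r then slot W A (S * (n / S) + j) * slot W B (S * j + n % S) else 0 := by
    intro j hj n
    rw [slot_outer hW hS]
    · rw [slot_col hW hS, slot_row, if_pos (Nat.mod_lt _ hS)]
      by_cases h : n / S < r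
      · rw [if_pos h, if_pos, add_comm j]
        rw [Nat.mul_div_cancel_left _ hS, Nat.mul_mod_right]
        exact ⟨h, rfl⟩
      · rw [if_neg h, if_neg, zero_mul]
        rw [Nat.mul_div_cancel_left _ hS]
        exact fun h2 => h h2.1
    · intro n hn
      rw [slot_col hW hS, if_neg (fun h => hn h.2)]
    · intro n hn
      rw [slot_row, if_neg (not_lt.2 hn)]
    · intro u v
      have h1 : slot W (col W (blk W S r 1 (2 ^ W - 1)) A j) u < 2 ^ k := by
        rw [slot_col hW hS]; split_ifs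
        · exact hA _
        · positivity
      have h2 : slot W (row (Nat.mul W S) (Nat.pow 2 (Nat.mul W S)) B j) v < 2 ^ k := by
        rw [slot_row]; split_ifs
        · exact hB _
        · positivity
      calc _ < 2 ^ k * 2 ^ k := Nat.mul_lt_mul'' h1 h2
        _ = 1 * 2 ^ (2 * k) := by rw [one_mul, ← pow_add]; congr 1; omega
        _ ≤ K * 2 ^ (2 * k) := Nat.mul_le_mul_right _ (by omega)
        _ ≤ 2 ^ W := hK
  have hbd : ∀ n, ∑ j ∈ Finset.range K, slot W (Nat.mul (col W (blk W S r 1 (2 ^ W - 1)) A j)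
      (row (Nat.mul W S) (Nat.pow 2 (Nat.mul W S)) B j)) n < 2 ^ W := by
    intro n
    rcases Nat.eq_zero_or_pos K with hK0 | hK0
    · rw [hK0, Finset.sum_range_zero]; positivity
    · calc _ < ∑ j ∈ Finset.range K, 2 ^ (2 * k) := by
            refine Finset.sum_lt_sum_of_nonempty ⟨0, Finset.mem_range.2 hK0⟩ (fun j hj => ?_)
            rw [hsl j (Finset.mem_range.1 hj)]
            split_ifs
            · calc _ < 2 ^ k * 2 ^ k := Nat.mul_lt_mul'' (hA _) (hB _)
                _ = 2 ^ (2 * k) := by rw [← pow_add]; congr 1; omega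
            · positivity
        _ = K * 2 ^ (2 * k) := by rw [Finset.sum_const, Finset.card_range, smul_eq_mul]
        _ ≤ 2 ^ W := hK
  rw [slot_sum hW _ _ hbd, Finset.sum_congr rfl (fun j hj => hsl j (Finset.mem_range.1 hj) n)]
  split_ifs
  · rfl
  · exact Finset.sum_const_zero

/-- packed product, reduced -/
def mul (W k S r c A B K : ℕ) : ℕ :=
  red k (blk W S r c (Nat.sub (Nat.pow 2 k) 1)) (blk W S r c (Nat.sub (Nat.pow 2 (Nat.sub W k)) 1))
    (mulAcc W (blk W S r 1 (Nat.sub (Nat.pow 2 W) 1)) (Nat.mul W S) (Nat.pow 2 (Nat.mul W S)) A B K)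

theorem mat_mulAcc {p W k S r c K A B : ℕ} (hW : 0 < W) (hS : 0 < S) (hc : c ≤ S)
    (hK : K * 2 ^ (2 * k) ≤ 2 ^ W) (hA : ∀ n, slot W A n < 2 ^ k) (hB : ∀ n, slot W B n < 2 ^ k) :
    mat p W S r c (mulAcc W (blk W S r 1 (2 ^ W - 1)) (Nat.mul W S) (Nat.pow 2 (Nat.mul W S))
      A B K) = mat p W S r K A * mat p W S K c B := by
  ext i j
  obtain ⟨h1, h2⟩ := idx hc i j
  show (slot W _ (S * i + j) : ZMod p) = _
  rw [slot_mulAcc r hW hS hK hA hB, h1, h2, if_pos i.2, Matrix.mul_apply, Nat.cast_sum,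
    ← Fin.sum_univ_eq_sum_range (fun l => ((slot W A (S * i + l) * slot W B (S * l + j) : ℕ)
      : ZMod p))]
  exact Finset.sum_congr rfl (fun l _ => Nat.cast_mul _ _)

theorem mat_mul {p W k S r c K A B : ℕ} (hP : Par p W k)
    (hS : 0 < S) (hc : c ≤ S) (hK : K * 2 ^ (2 * k) ≤ 2 ^ W)
    (hA : ∀ n, slot W A n < 2 ^ k) (hB : ∀ n, slot W B n < 2 ^ k) :
    mat p W S r c (mul W k S r c A B K) = mat p W S r K A * mat p W S K c B := by
  have h1 := mat_red (x := mulAcc W (blk W S r 1 (2 ^ W - 1)) (Nat.mul W S)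
    (Nat.pow 2 (Nat.mul W S)) A B K) (r := r) hP hS hc
  rw [mat_mulAcc hP.hW hS hc hK hA hB] at h1
  exact h1

theorem good_mul {p W k S r c : ℕ} (hP : Par p W k)
    (hS : 0 < S) (hc : c ≤ S) (A B K : ℕ) : Good W k S r c (mul W k S r c A B K) :=
  good_red hP hS hc _

/-! #### linear combinations of blocks -/

/-- `∑ c_t x_t` over a list of pairs, unreduced -/
def linAcc (L : List (ℕ × ℕ)) : ℕ :=
  List.rec 0 (fun t _ ih => Nat.add ih (Nat.mul (Prod.fst t) (Prod.snd t))) L

theorem linAcc_cons (t : ℕ × ℕ) (L : List (ℕ × ℕ)) :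
    linAcc (t :: L) = Nat.add (linAcc L) (Nat.mul t.1 t.2) := rfl

/-- packed linear combination, reduced -/
def lin (W k S r c : ℕ) (L : List (ℕ × ℕ)) : ℕ :=
  red k (blk W S r c (Nat.sub (Nat.pow 2 k) 1)) (blk W S r c (Nat.sub (Nat.pow 2 (Nat.sub W k)) 1))
    (linAcc L)

theorem slot_linAcc {W k : ℕ} (hW : 0 < W) (L : List (ℕ × ℕ))
    (hL : ∀ t ∈ L, t.1 < 2 ^ k ∧ ∀ n, slot W t.2 n < 2 ^ k)
    (hlen : L.length * 2 ^ (2 * k) ≤ 2 ^ W) (n : ℕ) :
    slot W (linAcc L) n = (L.map (fun t => t.1 * slot W t.2 n)).sum ∧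
      (L.map (fun t => t.1 * slot W t.2 n)).sum + L.length ≤ L.length * 2 ^ (2 * k) := by
  revert n
  induction L with
  | nil => intro n; exact ⟨slot_zero W n, by simp⟩
  | cons t L ih =>
    have hlen' : L.length * 2 ^ (2 * k) ≤ 2 ^ W :=
      (Nat.mul_le_mul_right _ (by simp)).trans hlen
    have ih' := ih (fun s hs => hL s (List.mem_cons_of_mem _ hs)) hlen'
    obtain ⟨ht1, ht2⟩ := hL t (List.mem_cons_self ..)
    have hone : ∀ n, t.1 * slot W t.2 n + 1 ≤ 2 ^ (2 * k) := by
      intro n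
      have h1 : t.1 * slot W t.2 n ≤ (2 ^ k - 1) * (2 ^ k - 1) :=
        Nat.mul_le_mul (by omega) (by have := ht2 n; omega)
      have h2 : 1 ≤ 2 ^ k := Nat.one_le_two_pow
      have h3 : 2 ^ (2 * k) = 2 ^ k * 2 ^ k := by rw [← pow_add]; congr 1; omega
      rw [h3]
      obtain ⟨q, hq⟩ : ∃ q, 2 ^ k = q + 1 := ⟨2 ^ k - 1, by omega⟩
      rw [hq] at h1 ⊢
      simp only [Nat.add_sub_cancel] at h1
      nlinarith
    have hsum : ∀ n, ((t :: L).map (fun t => t.1 * slot W t.2 n)).sum + (t :: L).length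
        ≤ (t :: L).length * 2 ^ (2 * k) := by
      intro n
      have h1 := (ih' n).2
      have h2 := hone n
      rw [List.map_cons, List.sum_cons, List.length_cons, Nat.succ_mul]
      omega
    have hlt : ∀ n, t.1 * slot W t.2 n < 2 ^ W := by
      intro n
      have h1 := hsum n
      rw [List.map_cons, List.sum_cons, List.length_cons] at h1
      rw [List.length_cons] at hlen
      omega
    intro n
    refine ⟨?_, hsum n⟩
    rw [linAcc_cons, slot_add hW, (ih' n).1, slot_smul hW hlt, List.map_cons, List.sum_cons,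
      add_comm]
    intro j
    rw [(ih' j).1, slot_smul hW hlt]
    have h1 := hsum j
    rw [List.map_cons, List.sum_cons, List.length_cons] at h1
    rw [List.length_cons] at hlen
    omega

theorem mat_lin {p W k S r c : ℕ} (hP : Par p W k)
    (hS : 0 < S) (hc : c ≤ S) (L : List (ℕ × ℕ))
    (hL : ∀ t ∈ L, t.1 < 2 ^ k ∧ ∀ n, slot W t.2 n < 2 ^ k)
    (hlen : L.length * 2 ^ (2 * k) ≤ 2 ^ W) :
    mat p W S r c (lin W k S r c L)
      = (L.map (fun t => (t.1 : ZMod p) • mat p W S r c t.2)).sum := by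
  have h1 := mat_red (x := linAcc L) (r := r) hP hS hc
  have h2 : mat p W S r c (lin W k S r c L) = mat p W S r c (linAcc L) := h1
  rw [h2]
  ext i j
  show (slot W (linAcc L) _ : ZMod p) = _
  rw [(slot_linAcc hP.hW L hL hlen _).1]
  clear h1 h2 hL hlen
  induction L with
  | nil => simp
  | cons t L ih =>
    rw [List.map_cons, List.sum_cons, Nat.cast_add, ih, List.map_cons, List.sum_cons,
      Matrix.add_apply, Matrix.smul_apply, smul_eq_mul, Nat.cast_mul]
    rfl

theorem good_lin {p W k S r c : ℕ} (hP : Par p W k)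
    (hS : 0 < S) (hc : c ≤ S) (L : List (ℕ × ℕ)) : Good W k S r c (lin W k S r c L) :=
  good_red hP hS hc _

/-! #### zero test -/

/-- `x = p * (((x + ones) >>> k) &&& ones)`: every slot of `x` (all `≤ p`) is `0` or `p` -/
def isZero (W k S r c x : ℕ) : Bool :=
  Nat.beq x (Nat.mul (Nat.sub (Nat.pow 2 k) 1)
    (Nat.land (Nat.shiftRight (Nat.add x (blk W S r c 1)) k) (blk W S r c 1)))

theorem slot_le_one_mul {W k : ℕ} (hW : 0 < W) (hk : k < W) {y : ℕ} (hy : ∀ n, slot W y n ≤ 1)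
    (n : ℕ) : slot W (Nat.mul (2 ^ k - 1) y) n = (2 ^ k - 1) * slot W y n := by
  refine slot_smul hW (fun j => ?_)
  have h1 := hy j
  have h2 : 2 ^ k ≤ 2 ^ W := Nat.pow_le_pow_right (by norm_num) hk.le
  have h3 : 0 < 2 ^ k := by positivity
  calc (2 ^ k - 1) * slot W y j ≤ (2 ^ k - 1) * 1 := Nat.mul_le_mul_left _ h1
    _ < 2 ^ W := by omega

theorem mat_isZero {p W k S r c x : ℕ} (hp : p = 2 ^ k - 1) (hk : k < W)
    (hS : 0 < S) (hc : c ≤ S) (h : isZero W k S r c x = true) :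
    mat p W S r c x = 0 := by
  have hW : 0 < W := by omega
  have h1 : x = Nat.mul (2 ^ k - 1)
    (Nat.land (Nat.shiftRight (Nat.add x (blk W S r c 1)) k) (blk W S r c 1)) :=
    Nat.eq_of_beq_eq_true h
  set y := Nat.land (Nat.shiftRight (Nat.add x (blk W S r c 1)) k) (blk W S r c 1) with hy
  have h1W : 1 < 2 ^ W := by
    calc 1 < 2 ^ 1 := by norm_num
      _ ≤ 2 ^ W := Nat.pow_le_pow_right (by norm_num) hW
  have hy1 : ∀ n, slot W y n ≤ 1 := by
    intro n
    rw [hy, slot_land, slot_blk hW hS hc h1W]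
    split_ifs
    · show slot W _ n &&& 1 ≤ 1
      exact Nat.and_le_right
    · show slot W _ n &&& 0 ≤ 1
      rw [Nat.and_zero]; exact Nat.zero_le _
  ext i j
  show (slot W x _ : ZMod p) = 0
  rw [h1, slot_le_one_mul hW hk hy1, ← hp, Nat.cast_mul, ZMod.natCast_self, zero_mul]

/-- slotwise negation: `p * block - x` -/
def neg (W k S r c x : ℕ) : ℕ := Nat.sub (blk W S r c (Nat.sub (Nat.pow 2 k) 1)) x

theorem slot_neg {W k S r c x : ℕ} (hk : k < W) (hS : 0 < S) (hc : c ≤ S)
    (hx : Good W k S r c x) (n : ℕ) :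
    slot W (neg W k S r c x) n
      = if n / S < r ∧ n % S < c then 2 ^ k - 1 - slot W x n else 0 := by
  have hW : 0 < W := by omega
  have hlt : 2 ^ k - 1 < 2 ^ W := lt_of_lt_of_le (Nat.sub_lt (by positivity) one_pos)
    (Nat.pow_le_pow_right (by norm_num) hk.le)
  have h1 : ∀ n, slot W (blk W S r c (Nat.sub (Nat.pow 2 k) 1)) n
      = if n / S < r ∧ n % S < c then 2 ^ k - 1 else 0 := slot_blk hW hS hc hlt r
  rw [neg, slot_sub hW, h1]
  · split_ifs with h2
    · rfl
    · rw [Nat.zero_sub]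
  · intro j
    rw [h1]
    split_ifs with h2
    · have := (hx j).1; omega
    · rw [(hx j).2 h2]

theorem good_neg {W k S r c x : ℕ} (hk : k < W) (hS : 0 < S) (hc : c ≤ S)
    (hx : Good W k S r c x) : Good W k S r c (neg W k S r c x) := by
  intro n
  rw [slot_neg hk hS hc hx]
  have : 0 < 2 ^ k := by positivity
  constructor
  · split_ifs <;> omega
  · intro h; rw [if_neg h]

theorem mat_neg {p W k S r c x : ℕ} (hp : p = 2 ^ k - 1) (hk : k < W) (hS : 0 < S) (hc : c ≤ S)
    (hx : Good W k S r c x) : mat p W S r c (neg W k S r c x) = - mat p W S r c x := by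
  ext i j
  show (slot W (neg W k S r c x) _ : ZMod p) = - (slot W x _ : ZMod p)
  obtain ⟨h1, h2⟩ := idx hc i j
  rw [slot_neg hk hS hc hx, if_pos (by rw [h1, h2]; exact ⟨i.2, j.2⟩), Nat.cast_sub
    (by have := (hx (S * i + j)).1; omega), ← hp, ZMod.natCast_self, zero_sub]

/-- equality test of two reduced packed matrices -/
def eqM (W k S r c x y : ℕ) : Bool :=
  isZero W k S r c (red k (blk W S r c (Nat.sub (Nat.pow 2 k) 1))
    (blk W S r c (Nat.sub (Nat.pow 2 (Nat.sub W k)) 1)) (Nat.add x (neg W k S r c y)))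

theorem mat_eqM {p W k S r c x y : ℕ} (hP : Par p W k) (hS : 0 < S) (hc : c ≤ S)
    (hx : ∀ n, slot W x n < 2 ^ k) (hy : Good W k S r c y) (h : eqM W k S r c x y = true) :
    mat p W S r c x = mat p W S r c y := by
  have hW : 0 < W := hP.hW
  have hk := hP.hk
  have hp := hP.hp
  have h1 := mat_isZero hp hk hS hc h
  have h2 : mat p W S r c (red k (blk W S r c (2 ^ k - 1)) (blk W S r c (2 ^ (W - k) - 1))
    (Nat.add x (neg W k S r c y))) = 0 := h1
  rw [mat_red hP hS hc, mat_add hW, mat_neg hp hk hS hc hy, add_neg_eq_zero] at h2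
  · exact h2
  · intro n
    have h3 := hx n
    have h4 := (good_neg hk hS hc hy n).1
    have h5 : 2 * 2 ^ k ≤ 2 ^ W := by
      rw [← pow_succ']; exact Nat.pow_le_pow_right (by norm_num) hk
    omega

/-! #### blocks inside a larger matrix -/



/-- sub-block starting at `(i0, j0)` -/
def sub (W S i0 j0 x : ℕ) : ℕ := Nat.shiftRight x (Nat.mul W (Nat.add (Nat.mul S i0) j0))

theorem slot_sub' {W S i0 j0 x n : ℕ} :
    slot W (sub W S i0 j0 x) n = slot W x (S * i0 + j0 + n) := slot_shr _ _ _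

theorem mat_sub {p W S r c i0 j0 x : ℕ} :
    mat p W S r c (sub W S i0 j0 x)
      = Matrix.of (fun (i : Fin r) (j : Fin c) =>
        (slot W x (S * (i0 + (i : ℕ)) + (j0 + (j : ℕ))) : ZMod p)) := by
  ext i j
  show (slot W (sub W S i0 j0 x) (S * (i : ℕ) + j) : ZMod p) = (slot W x _ : ZMod p)
  rw [slot_sub']
  congr 2
  ring

end Crest.Agent.R187.SN.Kern
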