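import Mathlib
import Crest.Agent.R187.SN.Count2
import Crest.Agent.R187.SN.Kern
import Crest.Agent.R187.SN.TopSem

-- ▼ part R187/SN/TopQ
section

/-!
# Row 187, PLAN S, block E5 (top level): quadrature data, kernel functions and their soundness
-/

set_option autoImplicit false

namespace Crest.Agent.R187.SN.Top

open Crest.Agent.R187.SN Crest.Agent.R187.SN.Spec Crest.Agent.R187.SN.Gen
open Crest.Agent.R187.SN.Kern

instance fact127 : Fact (Nat.Prime 127) := ⟨by norm_num⟩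

/-! ### horizontal strips -/

/-- kernel check of `HS (shp k) (shp k') m` -/
def hsChk (k k' m : ℕ) : Bool :=
  Nat.ble (dg0 k) (dg0 k') && Nat.ble (dg1 k) (dg1 k') && Nat.ble (dg2 k) (dg2 k') &&
  Nat.ble (dg3 k) (dg3 k') && Nat.ble (dg4 k) (dg4 k') && Nat.ble (dg5 k) (dg5 k') &&
  Nat.ble (dg1 k') (dg0 k) && Nat.ble (dg2 k') (dg1 k) && Nat.ble (dg3 k') (dg2 k) &&
  Nat.ble (dg4 k') (dg3 k) && Nat.ble (dg5 k') (dg4 k) &&
  Nat.beq (dg0 k' + dg1 k' + dg2 k' + dg3 k' + dg4 k' + dg5 k')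
    (dg0 k + dg1 k + dg2 k + dg3 k + dg4 k + dg5 k + m)

lemma sum_shp (k : ℕ) : ∑ i, shp k i = dg0 k + dg1 k + dg2 k + dg3 k + dg4 k + dg5 k := by
  rw [shp_vals]
  simp only [Fin.sum_univ_succ, Fin.sum_univ_zero]
  simp
  omega

lemma hsChk_sound {k k' m : ℕ} (h : hsChk k k' m = true) : HS (shp k) (shp k') m := by
  unfold hsChk at h
  simp only [Bool.and_eq_true, Nat.ble_eq, Nat.beq_eq] at h
  obtain ⟨⟨⟨⟨⟨⟨⟨⟨⟨⟨⟨h0, h1⟩, h2⟩, h3⟩, h4⟩, h5⟩, h6⟩, h7⟩, h8⟩, h9⟩, h10⟩, h11⟩ := h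
  refine ⟨?_, ?_, ?_⟩
  · rw [shp_vals, shp_vals]
    intro i
    fin_cases i <;> simp <;> assumption
  · rw [shp_vals, shp_vals]
    intro i j hij
    fin_cases i <;> fin_cases j <;> simp at hij ⊢ <;> omega
  · rw [sum_shp, sum_shp]
    exact h11

/-- kernel check of antitonicity -/
def antiChk (k : ℕ) : Bool :=
  Nat.ble (dg1 k) (dg0 k) && Nat.ble (dg2 k) (dg1 k) && Nat.ble (dg3 k) (dg2 k) &&
  Nat.ble (dg4 k) (dg3 k) && Nat.ble (dg5 k) (dg4 k)

lemma antiChk_sound {k : ℕ} (h : antiChk k = true) : Antitone (shp k) := by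
  unfold antiChk at h
  simp only [Bool.and_eq_true, Nat.ble_eq] at h
  obtain ⟨⟨⟨⟨h1, h2⟩, h3⟩, h4⟩, h5⟩ := h
  rw [shp_vals]
  intro i j hij
  fin_cases i <;> fin_cases j <;> simp at hij ⊢ <;> omega

/-- injectivity of the coding -/
lemma shp_inj' {k k' : ℕ} (h : k < 68719476736) (h' : k' < 68719476736)
    (he : shp k = shp k') : k = k' := by
  have h0 := congrFun he 0
  have h1 := congrFun he 1
  have h2 := congrFun he 2
  have h3 := congrFun he 3
  have h4 := congrFun he 4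
  have h5 := congrFun he 5
  rw [shp_vals, shp_vals] at h0 h1 h2 h3 h4 h5
  simp at h0 h1 h2 h3 h4 h5
  unfold dg0 at h0
  unfold dg1 at h1
  unfold dg2 at h2
  unfold dg3 at h3
  unfold dg4 at h4
  unfold dg5 at h5
  omega

/-! ### tables of the test polynomials -/

/-- value of the test polynomial at content `z - 5`; `rⱼ = lamⱼ - j + 5` -/
def gval (r1 r2 r3 r4 r5 z : ℕ) : ℕ :=
  Nat.mod (Nat.mul (Nat.mul (Nat.mul (Nat.mul (Nat.sub (Nat.add z 127) r1)
    (Nat.sub (Nat.add z 127) r2)) (Nat.sub (Nat.add z 127) r3)) (Nat.sub (Nat.add z 127) r4))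
    (Nat.sub (Nat.add z 127) r5)) 127

/-- table of the 47 values, 8-bit slots -/
def mkT (k : ℕ) : ℕ :=
  Nat.rec (motive := fun _ => ℕ) 0 (fun z ih => Nat.add ih (Nat.shiftLeft
    (gval (dg1 k + 4) (dg2 k + 3) (dg3 k + 2) (dg4 k + 1) (dg5 k) z) (Nat.mul 8 z))) 47

/-- table lookup, `d = 8 * z` -/
def tl (T d : ℕ) : ℕ := Nat.land (Nat.shiftRight T d) 255

lemma tl_eq (T z : ℕ) : tl T (8 * z) = slot 8 T z := by
  unfold tl slot
  show T >>> (8 * z) &&& 255 = (T >>> (8 * z)) % 2 ^ 8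
  exact Nat.and_two_pow_sub_one_eq_mod _ 8

lemma gval_lt (r1 r2 r3 r4 r5 z : ℕ) : gval r1 r2 r3 r4 r5 z < 127 :=
  Nat.mod_lt _ (by norm_num)

lemma mkT_eq (k : ℕ) : mkT k = ∑ z ∈ Finset.range 47, Nat.shiftLeft
    (gval (dg1 k + 4) (dg2 k + 3) (dg3 k + 2) (dg4 k + 1) (dg5 k) z) (Nat.mul 8 z) := by
  have : ∀ n, (Nat.rec (motive := fun _ => ℕ) 0 (fun z ih => Nat.add ih (Nat.shiftLeft
    (gval (dg1 k + 4) (dg2 k + 3) (dg3 k + 2) (dg4 k + 1) (dg5 k) z) (Nat.mul 8 z))) n : ℕ)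
    = ∑ z ∈ Finset.range n, Nat.shiftLeft
    (gval (dg1 k + 4) (dg2 k + 3) (dg3 k + 2) (dg4 k + 1) (dg5 k) z) (Nat.mul 8 z) := by
    intro n
    induction n with
    | zero => rfl
    | succ n ih =>
      rw [Finset.sum_range_succ, ← ih]
      rfl
  exact this 47

lemma slot_small {x n : ℕ} (hx : x < 256) : slot 8 x n = if n = 0 then x else 0 := by
  split_ifs with h
  · subst h
    rw [slot_def, pow_zero, Nat.div_one]
    exact Nat.mod_eq_of_lt hx
  · apply slot_zero_of_lt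
    calc x < 2 ^ (8 * 1) := by simpa using hx
      _ ≤ 2 ^ (8 * n) := Nat.pow_le_pow_right (by norm_num) (by omega)

lemma slot_mkT (k z : ℕ) (hz : z < 47) :
    slot 8 (mkT k) z = gval (dg1 k + 4) (dg2 k + 3) (dg3 k + 2) (dg4 k + 1) (dg5 k) z := by
  rw [mkT_eq]
  have h1 : ∀ j n, slot 8 (Nat.shiftLeft
      (gval (dg1 k + 4) (dg2 k + 3) (dg3 k + 2) (dg4 k + 1) (dg5 k) j) (Nat.mul 8 j)) n
      = if n = j then gval (dg1 k + 4) (dg2 k + 3) (dg3 k + 2) (dg4 k + 1) (dg5 k) j else 0 := by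
    intro j n
    rw [slot_shl (by norm_num)]
    have := gval_lt (dg1 k + 4) (dg2 k + 3) (dg3 k + 2) (dg4 k + 1) (dg5 k) j
    by_cases h : j ≤ n
    · rw [if_pos h, slot_small (by omega)]
      by_cases h2 : n = j
      · subst h2; simp
      · rw [if_neg h2, if_neg (by omega)]
    · rw [if_neg h, if_neg (by omega)]
  rw [slot_sum (by norm_num)]
  · rw [Finset.sum_congr rfl (fun j _ => h1 j z)]
    rw [Finset.sum_ite_eq, if_pos (Finset.mem_range.2 hz)]
  · intro n
    rw [Finset.sum_congr rfl (fun j _ => h1 j n), Finset.sum_ite_eq]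
    split_ifs
    · exact lt_of_lt_of_le (gval_lt _ _ _ _ _ _) (by norm_num)
    · norm_num

lemma dg_lt (k : ℕ) : dg0 k < 64 ∧ dg1 k < 64 ∧ dg2 k < 64 ∧ dg3 k < 64 ∧ dg4 k < 64 ∧ dg5 k < 64 := by
  unfold dg0 dg1 dg2 dg3 dg4 dg5
  refine ⟨?_, ?_, ?_, ?_, ?_, ?_⟩ <;> exact Nat.mod_lt _ (by norm_num)

lemma gval_cast (k z : ℕ) :
    ((gval (dg1 k + 4) (dg2 k + 3) (dg3 k + 2) (dg4 k + 1) (dg5 k) z : ℕ) : ZMod 127)
      = ge (ZMod 127) (shp k) ((z : ℤ) - 5) := by
  obtain ⟨_, h1, h2, h3, h4, h5⟩ := dg_lt k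
  have hsub : ∀ r : ℕ, r ≤ 127 → ((Nat.sub (Nat.add z 127) r : ℕ) : ZMod 127)
      = (z : ZMod 127) - (r : ZMod 127) := by
    intro r hr
    have h : (Nat.sub (Nat.add z 127) r : ℕ) = z + 127 - r := rfl
    rw [h, Nat.cast_sub (by omega), Nat.cast_add]
    have h127 : ((127 : ℕ) : ZMod 127) = 0 := ZMod.natCast_self 127
    rw [h127, add_zero]
  unfold gval
  have hmod : ∀ x : ℕ, ((Nat.mod x 127 : ℕ) : ZMod 127) = (x : ZMod 127) := by
    intro x
    exact ZMod.natCast_mod x 127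
  rw [hmod]
  have hmul : ∀ x y : ℕ, ((Nat.mul x y : ℕ) : ZMod 127) = (x : ZMod 127) * (y : ZMod 127) :=
    fun x y => Nat.cast_mul x y
  rw [hmul, hmul, hmul, hmul, hsub _ (by omega), hsub _ (by omega), hsub _ (by omega),
    hsub _ (by omega), hsub _ (by omega)]
  unfold ge
  have he : (Finset.univ.erase (0 : Fin 6)) = {1, 2, 3, 4, 5} := by decide
  rw [he]
  rw [Finset.prod_insert (by decide), Finset.prod_insert (by decide),
    Finset.prod_insert (by decide), Finset.prod_insert (by decide), Finset.prod_singleton]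
  have e1 : ct (shp k) 1 = (dg1 k : ℤ) - 1 := by unfold ct; rw [shp_vals]; simp
  have e2 : ct (shp k) 2 = (dg2 k : ℤ) - 2 := by unfold ct; rw [shp_vals]; simp
  have e3 : ct (shp k) 3 = (dg3 k : ℤ) - 3 := by unfold ct; rw [shp_vals]; simp
  have e4 : ct (shp k) 4 = (dg4 k : ℤ) - 4 := by unfold ct; rw [shp_vals]; simp
  have e5 : ct (shp k) 5 = (dg5 k : ℤ) - 5 := by unfold ct; rw [shp_vals]; simp
  rw [e1, e2, e3, e4, e5]
  push_cast
  ring

/-! ### the pruned search over all `μ` -/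

def andB (a b : Bool) : Bool := Bool.rec (motive := fun _ => Bool) false b a

lemma andB_eq {a b : Bool} : andB a b = true ↔ a = true ∧ b = true := by
  cases a <;> cases b <;> simp [andB]

def stepQ (d : ℕ) (q : List (ℕ × ℕ)) : List (ℕ × ℕ) :=
  List.rec (motive := fun _ => List (ℕ × ℕ)) []
    (fun e _ ih => (Nat.mod (Nat.mul e.1 (tl e.2 d)) 127, e.2) :: ih) q

def zeroQ (q : List (ℕ × ℕ)) : Bool :=
  List.rec (motive := fun _ => Bool) true (fun e _ ih => andB (Nat.beq e.1 0) ih) q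

def sumQ (q : List (ℕ × ℕ)) : ℕ :=
  List.rec (motive := fun _ => ℕ) 0 (fun e _ ih => Nat.add e.1 ih) q

def stepsQ (m : ℕ) : ℕ → List (ℕ × ℕ) → List (ℕ × ℕ) :=
  Nat.rec (motive := fun _ => ℕ → List (ℕ × ℕ) → List (ℕ × ℕ)) (fun _ q => q)
    (fun _ ih d q => ih (Nat.add d 8) (stepQ d q)) m

def baseD (d0 m : ℕ) (q : List (ℕ × ℕ)) (eq : Bool) : Bool :=
  Nat.beq (Nat.mod (sumQ (stepsQ m d0 q)) 127) (Bool.rec (motive := fun _ => ℕ) 0 126 eq)

def loopD (next : ℕ → List (ℕ × ℕ) → Bool → Bool) (g : ℕ) (eq : Bool) (fuel : ℕ) :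
    ℕ → ℕ → List (ℕ × ℕ) → Bool :=
  Nat.rec (motive := fun _ => ℕ → ℕ → List (ℕ × ℕ) → Bool)
    (fun n _ q => next 0 q (andB eq (Nat.beq n g)))
    (fun r ih n d q => Bool.rec (motive := fun _ => Bool)
      (andB (next (Nat.succ r) q (andB eq (Nat.beq n g)))
        (ih (Nat.succ n) (Nat.add d 8) (stepQ d q)))
      (Bool.rec (motive := fun _ => Bool) true false (andB eq (Nat.ble n g))) (zeroQ q)) fuel

def dfs (d0 : ℕ) (rows : List (ℕ × ℕ)) : ℕ → List (ℕ × ℕ) → Bool → Bool :=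
  List.rec (motive := fun _ => ℕ → List (ℕ × ℕ) → Bool → Bool)
    (fun m q eq => baseD d0 m q eq)
    (fun row _ ih m q eq => loopD ih row.2 eq m 0 row.1 q) rows

/-- `∑ u_s f(T_s)` -/
def val (q : List (ℕ × ℕ)) (f : ℕ → ZMod 127) : ZMod 127 :=
  (q.map (fun e => (e.1 : ZMod 127) * f e.2)).sum

/-- product of table values -/
def bp (T d n : ℕ) : ZMod 127 := ∏ t ∈ Finset.range n, ((tl T (d + 8 * t) : ℕ) : ZMod 127)

lemma bp_zero (T d : ℕ) : bp T d 0 = 1 := by simp [bp]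

lemma bp_succ (T d n : ℕ) : bp T d (n + 1) = ((tl T d : ℕ) : ZMod 127) * bp T (d + 8) n := by
  unfold bp
  rw [Finset.prod_range_succ', mul_comm, mul_zero, add_zero]
  congr 1
  refine Finset.prod_congr rfl fun t _ => ?_
  congr 2
  ring

lemma val_stepQ (d : ℕ) (q : List (ℕ × ℕ)) (f : ℕ → ZMod 127) :
    val (stepQ d q) f = val q (fun T => ((tl T d : ℕ) : ZMod 127) * f T) := by
  induction q with
  | nil => rfl
  | cons e q ih =>
    have h1 : stepQ d (e :: q) = (Nat.mod (Nat.mul e.1 (tl e.2 d)) 127, e.2) :: stepQ d q := rfl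
    rw [h1]
    unfold val at ih ⊢
    rw [List.map_cons, List.sum_cons, List.map_cons, List.sum_cons, ih]
    congr 1
    have h2 : ((Nat.mod (Nat.mul e.1 (tl e.2 d)) 127 : ℕ) : ZMod 127)
        = (e.1 : ZMod 127) * ((tl e.2 d : ℕ) : ZMod 127) := by
      rw [← Nat.cast_mul]
      exact ZMod.natCast_mod _ 127
    rw [h2]
    ring

lemma zeroQ_sound {q : List (ℕ × ℕ)} (h : zeroQ q = true) (f : ℕ → ZMod 127) : val q f = 0 := by
  induction q with
  | nil => rfl
  | cons e q ih =>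
    have h1 : zeroQ (e :: q) = andB (Nat.beq e.1 0) (zeroQ q) := rfl
    rw [h1, andB_eq, Nat.beq_eq] at h
    unfold val at ih ⊢
    rw [List.map_cons, List.sum_cons, ih h.2, h.1]
    simp

lemma sumQ_cast (q : List (ℕ × ℕ)) : ((sumQ q : ℕ) : ZMod 127) = val q (fun _ => 1) := by
  induction q with
  | nil => simp [sumQ, val]
  | cons e q ih =>
    have h1 : sumQ (e :: q) = e.1 + sumQ q := rfl
    rw [h1]
    unfold val at ih ⊢
    rw [List.map_cons, List.sum_cons, Nat.cast_add, ih, mul_one]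

lemma val_stepsQ (m : ℕ) : ∀ (d : ℕ) (q : List (ℕ × ℕ)) (f : ℕ → ZMod 127),
    val (stepsQ m d q) f = val q (fun T => bp T d m * f T) := by
  induction m with
  | zero =>
    intro d q f
    have h1 : stepsQ 0 d q = q := rfl
    rw [h1]
    simp [bp_zero]
  | succ m ih =>
    intro d q f
    have h1 : stepsQ (m + 1) d q = stepsQ m (d + 8) (stepQ d q) := rfl
    rw [h1, ih, val_stepQ]
    congr 1
    funext T
    rw [bp_succ]
    ring

/-- specification of the search -/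
def SpecF (d0 : ℕ) : List (ℕ × ℕ) → ℕ → ((ℕ → ZMod 127) → ZMod 127) → Bool → Prop
  | [], m, g, eq => g (fun T => bp T d0 m) = if eq = true then -1 else 0
  | row :: rows, m, g, eq => ∀ n ≤ m, SpecF d0 rows (m - n)
      (fun f => g (fun T => bp T row.1 n * f T)) (eq && decide (n = row.2))

lemma specF_zero (d0 : ℕ) : ∀ (rows : List (ℕ × ℕ)) (m : ℕ),
    SpecF d0 rows m (fun _ => 0) false := by
  intro rows
  induction rows with
  | nil => intro m; simp [SpecF]
  | cons row rows ih =>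
    intro m n _
    simpa using ih (m - n)

lemma loopD_sound {d0 : ℕ} {rows : List (ℕ × ℕ)}
    {next : ℕ → List (ℕ × ℕ) → Bool → Bool} (g : ℕ) (eq : Bool)
    (hnext : ∀ m q e, next m q e = true → SpecF d0 rows m (val q) e) (fuel : ℕ) :
    ∀ (n d : ℕ) (q : List (ℕ × ℕ)), loopD next g eq fuel n d q = true →
      ∀ n' ≤ fuel, SpecF d0 rows (fuel - n') (fun f => val q (fun T => bp T d n' * f T))
        (eq && decide (n + n' = g)) := by
  induction fuel with
  | zero =>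
    intro n d q h n' hn'
    have hn0 : n' = 0 := by omega
    subst hn0
    have h1 : loopD next g eq 0 n d q = next 0 q (andB eq (Nat.beq n g)) := rfl
    rw [h1] at h
    have h2 := hnext _ _ _ h
    have h3 : (fun f : ℕ → ZMod 127 => val q (fun T => bp T d 0 * f T)) = val q := by
      funext f
      simp [bp_zero]
    rw [h3]
    have h4 : (eq && decide (n + 0 = g)) = andB eq (Nat.beq n g) := by
      rw [Bool.eq_iff_iff, andB_eq, Nat.beq_eq]
      simp
    rw [h4]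
    exact h2
  | succ r ih =>
    intro n d q h n' hn'
    have h1 : loopD next g eq (r + 1) n d q = Bool.rec (motive := fun _ => Bool)
      (andB (next (Nat.succ r) q (andB eq (Nat.beq n g)))
        (loopD next g eq r (Nat.succ n) (Nat.add d 8) (stepQ d q)))
      (Bool.rec (motive := fun _ => Bool) true false (andB eq (Nat.ble n g))) (zeroQ q) := rfl
    rw [h1] at h
    cases hz : zeroQ q with
    | true =>
      rw [hz] at h
      have h2 : andB eq (Nat.ble n g) = false := by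
        cases h3 : andB eq (Nat.ble n g) with
        | false => rfl
        | true =>
          rw [h3] at h
          exact absurd (show false = true from h) Bool.false_ne_true
      have h3 : (eq && decide (n + n' = g)) = false := by
        rw [Bool.eq_false_iff]
        intro h4
        rw [Bool.and_eq_true, decide_eq_true_iff] at h4
        have h5 : andB eq (Nat.ble n g) = true := by
          rw [andB_eq, Nat.ble_eq]
          exact ⟨h4.1, by omega⟩
        rw [h5] at h2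
        exact absurd h2 (by decide)
      rw [h3]
      have h4 : (fun f : ℕ → ZMod 127 => val q (fun T => bp T d n' * f T)) = fun _ => 0 := by
        funext f
        exact zeroQ_sound hz _
      rw [h4]
      exact specF_zero d0 rows _
    | false =>
      rw [hz] at h
      have h' : andB (next (Nat.succ r) q (andB eq (Nat.beq n g)))
        (loopD next g eq r (Nat.succ n) (Nat.add d 8) (stepQ d q)) = true := h
      rw [andB_eq] at h'
      rcases Nat.eq_zero_or_pos n' with h0 | h0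
      · subst h0
        have h2 := hnext _ _ _ h'.1
        have h3 : (fun f : ℕ → ZMod 127 => val q (fun T => bp T d 0 * f T)) = val q := by
          funext f
          simp [bp_zero]
        rw [h3]
        have h4 : (eq && decide (n + 0 = g)) = andB eq (Nat.beq n g) := by
          rw [Bool.eq_iff_iff, andB_eq, Nat.beq_eq]
          simp
        rw [h4]
        exact h2
      · obtain ⟨n'', rfl⟩ : ∃ n'', n' = n'' + 1 := ⟨n' - 1, by omega⟩
        have h2 := ih (Nat.succ n) (Nat.add d 8) (stepQ d q) h'.2 n'' (by omega)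
        have h3 : (fun f : ℕ → ZMod 127 => val (stepQ d q)
            (fun T => bp T (Nat.add d 8) n'' * f T))
            = fun f => val q (fun T => bp T d (n'' + 1) * f T) := by
          funext f
          rw [val_stepQ]
          congr 1
          funext T
          rw [bp_succ]
          show _ * (bp T (d + 8) n'' * f T) = _
          ring
        rw [h3] at h2
        have h4 : r + 1 - (n'' + 1) = r - n'' := by omega
        have h5 : (n + (n'' + 1) = g) = (Nat.succ n + n'' = g) := by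
          have : n + (n'' + 1) = Nat.succ n + n'' := by omega
          rw [this]
        rw [h4]
        have h6 : decide (n + (n'' + 1) = g) = decide (Nat.succ n + n'' = g) := by
          congr 1
        rw [h6]
        exact h2

lemma dfs_sound (d0 : ℕ) : ∀ (rows : List (ℕ × ℕ)) (m : ℕ) (q : List (ℕ × ℕ)) (eq : Bool),
    dfs d0 rows m q eq = true → SpecF d0 rows m (val q) eq := by
  intro rows
  induction rows with
  | nil =>
    intro m q eq h
    have h1 : dfs d0 [] m q eq = Nat.beq (Nat.mod (sumQ (stepsQ m d0 q)) 127)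
      (Bool.rec (motive := fun _ => ℕ) 0 126 eq) := rfl
    rw [h1, Nat.beq_eq] at h
    have h2 : ((Nat.mod (sumQ (stepsQ m d0 q)) 127 : ℕ) : ZMod 127)
        = val q (fun T => bp T d0 m) := by
      have h3 : ((Nat.mod (sumQ (stepsQ m d0 q)) 127 : ℕ) : ZMod 127)
          = ((sumQ (stepsQ m d0 q) : ℕ) : ZMod 127) := ZMod.natCast_mod _ 127
      rw [h3, sumQ_cast, val_stepsQ]
      simp
    unfold SpecF
    rw [← h2, h]
    cases eq with
    | true =>
      show ((126 : ℕ) : ZMod 127) = _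
      decide
    | false =>
      show ((0 : ℕ) : ZMod 127) = _
      simp
  | cons row rows ih =>
    intro m q eq h
    have h1 : dfs d0 (row :: rows) m q eq = loopD (dfs d0 rows) row.2 eq m 0 row.1 q := rfl
    rw [h1] at h
    intro n hn
    have h2 := loopD_sound row.2 eq ih m 0 row.1 q h n hn
    simpa using h2

/-! ### from the search to the quadrature of `Fc` -/

lemma tl_mkT (kl z : ℕ) (hz : z < 47) :
    ((tl (mkT kl) (8 * z) : ℕ) : ZMod 127) = ge (ZMod 127) (shp kl) ((z : ℤ) - 5) := by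
  rw [tl_eq, slot_mkT kl z hz, gval_cast]

lemma bp_mkT (kl z n : ℕ) (h : z + n ≤ 47) :
    bp (mkT kl) (8 * z) n = ∏ t ∈ Finset.range n, ge (ZMod 127) (shp kl) ((z : ℤ) - 5 + t) := by
  unfold bp
  refine Finset.prod_congr rfl fun t ht => ?_
  have ht' := Finset.mem_range.1 ht
  have h1 : 8 * z + 8 * t = 8 * (z + t) := by ring
  rw [h1, tl_mkT kl (z + t) (by omega)]
  congr 1
  push_cast
  ring

attribute [local irreducible] mkT

/-- attach the tables -/
def buildQ (Q : List (ℕ × ℕ)) : List (ℕ × ℕ) :=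
  List.rec (motive := fun _ => List (ℕ × ℕ)) [] (fun e _ ih => (e.1, mkT e.2) :: ih) Q

lemma val_buildQ (Q : List (ℕ × ℕ)) (f : ℕ → ZMod 127) :
    val (buildQ Q) f = (Q.map (fun e => (e.1 : ZMod 127) * f (mkT e.2))).sum := by
  induction Q with
  | nil => rfl
  | cons e Q ih =>
    have h1 : buildQ (e :: Q) = (e.1, mkT e.2) :: buildQ Q := rfl
    rw [h1]
    unfold val at ih ⊢
    rw [List.map_cons, List.sum_cons, List.map_cons, List.sum_cons, ih]

/-- all targets of the record are horizontal strips -/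
def allHS (kk a : ℕ) (Q : List (ℕ × ℕ)) : Bool :=
  List.rec (motive := fun _ => Bool) true (fun e _ ih => andB (hsChk kk e.2 a) ih) Q

lemma allHS_sound {kk a : ℕ} {Q : List (ℕ × ℕ)} (h : allHS kk a Q = true) :
    ∀ e ∈ Q, HS (shp kk) (shp e.2) a := by
  induction Q with
  | nil => intro e he; simp at he
  | cons e0 Q ih =>
    have h1 : allHS kk a (e0 :: Q) = andB (hsChk kk e0.2 a) (allHS kk a Q) := rfl
    rw [h1, andB_eq] at h
    intro e he
    rcases List.mem_cons.1 he with rfl | h2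
    · exact hsChk_sound h.1
    · exact ih h.2 e h2

/-- rows of the search -/
def rowsOf (kk kl : ℕ) : List (ℕ × ℕ) :=
  [(Nat.mul 8 (Nat.add (dg1 kk) 4), Nat.sub (dg1 kl) (dg1 kk)),
   (Nat.mul 8 (Nat.add (dg2 kk) 3), Nat.sub (dg2 kl) (dg2 kk)),
   (Nat.mul 8 (Nat.add (dg3 kk) 2), Nat.sub (dg3 kl) (dg3 kk)),
   (Nat.mul 8 (Nat.add (dg4 kk) 1), Nat.sub (dg4 kl) (dg4 kk)),
   (Nat.mul 8 (dg5 kk), Nat.sub (dg5 kl) (dg5 kk))]

/-- **kernel check of a quadrature record** for the strip `kk → kl` with `a` boxes -/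
def quadChk (kk kl a : ℕ) (Q : List (ℕ × ℕ)) : Bool :=
  andB (antiChk kk) (andB (hsChk kk kl a) (andB (allHS kk a Q) (andB (Nat.ble (dg0 kk + a) 42)
    (dfs (Nat.mul 8 (Nat.add (dg0 kk) 5)) (rowsOf kk kl) a (buildQ Q) true))))

lemma psi_six (kl kk : ℕ) (μ : Sh) (hb : ∀ i, μ i ≤ 42) (hle : shp kk ≤ μ) :
    psi (ZMod 127) (shp kl) (shp kk) μ =
      bp (mkT kl) (8 * (dg1 kk + 4)) (μ 1 - dg1 kk) *
      (bp (mkT kl) (8 * (dg2 kk + 3)) (μ 2 - dg2 kk) *
      (bp (mkT kl) (8 * (dg3 kk + 2)) (μ 3 - dg3 kk) *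
      (bp (mkT kl) (8 * (dg4 kk + 1)) (μ 4 - dg4 kk) *
      (bp (mkT kl) (8 * (dg5 kk)) (μ 5 - dg5 kk) *
      bp (mkT kl) (8 * (dg0 kk + 5)) (μ 0 - dg0 kk))))) := by
  have g0 : shp kk 0 = dg0 kk := by rw [shp_vals]; rfl
  have g1 : shp kk 1 = dg1 kk := by rw [shp_vals]; rfl
  have g2 : shp kk 2 = dg2 kk := by rw [shp_vals]; rfl
  have g3 : shp kk 3 = dg3 kk := by rw [shp_vals]; rfl
  have g4 : shp kk 4 = dg4 kk := by rw [shp_vals]; rfl
  have g5 : shp kk 5 = dg5 kk := by rw [shp_vals]; rfl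
  have l0 : dg0 kk ≤ μ 0 := g0 ▸ hle 0
  have l1 : dg1 kk ≤ μ 1 := g1 ▸ hle 1
  have l2 : dg2 kk ≤ μ 2 := g2 ▸ hle 2
  have l3 : dg3 kk ≤ μ 3 := g3 ▸ hle 3
  have l4 : dg4 kk ≤ μ 4 := g4 ▸ hle 4
  have l5 : dg5 kk ≤ μ 5 := g5 ▸ hle 5
  have b0 := hb 0
  have b1 := hb 1
  have b2 := hb 2
  have b3 := hb 3
  have b4 := hb 4
  have b5 := hb 5
  rw [bp_mkT _ _ _ (by omega), bp_mkT _ _ _ (by omega), bp_mkT _ _ _ (by omega),
    bp_mkT _ _ _ (by omega), bp_mkT _ _ _ (by omega), bp_mkT _ _ _ (by omega)]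
  unfold psi
  rw [Fin.prod_univ_six, g0, g1, g2, g3, g4, g5]
  have c0 : ct (shp kk) 0 = ((dg0 kk + 5 : ℕ) : ℤ) - 5 := by unfold ct; rw [g0]; simp
  have c1 : ct (shp kk) 1 = ((dg1 kk + 4 : ℕ) : ℤ) - 5 := by
    unfold ct; rw [g1]; push_cast; norm_num; ring
  have c2 : ct (shp kk) 2 = ((dg2 kk + 3 : ℕ) : ℤ) - 5 := by
    unfold ct; rw [g2]; push_cast; norm_num; ring
  have c3 : ct (shp kk) 3 = ((dg3 kk + 2 : ℕ) : ℤ) - 5 := by
    unfold ct; rw [g3]; push_cast; norm_num; ring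
  have c4 : ct (shp kk) 4 = ((dg4 kk + 1 : ℕ) : ℤ) - 5 := by
    unfold ct; rw [g4]; push_cast; norm_num; ring
  have c5 : ct (shp kk) 5 = ((dg5 kk : ℕ) : ℤ) - 5 := by
    unfold ct; rw [g5]; norm_num
  rw [c0, c1, c2, c3, c4, c5]
  ring

lemma hK127 : ∀ m : ℕ, 0 < m → m ≤ 126 → (m : ZMod 127) ≠ 0 := by
  intro m h1 h2 h
  rw [ZMod.natCast_eq_zero_iff] at h
  exact absurd (Nat.le_of_dvd h1 h) (by omega)

/-- **soundness of quadrature records** -/
theorem quad_sound {kk kl a : ℕ} {Q : List (ℕ × ℕ)} (h : quadChk kk kl (a + 1) Q = true)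
    (κ' lam' : Sh) (h' : HS κ' lam' a) :
    Fc (ZMod 127) (shp kk) κ' (shp kl) lam'
      = (Q.map (fun q => (q.1 : ZMod 127) * pc (ZMod 127) (shp q.2) κ' lam')).sum := by
  unfold quadChk at h
  rw [andB_eq, andB_eq, andB_eq, andB_eq, Nat.ble_eq] at h
  obtain ⟨h1, h2, h3, h4, h5⟩ := h
  have hκ := antiChk_sound h1
  have hlam := hsChk_sound h2
  have hQ := allHS_sound h3
  have h6 := dfs_sound _ _ _ _ _ h5
  have g0 : shp kk 0 = dg0 kk := by rw [shp_vals]; rfl
  have hkb : ∀ i, shp kk i ≤ dg0 kk := fun i => g0 ▸ hκ (Fin.zero_le i)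
  have key := Fc_quad (K := ZMod 127) (B := 126) hK127 hκ hlam
    (fun i => by have := hkb i; omega) h' (Q.map (fun q => ((q.1 : ZMod 127), shp q.2)))
    (by
      intro q hq
      rw [List.mem_map] at hq
      obtain ⟨e, he, rfl⟩ := hq
      exact hQ e he)
    (by
      intro μ hμ1 hμ2
      have hμb : ∀ i, μ i ≤ 42 := by
        intro i
        have h7 := mem_bx hμ1 hμ2
        rw [bx, Fintype.mem_piFinset] at h7
        have h8 := h7 i
        rw [Finset.mem_range] at h8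
        have := hkb i
        omega
      rw [List.map_map]
      have h7 : (Q.map ((fun q : ZMod 127 × Sh => q.1 * psi (ZMod 127) q.2 (shp kk) μ) ∘
          (fun q : ℕ × ℕ => ((q.1 : ZMod 127), shp q.2)))).sum
          = val (buildQ Q) (fun T =>
            bp T (8 * (dg1 kk + 4)) (μ 1 - dg1 kk) * (bp T (8 * (dg2 kk + 3)) (μ 2 - dg2 kk) *
            (bp T (8 * (dg3 kk + 2)) (μ 3 - dg3 kk) * (bp T (8 * (dg4 kk + 1)) (μ 4 - dg4 kk) *
            (bp T (8 * (dg5 kk)) (μ 5 - dg5 kk) *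
              bp T (8 * (dg0 kk + 5)) (μ 0 - dg0 kk)))))) := by
        rw [val_buildQ]
        congr 1
        apply List.map_congr_left
        intro e _
        simp only [Function.comp_apply]
        rw [psi_six e.2 kk μ hμb hμ1]
      rw [h7]
      -- unfold the specification
      have g1 : shp kk 1 = dg1 kk := by rw [shp_vals]; rfl
      have g2 : shp kk 2 = dg2 kk := by rw [shp_vals]; rfl
      have g3 : shp kk 3 = dg3 kk := by rw [shp_vals]; rfl
      have g4 : shp kk 4 = dg4 kk := by rw [shp_vals]; rfl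
      have g5 : shp kk 5 = dg5 kk := by rw [shp_vals]; rfl
      have l0 : dg0 kk ≤ μ 0 := g0 ▸ hμ1 0
      have l1 : dg1 kk ≤ μ 1 := g1 ▸ hμ1 1
      have l2 : dg2 kk ≤ μ 2 := g2 ▸ hμ1 2
      have l3 : dg3 kk ≤ μ 3 := g3 ▸ hμ1 3
      have l4 : dg4 kk ≤ μ 4 := g4 ▸ hμ1 4
      have l5 : dg5 kk ≤ μ 5 := g5 ▸ hμ1 5
      have hsum := hμ2
      rw [sum_shp, Fin.sum_univ_six] at hsum
      have k0 : shp kl 0 = dg0 kl := by rw [shp_vals]; rfl
      have k1 : shp kl 1 = dg1 kl := by rw [shp_vals]; rfl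
      have k2 : shp kl 2 = dg2 kl := by rw [shp_vals]; rfl
      have k3 : shp kl 3 = dg3 kl := by rw [shp_vals]; rfl
      have k4 : shp kl 4 = dg4 kl := by rw [shp_vals]; rfl
      have k5 : shp kl 5 = dg5 kl := by rw [shp_vals]; rfl
      have hs := h6 (μ 1 - dg1 kk) (by omega) (μ 2 - dg2 kk) (by omega) (μ 3 - dg3 kk) (by omega)
        (μ 4 - dg4 kk) (by omega) (μ 5 - dg5 kk) (by omega)
      unfold SpecF at hs
      have e0 : a + 1 - (μ 1 - dg1 kk) - (μ 2 - dg2 kk) - (μ 3 - dg3 kk) - (μ 4 - dg4 kk)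
          - (μ 5 - dg5 kk) = μ 0 - dg0 kk := by omega
      rw [e0] at hs
      refine Eq.trans hs ?_
      have hl := hlam.2.2
      rw [sum_shp, sum_shp] at hl
      have m0 : dg0 kk ≤ dg0 kl := by rw [← g0, ← k0]; exact hlam.1 0
      have m1 : dg1 kk ≤ dg1 kl := by rw [← g1, ← k1]; exact hlam.1 1
      have m2 : dg2 kk ≤ dg2 kl := by rw [← g2, ← k2]; exact hlam.1 2
      have m3 : dg3 kk ≤ dg3 kl := by rw [← g3, ← k3]; exact hlam.1 3
      have m4 : dg4 kk ≤ dg4 kl := by rw [← g4, ← k4]; exact hlam.1 4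
      have m5 : dg5 kk ≤ dg5 kl := by rw [← g5, ← k5]; exact hlam.1 5
      have hiff : (true && decide (μ 1 - dg1 kk = Nat.sub (dg1 kl) (dg1 kk))
          && decide (μ 2 - dg2 kk = Nat.sub (dg2 kl) (dg2 kk))
          && decide (μ 3 - dg3 kk = Nat.sub (dg3 kl) (dg3 kk))
          && decide (μ 4 - dg4 kk = Nat.sub (dg4 kl) (dg4 kk))
          && decide (μ 5 - dg5 kk = Nat.sub (dg5 kl) (dg5 kk))) = true ↔ μ = shp kl := by
        simp only [Bool.and_eq_true, decide_eq_true_iff, true_and]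
        constructor
        · rintro ⟨⟨⟨⟨n1, n2⟩, n3⟩, n4⟩, n5⟩
          have n1' : μ 1 - dg1 kk = dg1 kl - dg1 kk := n1
          have n2' : μ 2 - dg2 kk = dg2 kl - dg2 kk := n2
          have n3' : μ 3 - dg3 kk = dg3 kl - dg3 kk := n3
          have n4' : μ 4 - dg4 kk = dg4 kl - dg4 kk := n4
          have n5' : μ 5 - dg5 kk = dg5 kl - dg5 kk := n5
          funext i
          fin_cases i
          · show μ 0 = shp kl 0
            rw [k0]; omega
          · show μ 1 = shp kl 1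
            rw [k1]; omega
          · show μ 2 = shp kl 2
            rw [k2]; omega
          · show μ 3 = shp kl 3
            rw [k3]; omega
          · show μ 4 = shp kl 4
            rw [k4]; omega
          · show μ 5 = shp kl 5
            rw [k5]; omega
        · intro h
          rw [h, k1, k2, k3, k4, k5]
          exact ⟨⟨⟨⟨rfl, rfl⟩, rfl⟩, rfl⟩, rfl⟩
      by_cases hm : μ = shp kl
      · rw [if_pos hm, if_pos (hiff.2 hm)]
      · rw [if_neg hm, if_neg (fun h => hm (hiff.1 h))])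
  rw [key, List.map_map]
  rfl

end Crest.Agent.R187.SN.Top
private theorem rz_9888c88150 : type_of% @_root_.Crest.Agent.R187.SN.Top.SpecF.eq_def := @_root_.Crest.Agent.R187.SN.Top.SpecF.eq_def -- L300
private theorem rz_224f2b23e6 : type_of% @_root_.Crest.Agent.R187.SN.Top.SpecF.eq_1 := @_root_.Crest.Agent.R187.SN.Top.SpecF.eq_1 -- L300
end

-- ▼ part R187/SN/TopF

/-!
# Row 187, PLAN S, block E5: contents words and the kernel scalar `F`

`csN k k'` = the packed list of `8 * (content + 5)` (base 512) of the boxes of `shp k' / shp k`;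
`fq5 Q cs` = `∑ w_s ∏_{t<5} T_s[c_t]  mod 127`.
-/

set_option autoImplicit false

namespace Crest.Agent.R187.SN.Top

open Crest.Agent.R187.SN Crest.Agent.R187.SN.Spec Crest.Agent.R187.SN.Gen
open Crest.Agent.R187.SN.Kern

attribute [local irreducible] mkT

/-- `[d, d+8, …]`, `n` entries, appended to `rest` -/
def seg (n : ℕ) (rest : List ℕ) : ℕ → List ℕ :=
  Nat.rec (motive := fun _ => ℕ → List ℕ) (fun _ => rest) (fun _ ih d => d :: ih (Nat.add d 8)) n

/-- list of `8 * (content + 5)` of the boxes of `k' / k`, row by row -/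
def csL (k k' : ℕ) : List ℕ :=
  seg (Nat.sub (dg0 k') (dg0 k)) (seg (Nat.sub (dg1 k') (dg1 k)) (seg (Nat.sub (dg2 k') (dg2 k))
    (seg (Nat.sub (dg3 k') (dg3 k)) (seg (Nat.sub (dg4 k') (dg4 k))
    (seg (Nat.sub (dg5 k') (dg5 k)) [] (Nat.mul 8 (dg5 k))) (Nat.mul 8 (Nat.add (dg4 k) 1)))
    (Nat.mul 8 (Nat.add (dg3 k) 2))) (Nat.mul 8 (Nat.add (dg2 k) 3)))
    (Nat.mul 8 (Nat.add (dg1 k) 4))) (Nat.mul 8 (Nat.add (dg0 k) 5))

/-- base-512 packing -/
def pack (L : List ℕ) : ℕ :=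
  List.rec (motive := fun _ => ℕ) 0 (fun d _ ih => Nat.add d (Nat.mul 512 ih)) L

/-- contents word -/
def csN (k k' : ℕ) : ℕ := pack (csL k k')

lemma seg_zero (rest : List ℕ) (d : ℕ) : seg 0 rest d = rest := rfl
lemma seg_succ (n : ℕ) (rest : List ℕ) (d : ℕ) : seg (n + 1) rest d = d :: seg n rest (d + 8) := rfl

lemma seg_map (kl z n : ℕ) (rest : List ℕ) (h : z + n ≤ 47) :
    (seg n rest (8 * z)).map (fun d => ((tl (mkT kl) d : ℕ) : ZMod 127))
      = ((List.range n).map (fun c : ℕ => ge (ZMod 127) (shp kl) ((z : ℤ) - 5 + (c : ℤ))))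
        ++ rest.map (fun d => ((tl (mkT kl) d : ℕ) : ZMod 127)) := by
  induction n generalizing z with
  | zero => simp [seg_zero]
  | succ n ih =>
    have h1 : 8 * z + 8 = 8 * (z + 1) := by ring
    rw [seg_succ, h1, List.map_cons, ih (z + 1) (by omega), tl_mkT kl z (by omega),
      List.range_succ_eq_map, List.map_cons, List.cons_append, List.map_map]
    congr 2
    · simp
    · apply List.map_congr_left
      intro c _
      simp only [Function.comp_apply]
      congr 1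
      push_cast
      ring

lemma conts_six (κ lam : Sh) : conts κ lam =
    (List.range (lam 0 - κ 0)).map (fun c : ℕ => ct κ 0 + (c : ℤ)) ++
    ((List.range (lam 1 - κ 1)).map (fun c : ℕ => ct κ 1 + (c : ℤ)) ++
    ((List.range (lam 2 - κ 2)).map (fun c : ℕ => ct κ 2 + (c : ℤ)) ++
    ((List.range (lam 3 - κ 3)).map (fun c : ℕ => ct κ 3 + (c : ℤ)) ++
    ((List.range (lam 4 - κ 4)).map (fun c : ℕ => ct κ 4 + (c : ℤ)) ++
    (List.range (lam 5 - κ 5)).map (fun c : ℕ => ct κ 5 + (c : ℤ)))))) := by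
  have h : (List.finRange 6 : List (Fin 6)) = [0, 1, 2, 3, 4, 5] := by decide
  have h2 : ∀ i : Fin 6, (List.range (lam i - κ i)).map (fun c : ℕ => ((κ i + c : ℕ) : ℤ) - (i : ℕ))
      = (List.range (lam i - κ i)).map (fun c : ℕ => ct κ i + (c : ℤ)) := by
    intro i
    apply List.map_congr_left
    intro c _
    unfold ct
    push_cast
    ring
  unfold conts
  rw [h]
  simp only [List.flatMap_cons, List.flatMap_nil, List.append_nil, h2]

lemma csL_map (kl k k' : ℕ) (hb : ∀ i, shp k' i ≤ 42) (hle : shp k ≤ shp k') :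
    (csL k k').map (fun d => ((tl (mkT kl) d : ℕ) : ZMod 127))
      = (conts (shp k) (shp k')).map (ge (ZMod 127) (shp kl)) := by
  have g0 : shp k 0 = dg0 k := by rw [shp_vals]; rfl
  have g1 : shp k 1 = dg1 k := by rw [shp_vals]; rfl
  have g2 : shp k 2 = dg2 k := by rw [shp_vals]; rfl
  have g3 : shp k 3 = dg3 k := by rw [shp_vals]; rfl
  have g4 : shp k 4 = dg4 k := by rw [shp_vals]; rfl
  have g5 : shp k 5 = dg5 k := by rw [shp_vals]; rfl
  have k0 : shp k' 0 = dg0 k' := by rw [shp_vals]; rfl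
  have k1 : shp k' 1 = dg1 k' := by rw [shp_vals]; rfl
  have k2 : shp k' 2 = dg2 k' := by rw [shp_vals]; rfl
  have k3 : shp k' 3 = dg3 k' := by rw [shp_vals]; rfl
  have k4 : shp k' 4 = dg4 k' := by rw [shp_vals]; rfl
  have k5 : shp k' 5 = dg5 k' := by rw [shp_vals]; rfl
  have l0 : shp k 0 ≤ shp k' 0 := hle 0
  have l1 : shp k 1 ≤ shp k' 1 := hle 1
  have l2 : shp k 2 ≤ shp k' 2 := hle 2
  have l3 : shp k 3 ≤ shp k' 3 := hle 3
  have l4 : shp k 4 ≤ shp k' 4 := hle 4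
  have l5 : shp k 5 ≤ shp k' 5 := hle 5
  have b0 := hb 0
  have b1 := hb 1
  have b2 := hb 2
  have b3 := hb 3
  have b4 := hb 4
  have b5 := hb 5
  rw [g0, k0] at l0
  rw [g1, k1] at l1
  rw [g2, k2] at l2
  rw [g3, k3] at l3
  rw [g4, k4] at l4
  rw [g5, k5] at l5
  rw [k0] at b0
  rw [k1] at b1
  rw [k2] at b2
  rw [k3] at b3
  rw [k4] at b4
  rw [k5] at b5
  have c0 : ct (shp k) 0 = ((dg0 k + 5 : ℕ) : ℤ) - 5 := by unfold ct; rw [g0]; simp
  have c1 : ct (shp k) 1 = ((dg1 k + 4 : ℕ) : ℤ) - 5 := by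
    unfold ct; rw [g1]; push_cast; norm_num; ring
  have c2 : ct (shp k) 2 = ((dg2 k + 3 : ℕ) : ℤ) - 5 := by
    unfold ct; rw [g2]; push_cast; norm_num; ring
  have c3 : ct (shp k) 3 = ((dg3 k + 2 : ℕ) : ℤ) - 5 := by
    unfold ct; rw [g3]; push_cast; norm_num; ring
  have c4 : ct (shp k) 4 = ((dg4 k + 1 : ℕ) : ℤ) - 5 := by
    unfold ct; rw [g4]; push_cast; norm_num; ring
  have c5 : ct (shp k) 5 = ((dg5 k : ℕ) : ℤ) - 5 := by
    unfold ct; rw [g5]; norm_num
  rw [conts_six]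
  simp only [List.map_append, List.map_map]
  unfold csL
  show (seg (dg0 k' - dg0 k) (seg (dg1 k' - dg1 k) (seg (dg2 k' - dg2 k)
    (seg (dg3 k' - dg3 k) (seg (dg4 k' - dg4 k)
    (seg (dg5 k' - dg5 k) [] (8 * (dg5 k))) (8 * (dg4 k + 1)))
    (8 * (dg3 k + 2))) (8 * (dg2 k + 3)))
    (8 * (dg1 k + 4))) (8 * (dg0 k + 5))).map _ = _
  rw [seg_map _ _ _ _ (by omega), seg_map _ _ _ _ (by omega), seg_map _ _ _ _ (by omega),
    seg_map _ _ _ _ (by omega), seg_map _ _ _ _ (by omega), seg_map _ _ _ _ (by omega)]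
  rw [g0, g1, g2, g3, g4, g5, k0, k1, k2, k3, k4, k5, c0, c1, c2, c3, c4, c5]
  simp only [List.map_nil, List.append_nil]
  rfl

/-- product of five table values -/
def gp5 (T cs : ℕ) : ℕ :=
  Nat.mul (Nat.mul (Nat.mul (Nat.mul (tl T (Nat.mod cs 512)) (tl T (Nat.mod (Nat.div cs 512) 512)))
    (tl T (Nat.mod (Nat.div cs 262144) 512))) (tl T (Nat.mod (Nat.div cs 134217728) 512)))
    (tl T (Nat.mod (Nat.div cs 68719476736) 512))

/-- the scalar `F`, five contents; `Q` = list of `(w_s, T_s)` -/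
def fq5 (Q : List (ℕ × ℕ)) (cs : ℕ) : ℕ :=
  Nat.mod (List.rec (motive := fun _ => ℕ) 0
    (fun e _ ih => Nat.add (Nat.mul e.1 (gp5 e.2 cs)) ih) Q) 127

lemma fq5_lt (Q : List (ℕ × ℕ)) (cs : ℕ) : fq5 Q cs < 127 := Nat.mod_lt _ (by norm_num)

lemma fq5_cast (Q : List (ℕ × ℕ)) (cs : ℕ) :
    ((fq5 Q cs : ℕ) : ZMod 127) = val Q (fun T => ((gp5 T cs : ℕ) : ZMod 127)) := by
  unfold fq5
  have h1 : ∀ x : ℕ, ((Nat.mod x 127 : ℕ) : ZMod 127) = (x : ZMod 127) := fun x =>
    ZMod.natCast_mod x 127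
  rw [h1]
  induction Q with
  | nil => simp [val]
  | cons e Q ih =>
    unfold val at ih ⊢
    rw [List.map_cons, List.sum_cons, ← ih]
    show ((Nat.add (Nat.mul e.1 (gp5 e.2 cs)) _ : ℕ) : ZMod 127) = _
    rw [← Nat.cast_mul, ← Nat.cast_add]
    rfl

lemma pack_five {d0 d1 d2 d3 d4 : ℕ} (h0 : d0 < 512) (h1 : d1 < 512) (h2 : d2 < 512)
    (h3 : d3 < 512) (h4 : d4 < 512) (T : ℕ) :
    gp5 T (pack [d0, d1, d2, d3, d4]) = tl T d0 * tl T d1 * tl T d2 * tl T d3 * tl T d4 := by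
  have hp : pack [d0, d1, d2, d3, d4] = d0 + 512 * (d1 + 512 * (d2 + 512 * (d3 + 512 * (d4 +
    512 * 0)))) := rfl
  have e0 : Nat.mod (pack [d0, d1, d2, d3, d4]) 512 = d0 := by
    show pack [d0, d1, d2, d3, d4] % 512 = d0
    rw [hp]; omega
  have e1 : Nat.mod (Nat.div (pack [d0, d1, d2, d3, d4]) 512) 512 = d1 := by
    show pack [d0, d1, d2, d3, d4] / 512 % 512 = d1
    rw [hp]; omega
  have e2 : Nat.mod (Nat.div (pack [d0, d1, d2, d3, d4]) 262144) 512 = d2 := by
    show pack [d0, d1, d2, d3, d4] / 262144 % 512 = d2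
    rw [hp]; omega
  have e3 : Nat.mod (Nat.div (pack [d0, d1, d2, d3, d4]) 134217728) 512 = d3 := by
    show pack [d0, d1, d2, d3, d4] / 134217728 % 512 = d3
    rw [hp]; omega
  have e4 : Nat.mod (Nat.div (pack [d0, d1, d2, d3, d4]) 68719476736) 512 = d4 := by
    show pack [d0, d1, d2, d3, d4] / 68719476736 % 512 = d4
    rw [hp]; omega
  unfold gp5
  rw [e0, e1, e2, e3, e4]
  rfl

lemma seg_lt (n : ℕ) (rest : List ℕ) (hr : ∀ d ∈ rest, d < 512) : ∀ z, z + n ≤ 47 →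
    ∀ d ∈ seg n rest (8 * z), d < 512 := by
  induction n with
  | zero => intro z _; exact hr
  | succ n ih =>
    intro z hz d hd
    have h1 : 8 * z + 8 = 8 * (z + 1) := by ring
    rw [seg_succ, h1] at hd
    rcases List.mem_cons.1 hd with rfl | h2
    · omega
    · exact ih (z + 1) (by omega) d h2

lemma csL_lt (k k' : ℕ) (hb : ∀ i, shp k' i ≤ 42) (hle : shp k ≤ shp k') :
    ∀ d ∈ csL k k', d < 512 := by
  have g0 : shp k 0 = dg0 k := by rw [shp_vals]; rfl
  have g1 : shp k 1 = dg1 k := by rw [shp_vals]; rfl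
  have g2 : shp k 2 = dg2 k := by rw [shp_vals]; rfl
  have g3 : shp k 3 = dg3 k := by rw [shp_vals]; rfl
  have g4 : shp k 4 = dg4 k := by rw [shp_vals]; rfl
  have g5 : shp k 5 = dg5 k := by rw [shp_vals]; rfl
  have k0 : shp k' 0 = dg0 k' := by rw [shp_vals]; rfl
  have k1 : shp k' 1 = dg1 k' := by rw [shp_vals]; rfl
  have k2 : shp k' 2 = dg2 k' := by rw [shp_vals]; rfl
  have k3 : shp k' 3 = dg3 k' := by rw [shp_vals]; rfl
  have k4 : shp k' 4 = dg4 k' := by rw [shp_vals]; rfl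
  have k5 : shp k' 5 = dg5 k' := by rw [shp_vals]; rfl
  have l0 : shp k 0 ≤ shp k' 0 := hle 0
  have l1 : shp k 1 ≤ shp k' 1 := hle 1
  have l2 : shp k 2 ≤ shp k' 2 := hle 2
  have l3 : shp k 3 ≤ shp k' 3 := hle 3
  have l4 : shp k 4 ≤ shp k' 4 := hle 4
  have l5 : shp k 5 ≤ shp k' 5 := hle 5
  have b0 := hb 0
  have b1 := hb 1
  have b2 := hb 2
  have b3 := hb 3
  have b4 := hb 4
  have b5 := hb 5
  rw [g0, k0] at l0
  rw [g1, k1] at l1
  rw [g2, k2] at l2
  rw [g3, k3] at l3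
  rw [g4, k4] at l4
  rw [g5, k5] at l5
  rw [k0] at b0
  rw [k1] at b1
  rw [k2] at b2
  rw [k3] at b3
  rw [k4] at b4
  rw [k5] at b5
  show ∀ d ∈ seg (dg0 k' - dg0 k) (seg (dg1 k' - dg1 k) (seg (dg2 k' - dg2 k)
    (seg (dg3 k' - dg3 k) (seg (dg4 k' - dg4 k)
    (seg (dg5 k' - dg5 k) [] (8 * (dg5 k))) (8 * (dg4 k + 1)))
    (8 * (dg3 k + 2))) (8 * (dg2 k + 3)))
    (8 * (dg1 k + 4))) (8 * (dg0 k + 5)), d < 512
  refine seg_lt _ _ (seg_lt _ _ (seg_lt _ _ (seg_lt _ _ (seg_lt _ _ (seg_lt _ _ ?_ _ ?_) _ ?_)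
    _ ?_) _ ?_) _ ?_) _ ?_
  · intro d hd; simp at hd
  all_goals omega

lemma csL_length (k k' : ℕ) (hb : ∀ i, shp k' i ≤ 42) {m : ℕ} (h : HS (shp k) (shp k') m) :
    (csL k k').length = m := by
  have h1 := congrArg List.length (csL_map 0 k k' hb h.1)
  rw [List.length_map, List.length_map, conts_length h] at h1
  exact h1

/-- **the kernel scalar equals `Fc`** -/
theorem fq5_sound {kk kl : ℕ} {Q : List (ℕ × ℕ)} (h : quadChk kk kl 6 Q = true) (k k' : ℕ)
    (hb : ∀ i, shp k' i ≤ 42) (h' : HS (shp k) (shp k') 5) :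
    ((fq5 (buildQ Q) (csN k k') : ℕ) : ZMod 127)
      = Fc (ZMod 127) (shp kk) (shp k) (shp kl) (shp k') := by
  rw [quad_sound h (shp k) (shp k') h', fq5_cast, val_buildQ]
  congr 1
  apply List.map_congr_left
  intro e _
  congr 1
  have h1 := csL_map e.2 k k' hb h'.1
  have h2 := csL_lt k k' hb h'.1
  have h3 := csL_length k k' hb h'
  unfold pc
  rw [← h1]
  unfold csN
  match hL : csL k k', h3 with
  | [d0, d1, d2, d3, d4], _ =>
    rw [hL] at h2
    rw [pack_five (h2 d0 (by simp)) (h2 d1 (by simp)) (h2 d2 (by simp)) (h2 d3 (by simp))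
      (h2 d4 (by simp))]
    simp only [List.map_cons, List.map_nil, List.prod_cons, List.prod_nil]
    push_cast
    ring

end Crest.Agent.R187.SN.Top
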