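import Mathlib
import Crest.Agent.R187.SN.TopF
import Crest.Agent.R187.SN.TD.Base

/-!
# Row 187, PLAN S: tables of vectors, tables of one-row-less insertions, and the block function

* `VT` = table of `n` vectors of level `(6, b-1)`, top shape `shp key`; for every listed `κ'` a
  packed `n × m(κ')` matrix (row stride 33, slots of 24 bits, entries `< 128`, mod 127).
* `WT` = table for one `λ'` of level `(5, b)`: for EVERY `κ'` with `HS κ' λ' 5` a packed
  `K × n` matrix.
* `blkN (buildQ Q) t c V W` = packed `t × c` matrix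
  `∑_{κ'} F(κ, κ'; λ, λ') V[κ'] W[κ']` (mod 127), `mop_block` = its meaning.
-/

set_option autoImplicit false

namespace Crest.Agent.R187.SN.Top

open Crest.Agent.R187.SN Crest.Agent.R187.SN.Spec Crest.Agent.R187.SN.Gen
open Crest.Agent.R187.SN.Kern

/-! ### data -/

/-- entry of a vector table at the shape `κ'` (0 if not listed) -/
def vget : VE → Sh → ℕ
  | VE.nil, _ => 0
  | VE.cons k x t, κ' => if shp k = κ' then x else vget t κ'

lemma vget_cons (k x : ℕ) (t : VE) (κ' : Sh) :
    vget (VE.cons k x t) κ' = if shp k = κ' then x else vget t κ' := rfl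

/-- entry of a `WE` table (0 if not listed) -/
def wget : WE → Sh → ℕ
  | WE.nil, _ => 0
  | WE.cons k _ _ x t, κ' => if shp k = κ' then x else wget t κ'

lemma wget_cons (k cs K x : ℕ) (t : WE) (κ' : Sh) :
    wget (WE.cons k cs K x t) κ' = if shp k = κ' then x else wget t κ' := rfl

/-- a property of all entries -/
def WE.All (P : ℕ → ℕ → ℕ → ℕ → Prop) : WE → Prop
  | WE.nil => True
  | WE.cons k cs K x t => P k cs K x ∧ WE.All P t

/-- the matrix entry `(i, j)` of a packed matrix of stride 33 -/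
def en (x i j : ℕ) : ZMod 127 := ((slot 24 x (33 * i + j) : ℕ) : ZMod 127)


lemma ble_iff {a b : ℕ} : Nat.ble a b = true ↔ a ≤ b := by rw [Nat.ble_eq]

/-! ### strictly decreasing keys -/

def vSorted : ℕ → VE → Prop
  | _, VE.nil => True
  | B, VE.cons k _ t => k < B ∧ vSorted k t

def wSorted : ℕ → WE → Prop
  | _, WE.nil => True
  | B, WE.cons k _ _ _ t => k < B ∧ wSorted k t

lemma vSorted_mono {B B' : ℕ} (h : B ≤ B') {V : VE} (hV : vSorted B V) : vSorted B' V := by
  cases V with
  | nil => trivial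
  | cons k x t => exact ⟨lt_of_lt_of_le hV.1 h, hV.2⟩

lemma vget_of_le {B : ℕ} : ∀ {V : VE}, vSorted B V → B ≤ 68719476736 → ∀ {k : ℕ}, B ≤ k →
    k < 68719476736 → vget V (shp k) = 0 := by
  intro V
  induction V generalizing B with
  | nil => intro _ _ k _ _; rfl
  | cons k0 x t ih =>
    intro hV hB k hk hk2
    rw [vget_cons]
    have h1 := hV.1
    rw [if_neg, ih hV.2 (by omega) (by omega) hk2]
    intro h
    have := shp_inj' (by omega) hk2 h
    omega

/-! ### the join -/

/-- drop the entries with key `> k` -/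
noncomputable def dropGt (k : ℕ) (V : VE) : VE :=
  VE.rec (motive := fun _ => VE) VE.nil
    (fun k' x t ih => Bool.rec (motive := fun _ => VE) ih (VE.cons k' x t) (Nat.ble k' k)) V

lemma dropGt_cons (k k' x : ℕ) (t : VE) :
    dropGt k (VE.cons k' x t) = if k' ≤ k then VE.cons k' x t else dropGt k t := by
  show Bool.rec (motive := fun _ => VE) (dropGt k t) (VE.cons k' x t) (Nat.ble k' k) = _
  by_cases h : k' ≤ k
  · rw [if_pos h, ble_iff.2 h]
  · rw [if_neg h]
    have : Nat.ble k' k = false := by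
      rw [Bool.eq_false_iff]
      exact fun h2 => h (ble_iff.1 h2)
    rw [this]

lemma dropGt_spec {k : ℕ} : ∀ {B : ℕ} {V : VE}, vSorted B V →
    B ≤ 68719476736 → vSorted (k + 1) (dropGt k V) ∧
      ∀ k' ≤ k, vget (dropGt k V) (shp k') = vget V (shp k') := by
  intro B V
  induction V generalizing B with
  | nil => intro _ _; exact ⟨trivial, fun _ _ => rfl⟩
  | cons k0 x t ih =>
    intro hV hB
    rw [dropGt_cons]
    split_ifs with h
    · exact ⟨⟨by omega, hV.2⟩, fun _ _ => rfl⟩
    · have h1 := hV.1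
      obtain ⟨h2, h3⟩ := ih hV.2 (by omega)
      refine ⟨h2, fun k' hk' => ?_⟩
      rw [h3 k' hk']
      rw [vget_cons, if_neg]
      intro h4
      have := shp_inj' (by omega) (by omega) h4
      omega

/-- the accumulated (unreduced) block -/
noncomputable def acc (Q : List (ℕ × ℕ)) (n c : ℕ) (W : WE) : VE → ℕ :=
  WE.rec (motive := fun _ => VE → ℕ) (fun _ => 0)
    (fun key cs K x _ ih V =>
      VE.rec (motive := fun _ => ℕ) 0
        (fun k' y t _ => Bool.rec (motive := fun _ => ℕ) (ih (VE.cons k' y t))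
          (Nat.add (ih t) (Nat.mul (fq5 Q cs) (Kern.mul 24 7 33 n c y x K))) (Nat.beq k' key))
        (dropGt key V)) W

/-- the packed block -/
noncomputable def blkN (Q : List (ℕ × ℕ)) (n c : ℕ) (V : VE) (W : WE) : ℕ :=
  red 7 (blk 24 33 n c (Nat.sub (Nat.pow 2 7) 1)) (blk 24 33 n c (Nat.sub (Nat.pow 2 (Nat.sub 24 7)) 1))
    (acc Q n c W V)

/-- the list behind `acc` -/
noncomputable def joinL (Q : List (ℕ × ℕ)) (n c : ℕ) (W : WE) : VE → List (ℕ × ℕ) :=
  WE.rec (motive := fun _ => VE → List (ℕ × ℕ)) (fun _ => [])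
    (fun key cs K x _ ih V =>
      VE.rec (motive := fun _ => List (ℕ × ℕ)) []
        (fun k' y t _ => Bool.rec (motive := fun _ => List (ℕ × ℕ)) (ih (VE.cons k' y t))
          ((fq5 Q cs, Kern.mul 24 7 33 n c y x K) :: ih t) (Nat.beq k' key))
        (dropGt key V)) W

lemma acc_eq (Q : List (ℕ × ℕ)) (n c : ℕ) (W : WE) : ∀ V, acc Q n c W V
    = linAcc (joinL Q n c W V) := by
  induction W with
  | nil => intro V; rfl
  | cons key cs K x t ih =>
    intro V
    show (VE.rec (motive := fun _ => ℕ) 0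
        (fun k' y t' _ => Bool.rec (motive := fun _ => ℕ) (acc Q n c t (VE.cons k' y t'))
          (Nat.add (acc Q n c t t') (Nat.mul (fq5 Q cs) (Kern.mul 24 7 33 n c y x K)))
          (Nat.beq k' key)) (dropGt key V) : ℕ)
      = linAcc (VE.rec (motive := fun _ => List (ℕ × ℕ)) []
        (fun k' y t' _ => Bool.rec (motive := fun _ => List (ℕ × ℕ)) (joinL Q n c t (VE.cons k' y t'))
          ((fq5 Q cs, Kern.mul 24 7 33 n c y x K) :: joinL Q n c t t') (Nat.beq k' key))
        (dropGt key V))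
    cases dropGt key V with
    | nil => rfl
    | cons k' y t' =>
      show (Bool.rec (motive := fun _ => ℕ) (acc Q n c t (VE.cons k' y t'))
          (Nat.add (acc Q n c t t') (Nat.mul (fq5 Q cs) (Kern.mul 24 7 33 n c y x K)))
          (Nat.beq k' key) : ℕ) = linAcc (Bool.rec (motive := fun _ => List (ℕ × ℕ))
            (joinL Q n c t (VE.cons k' y t'))
          ((fq5 Q cs, Kern.mul 24 7 33 n c y x K) :: joinL Q n c t t') (Nat.beq k' key))
      cases Nat.beq k' key with
      | true =>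
        show Nat.add (acc Q n c t t') _ = linAcc (_ :: joinL Q n c t t')
        rw [linAcc_cons, ih]
      | false => exact ih _

lemma blkN_eq (Q : List (ℕ × ℕ)) (n c : ℕ) (V : VE) (W : WE) :
    blkN Q n c V W = lin 24 7 33 n c (joinL Q n c W V) := by
  unfold blkN lin
  rw [acc_eq]

noncomputable def wLen (W : WE) : ℕ := WE.rec (motive := fun _ => ℕ) 0 (fun _ _ _ _ _ ih => Nat.succ ih) W

lemma joinL_length (Q : List (ℕ × ℕ)) (n c : ℕ) (W : WE) : ∀ V,
    (joinL Q n c W V).length ≤ wLen W := by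
  induction W with
  | nil => intro V; exact le_refl 0
  | cons key cs K x t ih =>
    intro V
    show (VE.rec (motive := fun _ => List (ℕ × ℕ)) []
        (fun k' y t' _ => Bool.rec (motive := fun _ => List (ℕ × ℕ)) (joinL Q n c t (VE.cons k' y t'))
          ((fq5 Q cs, Kern.mul 24 7 33 n c y x K) :: joinL Q n c t t') (Nat.beq k' key))
        (dropGt key V) : List (ℕ × ℕ)).length ≤ Nat.succ (wLen t)
    cases dropGt key V with
    | nil => exact Nat.zero_le _
    | cons k' y t' =>
      show (Bool.rec (motive := fun _ => List (ℕ × ℕ))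
            (joinL Q n c t (VE.cons k' y t'))
          ((fq5 Q cs, Kern.mul 24 7 33 n c y x K) :: joinL Q n c t t') (Nat.beq k' key)
          : List (ℕ × ℕ)).length ≤ Nat.succ (wLen t)
      cases Nat.beq k' key with
      | true =>
        show (joinL Q n c t t').length + 1 ≤ wLen t + 1
        exact Nat.succ_le_succ (ih t')
      | false =>
        show (joinL Q n c t (VE.cons k' y t')).length ≤ wLen t + 1
        exact (ih _).trans (Nat.le_succ _)

lemma joinL_good (Q : List (ℕ × ℕ)) {n c : ℕ} (hc : c ≤ 33) (W : WE) : ∀ V,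
    ∀ e ∈ joinL Q n c W V, e.1 < 2 ^ 7 ∧ ∀ j, slot 24 e.2 j < 2 ^ 7 := by
  induction W with
  | nil => intro V e he; simp [joinL] at he
  | cons key cs K x t ih =>
    intro V
    show ∀ e ∈ (VE.rec (motive := fun _ => List (ℕ × ℕ)) []
        (fun k' y t' _ => Bool.rec (motive := fun _ => List (ℕ × ℕ)) (joinL Q n c t (VE.cons k' y t'))
          ((fq5 Q cs, Kern.mul 24 7 33 n c y x K) :: joinL Q n c t t') (Nat.beq k' key))
        (dropGt key V) : List (ℕ × ℕ)), _
    cases dropGt key V with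
    | nil => intro e he; simp at he
    | cons k' y t' =>
      show ∀ e ∈ (Bool.rec (motive := fun _ => List (ℕ × ℕ))
            (joinL Q n c t (VE.cons k' y t'))
          ((fq5 Q cs, Kern.mul 24 7 33 n c y x K) :: joinL Q n c t t') (Nat.beq k' key)
          : List (ℕ × ℕ)), _
      cases Nat.beq k' key with
      | true =>
        intro e he
        have he' : e ∈ (fq5 Q cs, Kern.mul 24 7 33 n c y x K) :: joinL Q n c t t' := he
        rcases List.mem_cons.1 he' with rfl | h2
        · exact ⟨lt_of_lt_of_le (fq5_lt Q cs) (by norm_num),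
            fun j => (good_mul par127 (by norm_num) hc y x K j).1⟩
        · exact ih t' e h2
      | false => exact ih _

/-- sum over the entries of a `WE` -/
def wsum {R : Type*} [AddCommMonoid R] (f : ℕ → ℕ → ℕ → ℕ → R) : WE → R
  | WE.nil => 0
  | WE.cons k cs K x t => f k cs K x + wsum f t

lemma wsum_congr {R : Type*} [AddCommMonoid R] {f g : ℕ → ℕ → ℕ → ℕ → R} {B : ℕ} {W : WE}
    (hW : wSorted B W) (h : ∀ k cs K x, k < B → f k cs K x = g k cs K x) :
    wsum f W = wsum g W := by
  induction W generalizing B with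
  | nil => rfl
  | cons k cs K x t ih =>
    have h1 := hW.1
    unfold wsum
    rw [h k cs K x h1, ih hW.2 (fun k' cs' K' x' hk' => h k' cs' K' x' (by omega))]


lemma wsum_zero {R : Type*} [AddCommMonoid R] {f : ℕ → ℕ → ℕ → ℕ → R} {B : ℕ} {W : WE}
    (hW : wSorted B W) (h : ∀ k cs K x, k < B → f k cs K x = 0) :
    wsum f W = 0 := by
  rw [wsum_congr (g := fun _ _ _ _ => 0) hW h]
  clear h hW
  induction W with
  | nil => rfl
  | cons k cs K x t ih => unfold wsum; rw [ih, add_zero]

/-- the summand of one match, as a matrix -/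
def term (Q : List (ℕ × ℕ)) (n c cs y x K : ℕ) : Matrix (Fin n) (Fin c) (ZMod 127) :=
  ((fq5 Q cs : ℕ) : ZMod 127) • (mat 127 24 33 n K y * mat 127 24 33 K c x)

lemma term_zero (Q : List (ℕ × ℕ)) (n c cs x K : ℕ) : term Q n c cs 0 x K = 0 := by
  unfold term
  have : mat 127 24 33 n K 0 = 0 := by
    ext i j
    show ((slot 24 0 _ : ℕ) : ZMod 127) = 0
    rw [slot_zero, Nat.cast_zero]
  rw [this, Matrix.zero_mul, smul_zero]

/-- slots bounds for all entries -/
def vSmall : VE → Prop
  | VE.nil => True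
  | VE.cons _ x t => (∀ j, slot 24 x j < 2 ^ 7) ∧ vSmall t

lemma vSmall_drop (k : ℕ) {V : VE} (h : vSmall V) : vSmall (dropGt k V) := by
  induction V with
  | nil => exact h
  | cons k0 x t ih =>
    rw [dropGt_cons]
    split_ifs
    · exact h
    · exact ih h.2

lemma joinL_sum (Q : List (ℕ × ℕ)) {n c : ℕ} (hc : c ≤ 33) {W : WE} : ∀ {B : ℕ}, B ≤ 68719476736 →
    wSorted B W → W.All (fun _ _ K x => K ≤ 33 ∧ ∀ j, slot 24 x j < 2 ^ 7) →
    ∀ {V : VE}, vSorted 68719476736 V → vSmall V →
    ((joinL Q n c W V).map (fun e => ((e.1 : ℕ) : ZMod 127) • mat 127 24 33 n c e.2)).sum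
      = wsum (fun k cs K x => term Q n c cs (vget V (shp k)) x K) W := by
  induction W with
  | nil => intro B _ _ _ V _ _; rfl
  | cons key cs K x t ih =>
    intro B hB hW hA V hV hVs
    have hkB := hW.1
    obtain ⟨hd1, hd2⟩ := dropGt_spec (k := key) hV (le_refl _)
    have hds := vSmall_drop key hVs
    show ((VE.rec (motive := fun _ => List (ℕ × ℕ)) []
        (fun k' y t' _ => Bool.rec (motive := fun _ => List (ℕ × ℕ)) (joinL Q n c t (VE.cons k' y t'))
          ((fq5 Q cs, Kern.mul 24 7 33 n c y x K) :: joinL Q n c t t') (Nat.beq k' key))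
        (dropGt key V) : List (ℕ × ℕ)).map
          (fun e => ((e.1 : ℕ) : ZMod 127) • mat 127 24 33 n c e.2)).sum = _
    unfold wsum
    rw [← hd2 key (le_refl _)]
    have hcongr : wsum (fun k cs K x => term Q n c cs (vget V (shp k)) x K) t
        = wsum (fun k cs K x => term Q n c cs (vget (dropGt key V) (shp k)) x K) t := by
      refine wsum_congr hW.2 (fun k cs' K' x' hk => ?_)
      rw [hd2 k (by omega)]
    rw [hcongr]
    cases hD : dropGt key V with
    | nil =>
      show (0 : Matrix (Fin n) (Fin c) (ZMod 127)) = _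
      have h1 : ∀ k, vget VE.nil (shp k) = 0 := fun _ => rfl
      simp only [h1, term_zero]
      rw [wsum_zero hW.2 (fun _ _ _ _ _ => rfl), add_zero]
    | cons k' y t' =>
      rw [hD] at hd1 hds
      show ((Bool.rec (motive := fun _ => List (ℕ × ℕ))
            (joinL Q n c t (VE.cons k' y t'))
          ((fq5 Q cs, Kern.mul 24 7 33 n c y x K) :: joinL Q n c t t') (Nat.beq k' key)
          : List (ℕ × ℕ)).map
          (fun e => ((e.1 : ℕ) : ZMod 127) • mat 127 24 33 n c e.2)).sum = _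
      have hk'1 := hd1.1
      cases hb : Nat.beq k' key with
      | true =>
        have hkk : k' = key := Nat.eq_of_beq_eq_true hb
        subst hkk
        show ((((fq5 Q cs, Kern.mul 24 7 33 n c y x K) :: joinL Q n c t t')).map
          (fun e => ((e.1 : ℕ) : ZMod 127) • mat 127 24 33 n c e.2)).sum = _
        rw [List.map_cons, List.sum_cons, ih (by omega) hW.2 hA.2
          (vSorted_mono (by omega) hd1.2) hds.2]
        congr 1
        · have h1 : vget (VE.cons k' y t') (shp k') = y := by rw [vget_cons, if_pos rfl]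
          rw [h1]
          unfold term
          congr 1
          have hK : K ≤ 33 := hA.1.1
          exact mat_mul par127 (by norm_num) hc (by
            calc K * 2 ^ (2 * 7) ≤ 33 * 2 ^ (2 * 7) := Nat.mul_le_mul_right _ hK
              _ ≤ 2 ^ 24 := by norm_num) hds.1 hA.1.2
        · refine wsum_congr hW.2 (fun k cs' K' x' hk => ?_)
          have h1 : vget (VE.cons k' y t') (shp k) = vget t' (shp k) := by
            rw [vget_cons, if_neg]
            intro h
            have := shp_inj' (by omega) (by omega) h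
            omega
          rw [h1]
      | false =>
        have hne : k' ≠ key := by
          intro h
          rw [h] at hb
          have h2 : Nat.beq key key = true := Nat.beq_refl key
          rw [h2] at hb
          exact absurd hb (by decide)
        show ((joinL Q n c t (VE.cons k' y t')).map
          (fun e => ((e.1 : ℕ) : ZMod 127) • mat 127 24 33 n c e.2)).sum = _
        rw [ih (by omega) hW.2 hA.2 (vSorted_mono (by omega) hd1) hds]
        have h1 : vget (VE.cons k' y t') (shp key) = 0 :=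
          vget_of_le (B := key) (V := VE.cons k' y t') ⟨by omega, hd1.2⟩ (by omega) (le_refl _)
            (by omega)
        rw [h1, term_zero, zero_add]

/-! ### the set of listed shapes -/

def wShapes : WE → Finset Sh
  | WE.nil => ∅
  | WE.cons k _ _ _ t => insert (shp k) (wShapes t)

lemma wShapes_lt {B : ℕ} {W : WE} (hW : wSorted B W) {κ' : Sh} (h : κ' ∈ wShapes W) :
    ∃ k, k < B ∧ shp k = κ' := by
  induction W generalizing B with
  | nil => simp [wShapes] at h
  | cons k cs K x t ih =>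
    unfold wShapes at h
    rcases Finset.mem_insert.1 h with h1 | h1
    · exact ⟨k, hW.1, h1.symm⟩
    · obtain ⟨k', hk', h2⟩ := ih hW.2 h1
      exact ⟨k', by have := hW.1; omega, h2⟩

lemma wsum_eq {R : Type*} [AddCommMonoid R] {f : ℕ → ℕ → ℕ → ℕ → R} {g : Sh → R} {B : ℕ}
    (hB : B ≤ 68719476736) {W : WE} (hW : wSorted B W)
    (hA : W.All (fun k cs K x => f k cs K x = g (shp k))) :
    wsum f W = ∑ κ' ∈ wShapes W, g κ' := by
  induction W generalizing B with
  | nil => simp [wsum, wShapes]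
  | cons k cs K x t ih =>
    have hk := hW.1
    unfold wsum wShapes
    rw [Finset.sum_insert, hA.1, ih (by omega) hW.2 hA.2]
    intro h
    obtain ⟨k', hk', h2⟩ := wShapes_lt hW.2 h
    have := shp_inj' (by omega) (by omega) h2
    omega

/-- every property of entries gives the same for the looked-up entry -/
lemma wAll_get {P : ℕ → ℕ → ℕ → ℕ → Prop} {B : ℕ} (hB : B ≤ 68719476736) {W : WE}
    (hW : wSorted B W) (hA : W.All P) :
    W.All (fun k cs K x => P k cs K x ∧ wget W (shp k) = x) := by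
  induction W generalizing B with
  | nil => trivial
  | cons k cs K x t ih =>
    have hk := hW.1
    refine ⟨⟨hA.1, by rw [wget_cons, if_pos rfl]⟩, ?_⟩
    have h1 := ih (by omega) hW.2 hA.2
    have h2 : ∀ {W' : WE} {B' : ℕ}, wSorted B' W' → B' ≤ k →
        W'.All (fun k cs K x => P k cs K x ∧ wget t (shp k) = x) →
        W'.All (fun k' cs' K' x' => P k' cs' K' x' ∧
          wget (WE.cons k cs K x t) (shp k') = x') := by
      intro W'
      induction W' with
      | nil => intro _ _ _ _; trivial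
      | cons k1 cs1 K1 x1 t1 ih1 =>
        intro B' hW' hB' hA'
        have hk1 := hW'.1
        refine ⟨⟨hA'.1.1, ?_⟩, ih1 hW'.2 (by omega) hA'.2⟩
        rw [wget_cons, if_neg, hA'.1.2]
        intro h
        have := shp_inj' (by omega) (by omega) h
        omega
    exact h2 hW.2 (le_refl _) h1

lemma WE.All.imp {P P' : ℕ → ℕ → ℕ → ℕ → Prop} (h : ∀ k cs K x, P k cs K x → P' k cs K x)
    {W : WE} (hW : W.All P) : W.All P' := by
  induction W with
  | nil => trivial
  | cons k cs K x t ih => exact ⟨h _ _ _ _ hW.1, ih hW.2⟩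

lemma WE.All.and {P P' : ℕ → ℕ → ℕ → ℕ → Prop} {W : WE} (h1 : W.All P) (h2 : W.All P') :
    W.All (fun k cs K x => P k cs K x ∧ P' k cs K x) := by
  induction W with
  | nil => trivial
  | cons k cs K x t ih => exact ⟨⟨h1.1, h2.1⟩, ih h1.2 h2.2⟩

/-! ### static checks -/

noncomputable def vOk (n : ℕ) (V : VE) : ℕ → Bool :=
  VE.rec (motive := fun _ => ℕ → Bool) (fun _ => true)
    (fun k x _ ih B => andB (Nat.ble (Nat.succ k) B) (andB (goodChk 24 7 33 n 33 x) (ih k))) V

/-- static check of a vector table -/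
noncomputable def VT.good (t : VT) : Bool := vOk t.n t.ent 68719476736


noncomputable def wOk (lk n : ℕ) (W : WE) : ℕ → Bool :=
  WE.rec (motive := fun _ => ℕ → Bool) (fun _ => true)
    (fun key cs K x _ ih B => andB (Nat.ble (Nat.succ key) B) (andB (hsChk key lk 5)
      (andB (Nat.beq cs (csN key lk)) (andB (Nat.ble K 33) (andB (goodChk 24 7 33 K n x)
        (ih key)))))) W


/-! #### completeness: enumeration of all horizontal strips below `λ'` -/

/-- loop over the digit `d`, going down at most `fuel` times -/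
noncomputable def loopE (next : ℕ → ℕ → List ℕ → List ℕ) (key : ℕ) (tl : List ℕ) (fuel : ℕ) :
    ℕ → ℕ → List ℕ :=
  Nat.rec (motive := fun _ => ℕ → ℕ → List ℕ)
    (fun m d => next m (Nat.add (Nat.mul key 64) d) tl)
    (fun _ ih m d => next m (Nat.add (Nat.mul key 64) d)
      (Nat.rec (motive := fun _ => List ℕ) tl (fun m' _ => ih m' (Nat.pred d)) m)) fuel

/-- base: the last digit is determined -/
noncomputable def baseE (hi : ℕ) (m key : ℕ) (tl : List ℕ) : List ℕ :=
  Bool.rec (motive := fun _ => List ℕ) tl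
    (Nat.add (Nat.mul key 64) (Nat.sub hi m) :: tl) (Nat.ble m hi)

noncomputable def stepE (next : ℕ → ℕ → List ℕ → List ℕ) (hi lo : ℕ) (m key : ℕ) (tl : List ℕ) : List ℕ :=
  loopE next key tl (Nat.sub hi lo) m hi

/-- keys of all `κ'` with `HS κ' (shp lk) a`, strictly decreasing -/
noncomputable def enumE (lk a : ℕ) : List ℕ :=
  stepE (stepE (stepE (stepE (stepE (baseE (dg5 lk)) (dg4 lk) (dg5 lk)) (dg3 lk) (dg4 lk))
    (dg2 lk) (dg3 lk)) (dg1 lk) (dg2 lk)) (dg0 lk) (dg1 lk) a 0 []






lemma hm (a b : ℕ) (h : b < 64) : (a * 64 + b) % 64 = b := by omega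



/-- the keys of the table are exactly the list -/
noncomputable def eqK (W : WE) : List ℕ → Bool :=
  WE.rec (motive := fun _ => List ℕ → Bool)
    (fun L => List.rec (motive := fun _ => Bool) true (fun _ _ _ => false) L)
    (fun key _ _ _ _ ih L => List.rec (motive := fun _ => Bool) false
      (fun k L' _ => andB (Nat.beq k key) (ih L')) L) W


/-- static check of a `WT` -/
noncomputable def WT.good (w : WT) : Bool :=
  andB (Nat.ble w.n 33) (andB (antiChk w.key) (andB (Nat.ble (dg0 w.key) 42)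
    (andB (wOk w.key w.n w.ent 68719476736) (andB (Nat.ble (wLen w.ent) 1024)
      (eqK w.ent (enumE w.key 5))))))

lemma mem_below {κ' lam' : Sh} {m : ℕ} (h : HS κ' lam' m) : κ' ∈ below lam' := by
  unfold below
  rw [Fintype.mem_piFinset]
  intro i
  rw [Finset.mem_range]
  have := h.1 i
  omega

lemma wShapes_HS {lk : ℕ} {W : WE} {P : ℕ → ℕ → ℕ → ℕ → Prop}
    (hA : W.All (fun k cs K x => HS (shp k) (shp lk) 5 ∧ P k cs K x)) {κ' : Sh}
    (h : κ' ∈ wShapes W) : HS κ' (shp lk) 5 := by
  induction W with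
  | nil => simp [wShapes] at h
  | cons k cs K x t ih =>
    unfold wShapes at h
    rcases Finset.mem_insert.1 h with h1 | h1
    · rw [h1]; exact hA.1.1
    · exact ih hA.2 h1

structure WT.Good (mm : Sh → ℕ) (w : WT) : Prop where
  hn : w.n ≤ 33
  hb : ∀ i, shp w.key i ≤ 42
  hs : wSorted 68719476736 w.ent
  hA : w.ent.All (fun k cs K x => HS (shp k) (shp w.key) 5 ∧ cs = csN k w.key ∧ K ≤ 33 ∧
      ∀ j, slot 24 x j < 2 ^ 7)
  hl : wLen w.ent ≤ 1024
  hsh : ∀ κ', HS κ' (shp w.key) 5 → mm κ' ≠ 0 → κ' ∈ wShapes w.ent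


lemma WT.Good.sum {mm : Sh → ℕ} {w : WT} (hw : w.Good mm) (f : Sh → ZMod 127)
    (hf : ∀ κ', mm κ' = 0 → f κ' = 0) :
    (∑ κ' ∈ below (shp w.key), if HS κ' (shp w.key) 5 then f κ' else 0)
      = ∑ κ' ∈ wShapes w.ent, f κ' := by
  rw [← Finset.sum_filter]
  symm
  apply Finset.sum_subset
  · intro κ' h
    rw [Finset.mem_filter]
    have := wShapes_HS hw.hA h
    exact ⟨mem_below this, this⟩
  · intro κ' h1 h2
    rw [Finset.mem_filter] at h1
    by_contra h3
    exact h2 (hw.hsh κ' h1.2 (fun h4 => h3 (hf κ' h4)))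

structure VT.Good (t : VT) : Prop where
  hs : vSorted 68719476736 t.ent
  hsm : vSmall t.ent


/-! ### the block theorem -/

/-- all `K` of the table are the dimensions `mm` -/
def WT.KOk (mm : Sh → ℕ) (w : WT) : Prop := w.ent.All (fun k _ K _ => K = mm (shp k))

theorem block_sound {kk kl : ℕ} {Q : List (ℕ × ℕ)} (hq : quadChk kk kl 6 Q = true)
    {V : VT} (hV : V.Good) {mm : Sh → ℕ} {w : WT} (hw : w.Good mm) (hK : w.KOk mm)
    (t : ℕ) {r c : ℕ} (hr : r < t) (hc : c < w.n) :
    en (blkN (buildQ Q) t w.n V.ent w.ent) r c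
      = ∑ κ' ∈ below (shp w.key), if HS κ' (shp w.key) 5 then
          Fc (ZMod 127) (shp kk) κ' (shp kl) (shp w.key) *
            ∑ l ∈ Finset.range (mm κ'), en (vget V.ent κ') r l * en (wget w.ent κ') l c
        else 0 := by
  rw [hw.sum _ (fun κ' h0 => by rw [h0, Finset.sum_range_zero, mul_zero]), blkN_eq]
  have h1 : en (lin 24 7 33 t w.n (joinL (buildQ Q) t w.n w.ent V.ent)) r c
      = mat 127 24 33 t w.n (lin 24 7 33 t w.n (joinL (buildQ Q) t w.n w.ent V.ent))
        ⟨r, hr⟩ ⟨c, hc⟩ := rfl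
  rw [h1, mat_lin par127 (by norm_num) hw.hn _ (joinL_good _ hw.hn _ _) (by
    have h2 := (joinL_length (buildQ Q) t w.n w.ent V.ent).trans hw.hl
    calc _ ≤ 1024 * 2 ^ (2 * 7) := Nat.mul_le_mul_right _ h2
      _ = 2 ^ 24 := by norm_num),
    joinL_sum _ hw.hn (le_refl _) hw.hs (hw.hA.imp (fun _ _ _ _ h => h.2.2)) hV.hs hV.hsm]
  have hA2 := wAll_get (le_refl _) hw.hs (hw.hA.and hK)
  have h2 : ∀ (W : WE), (wsum (fun k cs K x => term (buildQ Q) t w.n cs (vget V.ent (shp k)) x K) W)
      ⟨r, hr⟩ ⟨c, hc⟩ = wsum (fun k cs K x => term (buildQ Q) t w.n cs (vget V.ent (shp k)) x K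
        ⟨r, hr⟩ ⟨c, hc⟩) W := by
    intro W
    induction W with
    | nil => rfl
    | cons k cs K x W ih =>
      unfold wsum
      rw [Matrix.add_apply, ih]
  rw [h2]
  refine wsum_eq (le_refl _) hw.hs (hA2.imp ?_)
  rintro k cs K x ⟨⟨⟨hh, hcs, hK33, hx⟩, hKm⟩, hg⟩
  subst hcs
  unfold term
  rw [Matrix.smul_apply, Matrix.mul_apply, smul_eq_mul,
    fq5_sound hq k w.key hw.hb hh, hg, ← hKm]
  congr 1
  rw [← Fin.sum_univ_eq_sum_range (fun l => en (vget V.ent (shp k)) r l * en x l c)]
  rfl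

/-- **the block theorem**: value of the inserted vector at `λ' :: m'` when the values of the
one-row-less insertions at `m'` are the combinations `g` of the table entries
(E5: `J = {c}`, `g = 1`, `m'` = the `c`-th pattern; E3: `J = range n`, `g j = v' λ' j m'`) -/
theorem mop_block {kk kl b : ℕ} {Q : List (ℕ × ℕ)} (hq : quadChk kk kl 6 Q = true)
    {V : VT} (hV : V.Good) {mm : Sh → ℕ} {w : WT} (hw : w.Good mm) (hK : w.KOk mm)
    (t : ℕ) {r : ℕ} (hr : r < t) (v : Sh → ℕ → List Sh → ZMod 127) (x : List Sh → ZMod 127)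
    (hx : ∀ κ' m, x (κ' :: m) = ∑ l ∈ Finset.range (mm κ'), en (vget V.ent κ') r l * v κ' l m)
    (J : Finset ℕ) (hJ : ∀ j ∈ J, j < w.n) (g : ℕ → ZMod 127) (m' : List Sh)
    (hW : ∀ κ', HS κ' (shp w.key) 5 → ∀ l < mm κ',
      Mop (ZMod 127) b 5 κ' (shp w.key) (v κ' l) m' = ∑ j ∈ J, en (wget w.ent κ') l j * g j) :
    Mop (ZMod 127) b 6 (shp kk) (shp kl) x (shp w.key :: m')
      = if HS (shp w.key) (shp kl) b then
          ∑ j ∈ J, en (blkN (buildQ Q) t w.n V.ent w.ent) r j * g j
        else 0 := by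
  rw [Mop_cons]
  split_ifs with hb
  · have h1 : ∀ j ∈ J, en (blkN (buildQ Q) t w.n V.ent w.ent) r j * g j
        = ∑ κ' ∈ below (shp w.key), if HS κ' (shp w.key) 5 then
          Fc (ZMod 127) (shp kk) κ' (shp kl) (shp w.key) *
            ∑ l ∈ Finset.range (mm κ'), en (vget V.ent κ') r l * (en (wget w.ent κ') l j * g j)
        else 0 := by
      intro j hj
      rw [block_sound hq hV hw hK t hr (hJ j hj), Finset.sum_mul]
      refine Finset.sum_congr rfl fun κ' _ => ?_
      split_ifs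
      · rw [mul_assoc, Finset.sum_mul]
        congr 1
        refine Finset.sum_congr rfl fun l _ => ?_
        rw [mul_assoc]
      · rw [zero_mul]
    rw [Finset.sum_congr rfl h1, Finset.sum_comm]
    refine Finset.sum_congr rfl fun κ' _ => ?_
    split_ifs with h5
    · rw [← Finset.mul_sum]
      congr 1
      have h2 : (fun m => x (κ' :: m)) = fun m => ∑ l ∈ Finset.range (mm κ'),
          en (vget V.ent κ') r l * v κ' l m := by
        funext m
        exact hx κ' m
      rw [h2, Mop_sum, Finset.sum_comm]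
      refine Finset.sum_congr rfl fun l hl => ?_
      rw [hW κ' h5 l (Finset.mem_range.1 hl), Finset.mul_sum]
    · simp
  · rfl

/-! ### the two predicates of the interface -/

/-- `t` is a table of vectors of `D 6 b` -/
def HasV (v : Sh → ℕ → List Sh → ZMod 127) (mm : Sh → ℕ) (b : ℕ) (t : VT) : Prop :=
  ∃ x : ℕ → List Sh → ZMod 127, ∀ r < t.n, x r ∈ Spec.D (ZMod 127) 6 b (shp t.key) ∧
    ∀ κ' m, x r (κ' :: m) = ∑ l ∈ Finset.range (mm κ'), en (vget t.ent κ') r l * v κ' l m

/-- `w` is a table of values of the one-row-less insertions (level `b`) at patterns -/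
def HasW (v : Sh → ℕ → List Sh → ZMod 127) (mm : Sh → ℕ) (b : ℕ)
    (pat : Sh → ℕ → List Sh) (w : WT) : Prop :=
  w.ent.All (fun k _ K x => K = mm (shp k) ∧ ∀ l < K, ∀ c < w.n,
    Mop (ZMod 127) b 5 (shp k) (shp w.key) (v (shp k) l) (pat (shp w.key) c) = en x l c)

/-- `w` is a table of the matrices of the one-row-less insertions (level `b`) in the frames `v'` -/
def HasM (v : Sh → ℕ → List Sh → ZMod 127) (mm : Sh → ℕ) (b : ℕ)
    (v' : Sh → ℕ → List Sh → ZMod 127) (w : WT) : Prop :=
  w.ent.All (fun k _ K x => K = mm (shp k) ∧ ∀ l < K, ∀ m,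
    Mop (ZMod 127) b 5 (shp k) (shp w.key) (v (shp k) l) m
      = ∑ j ∈ Finset.range w.n, en x l j * v' (shp w.key) j m)

lemma wAll_mem {P : ℕ → ℕ → ℕ → ℕ → Prop} {W : WE} (hA : W.All P) {κ' : Sh}
    (h : κ' ∈ wShapes W) : ∃ k cs K x, P k cs K x ∧ shp k = κ' := by
  induction W with
  | nil => simp [wShapes] at h
  | cons k cs K x t ih =>
    unfold wShapes at h
    rcases Finset.mem_insert.1 h with h1 | h1
    · exact ⟨k, cs, K, x, hA.1, h1.symm⟩
    · exact ih hA.2 h1

lemma HasW.kok {v : Sh → ℕ → List Sh → ZMod 127} {mm : Sh → ℕ} {b : ℕ}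
    {pat : Sh → ℕ → List Sh} {w : WT} (h : HasW v mm b pat w) : w.KOk mm :=
  WE.All.imp (fun _ _ _ _ h => h.1) h

lemma HasM.kok {v : Sh → ℕ → List Sh → ZMod 127} {mm : Sh → ℕ} {b : ℕ}
    {v' : Sh → ℕ → List Sh → ZMod 127} {w : WT} (h : HasM v mm b v' w) : w.KOk mm :=
  WE.All.imp (fun _ _ _ _ h => h.1) h

lemma HasW.get {v : Sh → ℕ → List Sh → ZMod 127} {mm : Sh → ℕ} {b : ℕ}
    {pat : Sh → ℕ → List Sh} {w : WT} (hw : w.Good mm) (h : HasW v mm b pat w) {κ' : Sh}
    (hκ' : HS κ' (shp w.key) 5) {l c : ℕ} (hl : l < mm κ') (hc : c < w.n) :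
    Mop (ZMod 127) b 5 κ' (shp w.key) (v κ' l) (pat (shp w.key) c)
      = en (wget w.ent κ') l c := by
  have h1 : κ' ∈ wShapes w.ent := hw.hsh κ' hκ' (by omega)
  obtain ⟨k, cs, K, x, ⟨⟨h2, h3⟩, h4⟩, rfl⟩ := wAll_mem (wAll_get (le_refl _) hw.hs h) h1
  rw [h3 l (h2 ▸ hl) c hc, h4]

lemma HasM.get {v : Sh → ℕ → List Sh → ZMod 127} {mm : Sh → ℕ} {b : ℕ}
    {v' : Sh → ℕ → List Sh → ZMod 127} {w : WT} (hw : w.Good mm) (h : HasM v mm b v' w) {κ' : Sh}
    (hκ' : HS κ' (shp w.key) 5) {l : ℕ} (hl : l < mm κ') (m : List Sh) :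
    Mop (ZMod 127) b 5 κ' (shp w.key) (v κ' l) m
      = ∑ j ∈ Finset.range w.n, en (wget w.ent κ') l j * v' (shp w.key) j m := by
  have h1 : κ' ∈ wShapes w.ent := hw.hsh κ' hκ' (by omega)
  obtain ⟨k, cs, K, x, ⟨⟨h2, h3⟩, h4⟩, rfl⟩ := wAll_mem (wAll_get (le_refl _) hw.hs h) h1
  rw [h3 l (h2 ▸ hl) m, h4]

/-- **value at a pattern** (for the top level) -/
theorem mop_value {kk kl b : ℕ} {Q : List (ℕ × ℕ)} (hq : quadChk kk kl 6 Q = true)
    {V : VT} (hV : V.Good) {mm : Sh → ℕ} {w : WT} (hw : w.Good mm)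
    {v : Sh → ℕ → List Sh → ZMod 127} {pat : Sh → ℕ → List Sh} (hW : HasW v mm b pat w)
    (t : ℕ) {r c : ℕ} (hr : r < t) (hc : c < w.n) (x : List Sh → ZMod 127)
    (hx : ∀ κ' m, x (κ' :: m) = ∑ l ∈ Finset.range (mm κ'), en (vget V.ent κ') r l * v κ' l m)
    (hb : HS (shp w.key) (shp kl) b) :
    Mop (ZMod 127) b 6 (shp kk) (shp kl) x (shp w.key :: pat (shp w.key) c)
      = en (blkN (buildQ Q) t w.n V.ent w.ent) r c := by
  rw [mop_block hq hV hw hW.kok t hr v x hx {c} (by simpa using hc) (fun _ => 1)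
    (pat (shp w.key) c) (fun κ' h5 l hl => by
      rw [Finset.sum_singleton, mul_one]
      exact hW.get hw h5 hl hc), if_pos hb, Finset.sum_singleton, mul_one]


end Crest.Agent.R187.SN.Top
private theorem rz_73376fbc62 : type_of% @_root_.Crest.Agent.R187.SN.Top.wShapes.eq_def := @_root_.Crest.Agent.R187.SN.Top.wShapes.eq_def -- L369
private theorem rz_ceb2c93215 : type_of% @_root_.Crest.Agent.R187.SN.Top.wShapes.eq_1 := @_root_.Crest.Agent.R187.SN.Top.wShapes.eq_1 -- L369
private theorem rz_8719764239 : type_of% @_root_.Crest.Agent.R187.SN.Top.wsum.eq_def := @_root_.Crest.Agent.R187.SN.Top.wsum.eq_def -- L231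
private theorem rz_14ceeefcd1 : type_of% @_root_.Crest.Agent.R187.SN.Top.wsum.eq_1 := @_root_.Crest.Agent.R187.SN.Top.wsum.eq_1 -- L231
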