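import Mathlib
import Crest.Agent.R187.SN.SemiRel

/-!
# Row 187, PLAN S, block (B): strips

`cyc κ i m = T κ i ∘ T κ (i+1) ∘ ... ∘ T κ (i+m-1)` moves the letter at position `i+m` to
position `i`.
-/

set_option autoImplicit false

namespace Crest.Agent.R187.SN.Strip

open Crest.Agent.R187.SN Finset

variable {r : ℕ} {K : Type*} [Field K]

/-! ### products of `T`s -/

/-- moves the letter at position `i + m` to position `i` -/
def cyc (κ : Fin r → ℕ) (i : ℕ) : ℕ → ((List (Fin r) → K) →ₗ[K] (List (Fin r) → K))
  | 0 => LinearMap.id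
  | m + 1 => T κ i ∘ₗ cyc κ (i + 1) m

/-- moves the `q` letters at positions `i + m, ..., i + m + q - 1` in front of the `m` letters at
positions `i, ..., i + m - 1` -/
def bs (κ : Fin r → ℕ) (i m : ℕ) : ℕ → ((List (Fin r) → K) →ₗ[K] (List (Fin r) → K))
  | 0 => LinearMap.id
  | q + 1 => bs κ (i + 1) m q ∘ₗ cyc κ i m

lemma cyc_cons (κ : Fin r → ℕ) (i m : ℕ) (f : List (Fin r) → K) (a : Fin r) (t : List (Fin r)) :
    cyc κ (i + 1) m f (a :: t) = cyc (add κ a) i m (fun u => f (a :: u)) t := by
  induction m generalizing i t with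
  | zero => rfl
  | succ m ih =>
    simp only [cyc, LinearMap.comp_apply]
    rw [T_succ]
    have e : (fun u => cyc κ (i + 1 + 1) m f (a :: u)) =
        cyc (add κ a) (i + 1) m (fun u => f (a :: u)) := by
      funext u
      exact ih (i + 1) u
    rw [e]

lemma bs_cons (κ : Fin r → ℕ) (i m q : ℕ) (f : List (Fin r) → K) (a : Fin r)
    (t : List (Fin r)) :
    bs κ (i + 1) m q f (a :: t) = bs (add κ a) i m q (fun u => f (a :: u)) t := by
  induction q generalizing i f t with
  | zero => rfl
  | succ q ih =>
    simp only [bs, LinearMap.comp_apply]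
    rw [ih]
    have e : (fun u => cyc κ (i + 1) m f (a :: u)) =
        cyc (add κ a) i m (fun u => f (a :: u)) := by
      funext u
      exact cyc_cons κ i m f a u
    rw [e]

lemma cyc_nil (κ : Fin r → ℕ) (i m : ℕ) (f : List (Fin r) → K) : cyc κ i m f [] = f [] := by
  induction m generalizing i with
  | zero => rfl
  | succ m ih =>
    simp only [cyc, LinearMap.comp_apply]
    rw [T_nil, ih]


lemma cyc_mem {κ : Fin r → ℕ} {n : ℕ} {f : List (Fin r) → K} (i m : ℕ) (hf : f ∈ V K κ n) :
    cyc κ i m f ∈ V K κ n := by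
  induction m generalizing i with
  | zero => exact hf
  | succ m ih =>
    simp only [cyc, LinearMap.comp_apply]
    exact T_mem i (ih (i + 1))

lemma bs_mem {κ : Fin r → ℕ} {n : ℕ} {f : List (Fin r) → K} (i m q : ℕ) (hf : f ∈ V K κ n) :
    bs κ i m q f ∈ V K κ n := by
  induction q generalizing i f with
  | zero => exact hf
  | succ q ih =>
    simp only [bs, LinearMap.comp_apply]
    exact ih (i + 1) (cyc_mem i m hf)

/-! ### coefficients -/

/-- the content as an element of `K` -/
def cK (K : Type*) [Field K] (lam : Fin r → ℕ) (i : Fin r) : K := ((ct lam i : ℤ) : K)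

/-- denominator -/
def Nn (K : Type*) [Field K] (lam : Fin r → ℕ) (i : Fin r) : K :=
  ∏ l ∈ univ.erase i, (cK K lam i - cK K lam l)

/-- the coefficient of "box past strip" -/
def Bc (K : Type*) [Field K] (lam κ : Fin r → ℕ) (i j : Fin r) : K :=
  (∏ l ∈ univ.erase j, (cK K lam i - cK K κ l)) / Nn K lam i

/-- the coefficient of the symmetrizer -/
def gc (K : Type*) [Field K] (lam κ : Fin r → ℕ) (i : Fin r) : K :=
  (∏ l, (cK K lam i - cK K κ l)) / Nn K lam i

lemma cK_add_same (κ : Fin r → ℕ) (a : Fin r) : cK K (add κ a) a = cK K κ a + 1 := by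
  unfold cK
  rw [ct_add_same]
  push_cast
  ring

lemma cK_add_ne (κ : Fin r → ℕ) {a b : Fin r} (h : b ≠ a) : cK K (add κ a) b = cK K κ b := by
  unfold cK
  rw [ct_add_ne _ h]

lemma Bc_add_same (lam κ : Fin r → ℕ) (i x : Fin r) : Bc K lam (add κ x) i x = Bc K lam κ i x := by
  unfold Bc
  congr 1
  apply prod_congr rfl
  intro l hl
  rw [cK_add_ne _ (ne_of_mem_erase hl)]

/-- the product without `x` and `y` -/
def Pxy (K : Type*) [Field K] (A : K) (κ : Fin r → ℕ) (x y : Fin r) : K :=
  ∏ l ∈ (univ.erase x).erase y, (A - cK K κ l)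

lemma Pxy_comm (A : K) (κ : Fin r → ℕ) (x y : Fin r) : Pxy K A κ x y = Pxy K A κ y x := by
  unfold Pxy
  rw [erase_right_comm]

lemma prod_erase_eq (A : K) (κ : Fin r → ℕ) {x y : Fin r} (h : x ≠ y) :
    ∏ l ∈ univ.erase x, (A - cK K κ l) = (A - cK K κ y) * Pxy K A κ x y := by
  unfold Pxy
  rw [← mul_prod_erase (univ.erase x) (fun l => A - cK K κ l) (a := y) (by simp [h.symm])]

lemma prod_univ_eq (A : K) (κ : Fin r → ℕ) (x : Fin r) :
    ∏ l, (A - cK K κ l) = (A - cK K κ x) * ∏ l ∈ univ.erase x, (A - cK K κ l) := by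
  rw [← mul_prod_erase univ (fun l => A - cK K κ l) (a := x) (by simp)]

lemma Pxy_add (A : K) (κ : Fin r → ℕ) (x y : Fin r) :
    Pxy K A (add κ x) x y = Pxy K A κ x y := by
  unfold Pxy
  apply prod_congr rfl
  intro l hl
  have : l ≠ x := by
    intro h
    subst h
    simp at hl
  rw [cK_add_ne _ this]

lemma Bc_eq (lam κ : Fin r → ℕ) (i : Fin r) {x y : Fin r} (h : x ≠ y) :
    Bc K lam κ i x = (cK K lam i - cK K κ y) * Pxy K (cK K lam i) κ x y / Nn K lam i := by
  unfold Bc
  rw [prod_erase_eq _ _ h]

lemma Bc_add_ne (lam κ : Fin r → ℕ) (i : Fin r) {x y : Fin r} (h : x ≠ y) :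
    Bc K lam (add κ x) i y =
      (cK K lam i - cK K κ x - 1) * Pxy K (cK K lam i) κ x y / Nn K lam i := by
  rw [Bc_eq lam (add κ x) i h.symm, cK_add_same, Pxy_comm, Pxy_add]
  ring

/-- telescoping: `g (κ) = B (κ) + g (κ + x)` -/
lemma gc_telescope (lam κ : Fin r → ℕ) (i x : Fin r) :
    gc K lam κ i = Bc K lam κ i x + gc K lam (add κ x) i := by
  unfold gc Bc
  rw [prod_univ_eq _ κ x, prod_univ_eq _ (add κ x) x, cK_add_same]
  have e : ∏ l ∈ univ.erase x, (cK K lam i - cK K (add κ x) l) =
      ∏ l ∈ univ.erase x, (cK K lam i - cK K κ l) := by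
    apply prod_congr rfl
    intro l hl
    rw [cK_add_ne _ (ne_of_mem_erase hl)]
  rw [e]
  ring

/-- the exchange identity behind "box past strip" -/
lemma Bc_exchange (lam κ : Fin r → ℕ) (i : Fin r) {x y : Fin r} (h : x ≠ y)
    (hd : cK K κ y - cK K κ x ≠ 0) :
    (cK K κ y - cK K κ x)⁻¹ * Bc K lam (add κ x) i y +
      (1 - (cK K κ y - cK K κ x)⁻¹) * Bc K lam (add κ y) i x = Bc K lam κ i x := by
  rw [Bc_add_ne lam κ i h, Bc_add_ne lam κ i h.symm, Bc_eq lam κ i h,
    Pxy_comm (cK K lam i) κ y x]
  field_simp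
  ring

/-! ### the strip vectors -/

open Classical in
/-- all lattice words from `κ` to `lam` with last letter `i` -/
noncomputable def lastF (K : Type*) [Field K] (κ : Fin r → ℕ) (n : ℕ) (lam : Fin r → ℕ)
    (i : Fin r) : List (Fin r) → K :=
  fun w => if Lat κ w ∧ w.length = n ∧ sh κ w = lam ∧ w.getLast? = some i then 1 else 0

open Classical in
/-- all lattice words of length `n` from `κ` to `lam` -/
noncomputable def ind (K : Type*) [Field K] (κ : Fin r → ℕ) (n : ℕ) (lam : Fin r → ℕ) :
    List (Fin r) → K :=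
  fun w => if Lat κ w ∧ w.length = n ∧ sh κ w = lam then 1 else 0

open Classical in
/-- all lattice words of length `m + q` from `κ` via `b` (after `m` letters) to `c` -/
noncomputable def ind2 (K : Type*) [Field K] (κ : Fin r → ℕ) (m : ℕ) (b : Fin r → ℕ) (q : ℕ)
    (c : Fin r → ℕ) : List (Fin r) → K :=
  fun w => if Lat κ w ∧ w.length = m + q ∧ sh κ (w.take m) = b ∧ sh κ w = c then 1 else 0

lemma lastF_mem (κ : Fin r → ℕ) (n : ℕ) (lam : Fin r → ℕ) (i : Fin r) :
    lastF K κ n lam i ∈ V K κ n := by
  intro w hw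
  unfold lastF
  rw [if_neg]
  rintro ⟨h1, h2, -⟩
  exact hw ⟨h1, h2⟩

lemma ind_mem (κ : Fin r → ℕ) (n : ℕ) (lam : Fin r → ℕ) : ind K κ n lam ∈ V K κ n := by
  intro w hw
  unfold ind
  rw [if_neg]
  rintro ⟨h1, h2, -⟩
  exact hw ⟨h1, h2⟩

lemma ind2_mem (κ : Fin r → ℕ) (m : ℕ) (b : Fin r → ℕ) (q : ℕ) (c : Fin r → ℕ) :
    ind2 K κ m b q c ∈ V K κ (m + q) := by
  intro w hw
  unfold ind2
  rw [if_neg]
  rintro ⟨h1, h2, -⟩
  exact hw ⟨h1, h2⟩

lemma lastF_cons {κ : Fin r → ℕ} (hκ : Antitone κ) (n : ℕ) (lam : Fin r → ℕ) (i x : Fin r) :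
    (fun u => lastF K κ (n + 2) lam i (x :: u)) = lastF K (add κ x) (n + 1) lam i := by
  funext u
  unfold lastF
  congr 1
  rcases u with _ | ⟨y, t⟩
  · simp
  · have e : (x :: y :: t).getLast? = (y :: t).getLast? := by
      rw [List.getLast?_cons_cons]
    rw [e]
    simp only [lat_cons, List.length_cons, sh, eq_iff_iff]
    constructor
    · rintro ⟨⟨-, h1⟩, h2, h3, h4⟩
      exact ⟨h1, by omega, h3, h4⟩
    · rintro ⟨h1, h2, h3, h4⟩
      exact ⟨⟨hκ, h1⟩, by omega, h3, h4⟩

/-! ### horizontal strips -/

/-- `lam / κ` is a horizontal strip (upper bounds only) -/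
def Hor (κ lam : Fin r → ℕ) : Prop := ∀ l l' : Fin r, (l : ℕ) + 1 = l' → lam l' ≤ κ l

/-- `(lam - e_i) / κ` is a horizontal strip (upper bounds only) -/
def HorI (i : Fin r) (κ lam : Fin r → ℕ) : Prop :=
  ∀ l l' : Fin r, (l : ℕ) + 1 = l' → lam l' ≤ κ l + (if l' = i then 1 else 0)

lemma add_mono_le (κ : Fin r → ℕ) (a l : Fin r) : κ l ≤ add κ a l := by
  by_cases h : l = a
  · subst h
    rw [add_same]
    omega
  · rw [add_ne _ h]

lemma Hor.add {κ lam : Fin r → ℕ} (h : Hor κ lam) (a : Fin r) : Hor (add κ a) lam :=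
  fun l l' hl => (h l l' hl).trans (add_mono_le κ a l)

lemma HorI.add {i : Fin r} {κ lam : Fin r → ℕ} (h : HorI i κ lam) (a : Fin r) :
    HorI i (add κ a) lam := fun l l' hl => (h l l' hl).trans (by
  have := add_mono_le κ a l
  omega)

lemma Hor.horI {κ b : Fin r → ℕ} (h : Hor κ b) (k : Fin r) : HorI k κ (SN.add b k) := by
  intro l l' hl
  have := h l l' hl
  by_cases hk : l' = k
  · subst hk
    rw [add_same, if_pos rfl]
    omega
  · rw [add_ne _ hk, if_neg hk]
    omega

lemma sh_ge (κ : Fin r → ℕ) (w : List (Fin r)) (l : Fin r) : κ l ≤ sh κ w l := by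
  induction w generalizing κ with
  | nil => exact le_rfl
  | cons a t ih => exact (add_mono_le κ a l).trans (ih (add κ a))

lemma sh_le (κ : Fin r → ℕ) (w : List (Fin r)) (l : Fin r) : sh κ w l ≤ κ l + w.length := by
  induction w generalizing κ with
  | nil => exact le_rfl
  | cons a t ih =>
    refine (ih (add κ a)).trans ?_
    rw [List.length_cons]
    by_cases h : l = a
    · subst h
      rw [add_same]
      omega
    · rw [add_ne _ h]
      omega

/-- two letters in the same vertical domino -/
lemma vert {κ : Fin r → ℕ} (hκ : Antitone κ) {x y : Fin r} (h : x ≠ y)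
    (hd : ct κ x - ct κ y = 1) : (x : ℕ) + 1 = y ∧ κ x = κ y := by
  unfold ct at hd
  rcases lt_or_gt_of_ne h with h1 | h1
  · have h2 : κ y ≤ κ x := hκ h1.le
    have h3 : (x : ℕ) < y := h1
    omega
  · have h2 : κ x ≤ κ y := hκ h1.le
    have h3 : (y : ℕ) < x := h1
    omega

lemma cK_sub_ne {B : ℕ} (hK : HK K B) {κ : Fin r → ℕ} {n : ℕ} (hB : Bd B κ n)
    (hκ : Antitone κ) {x y : Fin r} (h : x ≠ y) : cK K κ y - cK K κ x ≠ 0 := by
  have := hK.int (ct_ne hκ h) (by have := abs_ct_sub hB x y; omega)
  unfold cK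
  push_cast at this
  exact this

lemma Nn_ne {B : ℕ} (hK : HK K B) {lam : Fin r → ℕ} (hB : Bd B lam 0)
    (hl : Antitone lam) (i : Fin r) : Nn K lam i ≠ 0 := by
  unfold Nn
  rw [prod_ne_zero_iff]
  intro l hl'
  exact cK_sub_ne hK hB hl (ne_of_mem_erase hl')

lemma Bd.sh {B : ℕ} {κ : Fin r → ℕ} {w : List (Fin r)} (hB : Bd B κ w.length) :
    Bd B (SN.sh κ w) 0 := by
  intro a
  have h1 := hB a
  have h2 := sh_le κ w a
  omega

/-! ### (B1) box past strip -/

lemma cyc_last_base {B : ℕ} (hK : HK K B) {κ : Fin r → ℕ} (hB : Bd B κ 1) (i j : Fin r)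
    (hl : Antitone (add κ j)) : Bc K (add κ j) κ i j = if j = i then 1 else 0 := by
  by_cases h : j = i
  · subst h
    rw [if_pos rfl]
    unfold Bc
    have hN : Nn K (add κ j) j ≠ 0 := Nn_ne hK (by
      intro a
      have h1 := hB a
      have h2 := sh_le κ [j] a
      simp only [sh, List.length_singleton] at h2
      omega) hl j
    have e : ∏ l ∈ univ.erase j, (cK K (add κ j) j - cK K κ l) = Nn K (add κ j) j := by
      unfold Nn
      apply prod_congr rfl
      intro l hl'
      rw [cK_add_ne κ (ne_of_mem_erase hl')]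
    rw [e, div_self hN]
  · rw [if_neg h]
    unfold Bc
    have e : ∏ l ∈ univ.erase j, (cK K (add κ j) i - cK K κ l) = 0 := by
      apply prod_eq_zero (i := i)
      · simp [Ne.symm h]
      · rw [cK_add_ne κ (Ne.symm h), sub_self]
    rw [e, zero_div]

open Classical in
/-- **(B1)** the last letter of a horizontal strip + box is moved to the front -/
theorem cyc_last {B : ℕ} (hK : HK K B) (m : ℕ) {κ : Fin r → ℕ} (hB : Bd B κ (m + 1))
    {lam : Fin r → ℕ} {i : Fin r} (hH : HorI i κ lam) (j : Fin r) (t : List (Fin r)) :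
    cyc κ 0 m (lastF K κ (m + 1) lam i) (j :: t) =
      if Lat κ (j :: t) ∧ t.length = m ∧ sh κ (j :: t) = lam then Bc K lam κ i j else 0 := by
  induction m generalizing κ j t with
  | zero =>
    simp only [cyc, LinearMap.id_apply]
    unfold lastF
    rcases t with _ | ⟨y, t⟩
    · by_cases h1 : Lat κ [j] ∧ sh κ [j] = lam
      · rw [if_pos (⟨h1.1, rfl, h1.2⟩ : Lat κ [j] ∧ ([] : List (Fin r)).length = 0 ∧
          sh κ [j] = lam)]
        have h2 : add κ j = lam := h1.2
        rw [← h2, cyc_last_base hK (by simpa using hB) i j h1.1.2]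
        by_cases h3 : j = i
        · rw [if_pos h3, if_pos]
          exact ⟨h1.1, by simp, rfl, by simp [h3]⟩
        · rw [if_neg h3, if_neg]
          rintro ⟨-, -, -, h4⟩
          apply h3
          simpa using h4
      · rw [if_neg, if_neg]
        · rintro ⟨h2, -, h3⟩
          exact h1 ⟨h2, h3⟩
        · rintro ⟨h2, -, h3, -⟩
          exact h1 ⟨h2, h3⟩
    · rw [if_neg, if_neg]
      · rintro ⟨-, h, -⟩
        simp at h
      · rintro ⟨-, h, -⟩
        simp at h
  | succ m ih =>
    simp only [cyc, LinearMap.comp_apply]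
    by_cases hκ : Antitone κ
    swap
    · -- everything vanishes
      have h0 : T κ 0 (cyc κ (0 + 1) m (lastF K κ (m + 1 + 1) lam i)) ∈ V K κ (m + 1 + 1) :=
        T_mem 0 (cyc_mem _ _ (lastF_mem κ _ lam i))
      rw [h0 _ (fun h => hκ h.1.anti), if_neg]
      rintro ⟨h, -⟩
      exact hκ h.anti
    have hg : ∀ (x y : Fin r) (u : List (Fin r)),
        cyc κ (0 + 1) m (lastF K κ (m + 1 + 1) lam i) (x :: y :: u) =
        if Lat (add κ x) (y :: u) ∧ u.length = m ∧ sh (add κ x) (y :: u) = lam then
          Bc K lam (add κ x) i y else 0 := by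
      intro x y u
      rw [cyc_cons, lastF_cons hκ]
      exact ih (hB.add x) (hH.add x) y u
    rcases t with _ | ⟨y, t⟩
    · rw [T_zero_single, cyc_cons, lastF_cons hκ, cyc_nil, if_neg]
      · unfold lastF
        rw [if_neg]
        rintro ⟨-, h, -⟩
        simp at h
      · rintro ⟨-, h, -⟩
        simp at h
    · by_cases hjy : j = y
      · subst hjy
        rw [T_zero_eq, hg, Bc_add_same]
        congr 1
        simp only [lat_cons, List.length_cons, sh, eq_iff_iff]
        constructor
        · rintro ⟨h1, h2, h3⟩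
          exact ⟨⟨hκ, h1⟩, by omega, h3⟩
        · rintro ⟨⟨-, h1⟩, h2, h3⟩
          exact ⟨h1, by omega, h3⟩
      · rw [T_zero_ne κ _ hjy, hg, hg]
        by_cases hP : t.length = m ∧ sh κ (j :: y :: t) = lam
        swap
        · rw [if_neg, if_neg, if_neg, mul_zero, mul_zero, add_zero]
          · rintro ⟨-, h1, h2⟩
            exact hP ⟨by simpa using h1, h2⟩
          · rintro ⟨-, h1, h2⟩
            apply hP
            refine ⟨h1, ?_⟩
            rw [← h2]
            simp only [sh]
            rw [add_comm']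
          · rintro ⟨-, h1, h2⟩
            exact hP ⟨h1, h2⟩
        have hsh2 : sh (add κ y) (j :: t) = lam := by
          rw [← hP.2]
          simp only [sh]
          rw [add_comm']
        by_cases hL1 : Lat κ (j :: y :: t)
        · have hL1' : Lat (add κ j) (y :: t) := hL1.2
          rw [if_pos (⟨hL1', hP.1, hP.2⟩ : Lat (add κ j) (y :: t) ∧ t.length = m ∧
            sh (add κ j) (y :: t) = lam)]
          rw [if_pos (⟨hL1, by simpa using hP.1, hP.2⟩ : Lat κ (j :: y :: t) ∧
            (y :: t).length = m + 1 ∧ sh κ (j :: y :: t) = lam)]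
          have hd : cK K κ y - cK K κ j ≠ 0 := cK_sub_ne hK hB hκ hjy
          have ecast : (((ct κ y - ct κ j : ℤ) : K)) = cK K κ y - cK K κ j := by
            unfold cK
            push_cast
            rfl
          by_cases hL2 : Lat (add κ y) (j :: t)
          · rw [if_pos (⟨hL2, hP.1, hsh2⟩ : Lat (add κ y) (j :: t) ∧ t.length = m ∧
              sh (add κ y) (j :: t) = lam), ecast]
            exact Bc_exchange lam κ i hjy hd
          · rw [if_neg (fun h : Lat (add κ y) (j :: t) ∧ _ => hL2 h.1), mul_zero, add_zero]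
            -- vertical domino
            have hna : ¬ Antitone (add κ y) := by
              intro h
              apply hL2
              refine ⟨h, ?_⟩
              rw [add_comm']
              exact hL1'.2
            have h1 : ct κ j - ct κ y = 1 := ct_eq_one hκ (Ne.symm hjy) hL1'.2.anti hna
            obtain ⟨h2, h3⟩ := vert hκ hjy h1
            have h4 := hH j y h2
            have h5 : κ y + 1 ≤ lam y := by
              rw [← hP.2]
              simp only [sh]
              refine le_trans ?_ (sh_ge _ t y)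
              rw [add_same, add_ne κ (Ne.symm hjy)]
            have h6 : y = i := by
              by_contra hne
              rw [if_neg hne] at h4
              omega
            rw [if_pos h6] at h4
            have h7 : lam y = κ j + 1 := by omega
            have h8 : cK K lam i = cK K κ j := by
              unfold cK ct
              rw [← h6, h7, ← h2]
              push_cast
              ring
            have h9 : (ct κ y - ct κ j : ℤ) = -1 := by omega
            have h10 : cK K κ y = cK K κ j - 1 := by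
              have : ((ct κ y - ct κ j : ℤ) : K) = -1 := by
                rw [h9]
                push_cast
                rfl
              rw [ecast] at this
              linear_combination this
            rw [h9, Bc_add_ne lam κ i hjy, Bc_eq lam κ i hjy, h8, h10]
            push_cast
            ring
        · have hL1' : ¬ Lat (add κ j) (y :: t) := fun h => hL1 ⟨hκ, h⟩
          rw [if_neg (fun h : Lat (add κ j) (y :: t) ∧ _ => hL1' h.1),
            if_neg (fun h : Lat κ (j :: y :: t) ∧ _ => hL1 h.1), mul_zero, zero_add]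
          by_cases hL2 : Lat (add κ y) (j :: t)
          · have hna : ¬ Antitone (add κ j) := by
              intro h
              apply hL1
              refine ⟨hκ, h, ?_⟩
              rw [add_comm']
              exact hL2.2
            have h1 : ct κ y - ct κ j = 1 := ct_eq_one hκ hjy hL2.2.anti hna
            rw [h1]
            simp
          · rw [if_neg (fun h : Lat (add κ y) (j :: t) ∧ _ => hL2 h.1), mul_zero]

/-! ### (B2) the symmetrizer -/

/-- sum of the coset representatives of `S_{m+1} / S_m`: the letter at position `i + m` is moved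
to positions `i, ..., i + m` -/
noncomputable def sy (κ : Fin r → ℕ) (i m : ℕ) : (List (Fin r) → K) →ₗ[K] (List (Fin r) → K) :=
  ∑ k ∈ range (m + 1), cyc κ (i + k) (m - k)

lemma sy_apply (κ : Fin r → ℕ) (i m : ℕ) (f : List (Fin r) → K) (w : List (Fin r)) :
    sy κ i m f w = ∑ k ∈ range (m + 1), cyc κ (i + k) (m - k) f w := by
  unfold sy
  rw [LinearMap.sum_apply, Finset.sum_apply]

lemma sy_mem {κ : Fin r → ℕ} {n : ℕ} {f : List (Fin r) → K} (i m : ℕ) (hf : f ∈ V K κ n) :
    sy κ i m f ∈ V K κ n := by
  intro w hw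
  rw [sy_apply]
  apply sum_eq_zero
  intro k _
  exact cyc_mem _ _ hf w hw


lemma sy_zero_cons (κ : Fin r → ℕ) (m : ℕ) (f : List (Fin r) → K) (a : Fin r)
    (t : List (Fin r)) :
    sy κ 0 (m + 1) f (a :: t) =
      cyc κ 0 (m + 1) f (a :: t) + sy (add κ a) 0 m (fun u => f (a :: u)) t := by
  rw [sy_apply, sum_range_succ', add_comm, sy_apply]
  congr 1
  apply sum_congr rfl
  intro k _
  have e : 0 + (k + 1) = (0 + k) + 1 := by omega
  have e2 : m + 1 - (k + 1) = m - k := by omega
  rw [e, e2, cyc_cons]

lemma gc_self (lam : Fin r → ℕ) (i : Fin r) : gc K lam lam i = 0 := by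
  unfold gc
  rw [prod_eq_zero (i := i) (mem_univ i) (sub_self _), zero_div]

lemma ind_cons {κ : Fin r → ℕ} (hκ : Antitone κ) (n : ℕ) (lam : Fin r → ℕ) (x : Fin r)
    (u : List (Fin r)) : ind K κ (n + 1) lam (x :: u) = ind K (add κ x) n lam u := by
  unfold ind
  congr 1
  simp only [lat_cons, List.length_cons, sh, eq_iff_iff]
  constructor
  · rintro ⟨⟨-, h1⟩, h2, h3⟩
    exact ⟨h1, by omega, h3⟩
  · rintro ⟨h1, h2, h3⟩
    exact ⟨⟨hκ, h1⟩, by omega, h3⟩

/-- **(B2)** symmetrizing the last letter -/
theorem sy_last {B : ℕ} (hK : HK K B) (m : ℕ) {κ : Fin r → ℕ} (hB : Bd B κ (m + 1))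
    {lam : Fin r → ℕ} {i : Fin r} (hH : HorI i κ lam) (w : List (Fin r)) :
    sy κ 0 m (lastF K κ (m + 1) lam i) w = gc K lam κ i * ind K κ (m + 1) lam w := by
  classical
  induction m generalizing κ w with
  | zero =>
    have e0 : sy κ 0 0 (lastF K κ (0 + 1) lam i) w = cyc κ 0 0 (lastF K κ (0 + 1) lam i) w := by
      rw [sy_apply]
      simp
    rw [e0]
    rcases w with _ | ⟨x, t⟩
    · rw [cyc_nil]
      unfold lastF ind
      rw [if_neg, if_neg, mul_zero]
      · rintro ⟨-, h, -⟩
        simp at h
      · rintro ⟨-, h, -⟩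
        simp at h
    · rw [cyc_last hK 0 hB hH]
      unfold ind
      by_cases h : Lat κ (x :: t) ∧ t.length = 0 ∧ sh κ (x :: t) = lam
      · rw [if_pos h, if_pos ⟨h.1, by simp [h.2.1], h.2.2⟩, mul_one, gc_telescope lam κ i x]
        have ht : t = [] := List.length_eq_zero_iff.1 h.2.1
        have h2 : add κ x = lam := by
          have := h.2.2
          rw [ht] at this
          exact this
        rw [h2, gc_self, add_zero]
      · rw [if_neg h, if_neg, mul_zero]
        rintro ⟨h1, h2, h3⟩
        exact h ⟨h1, by simpa using h2, h3⟩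
  | succ m ih =>
    by_cases hκ : Antitone κ
    swap
    · have h0 : sy κ 0 (m + 1) (lastF K κ (m + 1 + 1) lam i) ∈ V K κ (m + 1 + 1) :=
        sy_mem _ _ (lastF_mem κ _ lam i)
      rw [h0 _ (fun h => hκ h.1.anti), ind_mem κ _ lam _ (fun h => hκ h.1.anti), mul_zero]
    rcases w with _ | ⟨x, t⟩
    · have h0 : sy κ 0 (m + 1) (lastF K κ (m + 1 + 1) lam i) ∈ V K κ (m + 1 + 1) :=
        sy_mem _ _ (lastF_mem κ _ lam i)
      rw [h0 _ (fun h => by simpa using h.2), ind_mem κ _ lam _ (fun h => by simpa using h.2),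
        mul_zero]
    · rw [sy_zero_cons, lastF_cons hκ, ih (hB.add x) (hH.add x), ind_cons hκ,
        cyc_last hK (m + 1) hB hH, gc_telescope lam κ i x, add_mul]
      congr 1
      unfold ind
      by_cases h : Lat κ (x :: t) ∧ t.length = m + 1 ∧ sh κ (x :: t) = lam
      · rw [if_pos h, if_pos ⟨h.1.2, h.2.1, h.2.2⟩, mul_one]
      · rw [if_neg h, if_neg, mul_zero]
        rintro ⟨h1, h2, h3⟩
        exact h ⟨⟨hκ, h1⟩, h2, h3⟩

/-! ### (B0) invariance of horizontal strips -/

/-- **(B0)** horizontal strip vectors are invariant -/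
theorem T_ind (κ : Fin r → ℕ) (n : ℕ) {lam : Fin r → ℕ} (hH : Hor κ lam) (i : ℕ) :
    T κ i (ind K κ n lam) = ind K κ n lam := by
  classical
  induction i generalizing κ n with
  | zero =>
    funext w
    rcases w with _ | ⟨a, _ | ⟨b, t⟩⟩
    · simp
    · simp
    · by_cases hab : a = b
      · subst hab
        rw [T_zero_eq]
      · rw [T_zero_ne κ _ hab]
        by_cases hκ : Antitone κ
        swap
        · rw [ind_mem κ n lam (a :: b :: t) (fun h => hκ h.1.anti),
            ind_mem κ n lam (b :: a :: t) (fun h => hκ h.1.anti)]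
          ring
        by_cases h1 : Lat κ (a :: b :: t)
        · by_cases h2 : Lat κ (b :: a :: t)
          · have e : ind K κ n lam (b :: a :: t) = ind K κ n lam (a :: b :: t) := by
              unfold ind
              congr 1
              simp only [eq_iff_iff]
              constructor
              · rintro ⟨-, h3, h4⟩
                refine ⟨h1, by simpa using h3, ?_⟩
                rw [← h4]
                simp only [sh]
                rw [add_comm']
              · rintro ⟨-, h3, h4⟩
                refine ⟨h2, by simpa using h3, ?_⟩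
                rw [← h4]
                simp only [sh]
                rw [add_comm']
            rw [e]
            ring
          · -- vertical domino: the value is zero
            have e1 : ind K κ n lam (a :: b :: t) = 0 := by
              unfold ind
              rw [if_neg]
              rintro ⟨-, -, h4⟩
              have hna : ¬ Antitone (add κ b) := by
                intro h
                apply h2
                refine ⟨hκ, h, ?_⟩
                rw [add_comm']
                exact h1.2.2
              have h3 : ct κ a - ct κ b = 1 := ct_eq_one hκ (Ne.symm hab) h1.2.2.anti hna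
              obtain ⟨h5, h6⟩ := vert hκ hab h3
              have h7 := hH a b h5
              have h8 : κ b + 1 ≤ lam b := by
                rw [← h4]
                simp only [sh]
                refine le_trans ?_ (sh_ge _ t b)
                rw [add_same, add_ne κ (Ne.symm hab)]
              omega
            rw [e1, ind_mem κ n lam (b :: a :: t) (fun h => h2 h.1)]
            ring
        · rw [ind_mem κ n lam (a :: b :: t) (fun h => h1 h.1)]
          by_cases h2 : Lat κ (b :: a :: t)
          · have hna : ¬ Antitone (add κ a) := by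
              intro h
              apply h1
              refine ⟨hκ, h, ?_⟩
              rw [add_comm']
              exact h2.2.2
            have h3 : ct κ b - ct κ a = 1 := ct_eq_one hκ hab h2.2.2.anti hna
            rw [h3]
            simp
          · rw [ind_mem κ n lam (b :: a :: t) (fun h => h2 h.1)]
            ring
  | succ i ih =>
    funext w
    rcases w with _ | ⟨a, t⟩
    · simp
    · rw [T_succ]
      by_cases hκ : Antitone κ
      swap
      · have e : (fun u => ind K κ n lam (a :: u)) = 0 := by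
          funext u
          exact ind_mem κ n lam _ (fun h => hκ h.1.anti)
        rw [e, map_zero, ind_mem κ n lam _ (fun h => hκ h.1.anti)]
        rfl
      rcases n with _ | n
      · have e : (fun u => ind K κ 0 lam (a :: u)) = 0 := by
          funext u
          exact ind_mem κ 0 lam _ (fun h => by simpa using h.2)
        rw [e, map_zero, ind_mem κ 0 lam _ (fun h => by simpa using h.2)]
        rfl
      · have e : (fun u => ind K κ (n + 1) lam (a :: u)) = ind K (add κ a) n lam := by
          funext u
          exact ind_cons hκ n lam a u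
        rw [e, ih (add κ a) n (hH.add a), ind_cons hκ]

end Crest.Agent.R187.SN.Strip
private theorem rz_eddac37cc3 : type_of% @_root_.Crest.Agent.R187.SN.Strip.bs.eq_def := @_root_.Crest.Agent.R187.SN.Strip.bs.eq_def -- L28
private theorem rz_c95621ebbd : type_of% @_root_.Crest.Agent.R187.SN.Strip.bs.eq_1 := @_root_.Crest.Agent.R187.SN.Strip.bs.eq_1 -- L28
private theorem rz_aa8d65d496 : type_of% @_root_.Crest.Agent.R187.SN.Strip.cyc.eq_def := @_root_.Crest.Agent.R187.SN.Strip.cyc.eq_def -- L22
private theorem rz_9f6d1d4eae : type_of% @_root_.Crest.Agent.R187.SN.Strip.cyc.eq_1 := @_root_.Crest.Agent.R187.SN.Strip.cyc.eq_1 -- L22
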