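import Crest.Agent.R187.SN.Spec
import Crest.Agent.R187.SN.SemiRel
import Crest.Agent.R187.SN.Strip

-- ▼ part R187/SN/Gauge
section

/-!
# Row 187, PLAN S, block C5: the gauge between the strip form of `F` and `Spec.Fc`
-/

set_option autoImplicit false

namespace Crest.Agent.R187.SN.Gauge

open Crest.Agent.R187.SN Finset

variable {r : ℕ}

/-- `κ' ≤ κ` interlace: `κ / κ'` is a horizontal strip -/
def IL (κ' κ : Fin r → ℕ) : Prop := (∀ i, κ' i ≤ κ i) ∧ ∀ i j : Fin r, i < j → κ j ≤ κ' i

instance (κ' κ : Fin r → ℕ) : Decidable (IL κ' κ) := by unfold IL; infer_instance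

lemma IL.anti {κ' κ : Fin r → ℕ} (h : IL κ' κ) : Antitone κ := by
  intro i j hij
  rcases eq_or_lt_of_le hij with rfl | hlt
  · exact le_rfl
  · exact (h.2 i j hlt).trans (h.1 i)

lemma IL.anti' {κ' κ : Fin r → ℕ} (h : IL κ' κ) : Antitone κ' := by
  intro i j hij
  rcases eq_or_lt_of_le hij with rfl | hlt
  · exact le_rfl
  · exact (h.1 j).trans (h.2 i j hlt)

variable (K : Type*) [Field K]

/-- a Gamma function on the integers -/
def gam : ℤ → K
  | Int.ofNat n => (n.factorial : K)
  | Int.negSucc n => (-1) ^ n * ((n.factorial : K))⁻¹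

lemma gam_succ (z : ℤ) (hz : z ≠ -1) (h : ((z + 1 : ℤ) : K) ≠ 0) :
    gam K (z + 1) = ((z + 1 : ℤ) : K) * gam K z := by
  rcases z with n | n
  · have e : Int.ofNat n + 1 = Int.ofNat (n + 1) := rfl
    rw [e, gam, gam, Nat.factorial_succ]
    push_cast
    simp
  · rcases n with _ | n
    · exact absurd rfl hz
    · have e : Int.negSucc (n + 1) + 1 = Int.negSucc n := rfl
      rw [e] at h ⊢
      rw [gam, gam, Nat.factorial_succ]
      have e2 : ((Int.negSucc n : ℤ) : K) = -((n : K) + 1) := by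
        rw [Int.cast_negSucc]; push_cast; ring
      rw [e2] at h ⊢
      have h3 : ((n : K) + 1) ≠ 0 := fun h4 => h (by rw [h4, neg_zero])
      push_cast
      rw [mul_inv, pow_succ]
      field_simp

variable {K}

lemma fac_ne {B : ℕ} (hK : HK K B) {n : ℕ} (hn : n ≤ B) : (n.factorial : K) ≠ 0 := by
  induction n with
  | zero => simp
  | succ n ih =>
    rw [Nat.factorial_succ]
    push_cast
    have h1 := hK (n + 1) (by omega) hn
    push_cast at h1
    exact mul_ne_zero h1 (ih (by omega))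

lemma gam_ne {B : ℕ} (hK : HK K B) {z : ℤ} (hz : |z| ≤ B) : gam K z ≠ 0 := by
  rcases z with n | n
  · rw [gam]
    apply fac_ne hK
    have : |Int.ofNat n| = (n : ℤ) := by simp
    omega
  · rw [gam]
    have h1 : n ≤ B := by
      have : |Int.negSucc n| = (n : ℤ) + 1 := by
        rw [abs_of_neg (Int.negSucc_lt_zero n)]
        omega
      omega
    exact mul_ne_zero (pow_ne_zero _ (by simp)) (inv_ne_zero (fac_ne hK h1))

/-- splitting a double product -/
lemma prod_split {M : Type*} [CommMonoid M] (f : Fin r → Fin r → M) (k j : Fin r) :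
    ∏ i, ∏ l, f i l = f k j * (∏ l ∈ univ.erase j, f k l) * (∏ i ∈ univ.erase k, f i j)
      * ∏ i ∈ univ.erase k, ∏ l ∈ univ.erase j, f i l := by
  have h1 : ∀ i, ∏ l, f i l = f i j * ∏ l ∈ univ.erase j, f i l :=
    fun i => (mul_prod_erase univ _ (mem_univ j)).symm
  simp only [h1]
  rw [← mul_prod_erase univ _ (mem_univ k), prod_mul_distrib]
  simp only [mul_assoc]

variable (K)

/-- the sign -/
def sg (κ : Fin r → ℕ) : K := ((-1) ^ (r - 1)) ^ (∑ i, κ i)

/-- the Vandermonde part -/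
noncomputable def vd (κ : Fin r → ℕ) : K :=
  ∏ i, ∏ l, if i < l then (((ct κ i - ct κ l : ℤ) : K))⁻¹ else 1

/-- the Gamma part -/
noncomputable def ps (κ κ' : Fin r → ℕ) : K := ∏ i, ∏ l, gam K (ct κ i - ct κ' l)

/-- the gauge factor of an edge `κ' → κ` (upper shape first) -/
noncomputable def G (κ κ' : Fin r → ℕ) : K := sg K κ * vd K κ * ps K κ κ'

/-- box past strip: upper start shape `κ`, lower start shape `κ'`; upper box `k`, lower box `j` -/
noncomputable def Bco (κ κ' : Fin r → ℕ) (k j : Fin r) : K :=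
  (∏ l ∈ univ.erase j, ((ct κ k + 1 - ct κ' l : ℤ) : K)) *
    ∏ l ∈ univ.erase k, (((ct κ k + 1 - ct κ l : ℤ) : K))⁻¹

/-- symmetrizer coefficient -/
noncomputable def gco (κ κ' : Fin r → ℕ) (k : Fin r) : K :=
  (∏ l, ((ct κ k + 1 - ct κ' l : ℤ) : K)) *
    ∏ l ∈ univ.erase k, (((ct κ k + 1 - ct κ l : ℤ) : K))⁻¹

/-- coefficients of `T_x`, `T_∞` -/
noncomputable def tco (κ : Fin r → ℕ) (k : Fin r) : Option ℤ → K
  | none => ∏ i ∈ univ.erase k, (((ct κ i - ct κ k : ℤ) : K))⁻¹
  | some x => ∏ i ∈ univ.erase k, ((ct κ i - x : ℤ) : K) * (((ct κ i - ct κ k : ℤ) : K))⁻¹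

lemma sg_add (κ : Fin r → ℕ) (k : Fin r) : sg K (add κ k) = (-1) ^ (r - 1) * sg K κ := by
  have h : ∑ i, add κ k i = ∑ i, κ i + 1 := by
    have h2 : ∑ i ∈ univ.erase k, add κ k i = ∑ i ∈ univ.erase k, κ i :=
      sum_congr rfl (fun i hi => add_ne κ (ne_of_mem_erase hi))
    rw [← add_sum_erase univ _ (mem_univ k), ← add_sum_erase univ (fun i => κ i) (mem_univ k),
      add_same, h2]
    omega
  rw [sg, sg, h, pow_succ, mul_comm]

lemma sg_ne (κ : Fin r → ℕ) : sg K κ ≠ 0 := pow_ne_zero _ (pow_ne_zero _ (by simp))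

variable {K}

/-- contents of a partition are decreasing -/
lemma ct_lt {κ : Fin r → ℕ} (h : Antitone κ) {i l : Fin r} (hil : i < l) : ct κ l < ct κ i := by
  unfold ct
  have h1 := h hil.le
  have h2 : (i : ℕ) < l := hil
  omega

lemma abs_ct {B : ℕ} {κ κ' : Fin r → ℕ} (hB : ∀ i, κ i + r ≤ B) (hB' : ∀ i, κ' i + r ≤ B)
    (i l : Fin r) : |ct κ i - ct κ' l| ≤ B := by
  unfold ct
  have h1 := hB i
  have h2 := hB' l
  have h3 := i.2
  have h4 := l.2
  rw [abs_le]
  constructor <;> omega

lemma abs_ct' {B : ℕ} {κ κ' : Fin r → ℕ} {i : Fin r} (hB : κ i + 1 + r ≤ B)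
    (hB' : ∀ i, κ' i + r ≤ B)
    (l : Fin r) : |ct κ i + 1 - ct κ' l| ≤ B := by
  unfold ct
  have h2 := hB' l
  have h3 := i.2
  have h4 := l.2
  rw [abs_le]
  constructor <;> omega

lemma vd_ne {B : ℕ} (hK : HK K B) {κ : Fin r → ℕ} (hκ : Antitone κ)
    (hB : ∀ i, κ i + r ≤ B) : vd K κ ≠ 0 := by
  unfold vd
  rw [prod_ne_zero_iff]
  intro i _
  rw [prod_ne_zero_iff]
  intro l _
  split_ifs with h
  · apply inv_ne_zero
    exact hK.int (by have := ct_lt hκ h; omega) (abs_ct hB hB i l)
  · exact one_ne_zero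

lemma ps_ne {B : ℕ} (hK : HK K B) {κ κ' : Fin r → ℕ}
    (hB : ∀ i, κ i + r ≤ B) (hB' : ∀ i, κ' i + r ≤ B) : ps K κ κ' ≠ 0 := by
  unfold ps
  rw [prod_ne_zero_iff]
  intro i _
  rw [prod_ne_zero_iff]
  intro l _
  exact gam_ne hK (abs_ct hB hB' i l)

lemma G_ne {B : ℕ} (hK : HK K B) {κ κ' : Fin r → ℕ} (hκ : Antitone κ)
    (hB : ∀ i, κ i + r ≤ B) (hB' : ∀ i, κ' i + r ≤ B) : G K κ κ' ≠ 0 :=
  mul_ne_zero (mul_ne_zero (sg_ne K κ) (vd_ne hK hκ hB)) (ps_ne hK hB hB')

/-- the Vandermonde step -/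
lemma vd_step {B : ℕ} (hK : HK K B) {κ : Fin r → ℕ} {k : Fin r} (hκ : Antitone κ)
    (hκk : Antitone (add κ k)) (hB : ∀ i, add κ k i + r ≤ B) :
    (-1) ^ (r - 1) * vd K (add κ k) = vd K κ * (∏ i ∈ univ.erase k, ((ct κ i - ct κ k : ℤ) : K)) *
      ∏ l ∈ univ.erase k, (((ct κ k + 1 - ct κ l : ℤ) : K))⁻¹ := by
  have hle : ∀ i, κ i ≤ add κ k i := by
    intro i
    by_cases h : i = k
    · subst h; rw [add_same]; omega
    · rw [add_ne κ h]
  have hB0 : ∀ i, κ i + r ≤ B := fun i => (Nat.add_le_add_right (hle i) r).trans (hB i)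
  rw [vd, vd, prod_split _ k k, prod_split (fun i l => if i < l then _ else _) k k]
  have e1 : ∏ i ∈ univ.erase k, ∏ l ∈ univ.erase k,
      (if i < l then (((ct (add κ k) i - ct (add κ k) l : ℤ) : K))⁻¹ else 1)
      = ∏ i ∈ univ.erase k, ∏ l ∈ univ.erase k,
        (if i < l then (((ct κ i - ct κ l : ℤ) : K))⁻¹ else 1) := by
    apply prod_congr rfl
    intro i hi
    apply prod_congr rfl
    intro l hl
    rw [ct_add_ne κ (ne_of_mem_erase hi), ct_add_ne κ (ne_of_mem_erase hl)]
  rw [e1]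
  simp only [lt_irrefl, if_false, one_mul]
  have e2 : (-1 : K) ^ (r - 1) = ∏ _i ∈ univ.erase k, (-1 : K) := by
    rw [prod_const, card_erase_of_mem (mem_univ k), card_univ, Fintype.card_fin]
  rw [e2]
  have e3 : (∏ _i ∈ univ.erase k, (-1 : K)) *
      ((∏ l ∈ univ.erase k, if k < l then (((ct (add κ k) k - ct (add κ k) l : ℤ) : K))⁻¹ else 1) *
        ∏ i ∈ univ.erase k, if i < k then (((ct (add κ k) i - ct (add κ k) k : ℤ) : K))⁻¹ else 1)
      = ((∏ l ∈ univ.erase k, if k < l then (((ct κ k - ct κ l : ℤ) : K))⁻¹ else 1) *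
        ∏ i ∈ univ.erase k, if i < k then (((ct κ i - ct κ k : ℤ) : K))⁻¹ else 1) *
        (∏ i ∈ univ.erase k, ((ct κ i - ct κ k : ℤ) : K)) *
      ∏ l ∈ univ.erase k, (((ct κ k + 1 - ct κ l : ℤ) : K))⁻¹ := by
    simp only [← prod_mul_distrib]
    apply prod_congr rfl
    intro i hi
    have hik : i ≠ k := ne_of_mem_erase hi
    rw [ct_add_ne κ hik, ct_add_same]
    have n1 : ((ct κ i - ct κ k : ℤ) : K) ≠ 0 :=
      hK.int (by have := ct_ne hκ hik.symm; omega) (abs_ct hB0 hB0 i k)
    have n1' : ((ct κ k - ct κ i : ℤ) : K) ≠ 0 :=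
      hK.int (by have := ct_ne hκ hik; omega) (abs_ct hB0 hB0 k i)
    have n2 : ((ct κ k + 1 - ct κ i : ℤ) : K) ≠ 0 := by
      have h3 := ct_ne hκk hik
      rw [ct_add_ne κ hik, ct_add_same] at h3
      refine hK.int h3 (abs_ct' (κ := κ) (by have := hB k; rwa [add_same] at this) hB0 i)
    rcases lt_or_gt_of_ne hik with h | h
    · have h' : ¬ k < i := not_lt.mpr h.le
      simp only [h, h', if_true, if_false, one_mul]
      have e4 : ((ct κ i - (ct κ k + 1) : ℤ) : K) = -((ct κ k + 1 - ct κ i : ℤ) : K) := by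
        push_cast; ring
      rw [e4]
      field_simp
    · have h' : ¬ i < k := not_lt.mpr (le_of_lt h)
      have h'' : k < i := h
      simp only [h', h'', if_true, if_false, mul_one]
      have e4 : ((ct κ i - ct κ k : ℤ) : K) = -((ct κ k - ct κ i : ℤ) : K) := by
        push_cast; ring
      rw [e4]
      field_simp
  rw [← mul_assoc, e3]
  ring

/-- the Gamma part, both shapes change -/
lemma ps_step {B : ℕ} (hK : HK K B) {κ κ' : Fin r → ℕ} {k j : Fin r} (h : IL κ' κ)
    (h' : IL (add κ' j) (add κ k)) (hB : ∀ i, add κ k i + r ≤ B) :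
    ps K (add κ k) (add κ' j) * (∏ i ∈ univ.erase k, ((ct κ i - ct κ' j : ℤ) : K))
      = ps K κ κ' * ∏ l ∈ univ.erase j, ((ct κ k + 1 - ct κ' l : ℤ) : K) := by
  have hle : ∀ i, κ i ≤ add κ k i := by
    intro i
    by_cases h : i = k
    · subst h; rw [add_same]; omega
    · rw [add_ne κ h]
  have hB0 : ∀ i, κ i + r ≤ B := fun i => (Nat.add_le_add_right (hle i) r).trans (hB i)
  have hB1 : ∀ i, κ' i + r ≤ B := fun i => (Nat.add_le_add_right (h.1 i) r).trans (hB0 i)
  rw [ps, ps, prod_split _ k j, prod_split (fun i l => gam K (ct κ i - ct κ' l)) k j]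
  have e1 : ∏ i ∈ univ.erase k, ∏ l ∈ univ.erase j, gam K (ct (add κ k) i - ct (add κ' j) l)
      = ∏ i ∈ univ.erase k, ∏ l ∈ univ.erase j, gam K (ct κ i - ct κ' l) := by
    apply prod_congr rfl
    intro i hi
    apply prod_congr rfl
    intro l hl
    rw [ct_add_ne κ (ne_of_mem_erase hi), ct_add_ne κ' (ne_of_mem_erase hl)]
  have e2 : gam K (ct (add κ k) k - ct (add κ' j) j) = gam K (ct κ k - ct κ' j) := by
    rw [ct_add_same, ct_add_same]
    congr 1
    ring
  have e3 : ∏ l ∈ univ.erase j, gam K (ct (add κ k) k - ct (add κ' j) l)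
      = (∏ l ∈ univ.erase j, gam K (ct κ k - ct κ' l)) *
        ∏ l ∈ univ.erase j, ((ct κ k + 1 - ct κ' l : ℤ) : K) := by
    rw [← prod_mul_distrib]
    apply prod_congr rfl
    intro l hl
    have hlj : l ≠ j := ne_of_mem_erase hl
    have hne : ct κ k + 1 - ct κ' l ≠ 0 := by
      rcases lt_or_ge l k with hlk | hkl
      · have h1 := h'.2 l k hlk
        rw [add_same, add_ne κ' hlj] at h1
        unfold ct
        have : (l : ℕ) < k := hlk
        omega
      · have h1 := h.1 l
        have h2 := h.anti hkl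
        have : (k : ℕ) ≤ l := hkl
        unfold ct
        omega
    rw [ct_add_same, ct_add_ne κ' hlj]
    have e4 : ct κ k + 1 - ct κ' l = (ct κ k - ct κ' l) + 1 := by ring
    have hne2 : ((ct κ k - ct κ' l + 1 : ℤ) : K) ≠ 0 := by
      rw [← e4]
      refine hK.int hne (abs_ct' (κ := κ) (by have := hB k; rwa [add_same] at this) hB1 l)
    rw [e4, gam_succ K _ (by omega) hne2, mul_comm]
  have e5 : (∏ i ∈ univ.erase k, gam K (ct (add κ k) i - ct (add κ' j) j)) *
        (∏ i ∈ univ.erase k, ((ct κ i - ct κ' j : ℤ) : K))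
      = ∏ i ∈ univ.erase k, gam K (ct κ i - ct κ' j) := by
    rw [← prod_mul_distrib]
    apply prod_congr rfl
    intro i hi
    have hik : i ≠ k := ne_of_mem_erase hi
    have hne : ct κ i - ct κ' j ≠ 0 := by
      rcases lt_or_ge j i with hlk | hkl
      · have h1 := h.2 j i hlk
        unfold ct
        have : (j : ℕ) < i := hlk
        omega
      · have h1 := h'.1 j
        have h2 := h'.anti hkl
        rw [add_same] at h1
        rw [add_ne κ hik] at h2
        have : (i : ℕ) ≤ j := hkl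
        unfold ct
        omega
    rw [ct_add_ne κ hik, ct_add_same]
    have e4 : ct κ i - ct κ' j = (ct κ i - (ct κ' j + 1)) + 1 := by ring
    have hne2 : ((ct κ i - (ct κ' j + 1) + 1 : ℤ) : K) ≠ 0 := by
      rw [← e4]
      exact hK.int hne (abs_ct hB0 hB1 i j)
    conv_rhs => rw [e4, gam_succ K _ (by omega) hne2]
    rw [← e4, mul_comm]
  rw [e1, e2, e3, ← e5]
  ring

/-- the Gamma part, only the upper shape changes -/
lemma ps_step' {B : ℕ} (hK : HK K B) {κ κ' : Fin r → ℕ} {k : Fin r} (h : IL κ' κ)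
    (h' : IL κ' (add κ k)) (hB : ∀ i, add κ k i + r ≤ B) :
    ps K (add κ k) κ' = ps K κ κ' * ∏ l, ((ct κ k + 1 - ct κ' l : ℤ) : K) := by
  have hle : ∀ i, κ i ≤ add κ k i := by
    intro i
    by_cases h : i = k
    · subst h; rw [add_same]; omega
    · rw [add_ne κ h]
  have hB0 : ∀ i, κ i + r ≤ B := fun i => (Nat.add_le_add_right (hle i) r).trans (hB i)
  have hB1 : ∀ i, κ' i + r ≤ B := fun i => (Nat.add_le_add_right (h.1 i) r).trans (hB0 i)
  rw [ps, ps, ← mul_prod_erase univ _ (mem_univ k),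
    ← mul_prod_erase univ (fun i => ∏ l, gam K (ct κ i - ct κ' l)) (mem_univ k)]
  have e1 : ∏ i ∈ univ.erase k, ∏ l, gam K (ct (add κ k) i - ct κ' l)
      = ∏ i ∈ univ.erase k, ∏ l, gam K (ct κ i - ct κ' l) := by
    apply prod_congr rfl
    intro i hi
    apply prod_congr rfl
    intro l _
    rw [ct_add_ne κ (ne_of_mem_erase hi)]
  have e3 : ∏ l, gam K (ct (add κ k) k - ct κ' l)
      = (∏ l, gam K (ct κ k - ct κ' l)) * ∏ l, ((ct κ k + 1 - ct κ' l : ℤ) : K) := by
    rw [← prod_mul_distrib]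
    apply prod_congr rfl
    intro l _
    have hne : ct κ k + 1 - ct κ' l ≠ 0 := by
      rcases lt_or_ge l k with hlk | hkl
      · have h1 := h'.2 l k hlk
        rw [add_same] at h1
        unfold ct
        have : (l : ℕ) < k := hlk
        omega
      · have h1 := h.1 l
        have h2 := h.anti hkl
        have : (k : ℕ) ≤ l := hkl
        unfold ct
        omega
    rw [ct_add_same]
    have e4 : ct κ k + 1 - ct κ' l = (ct κ k - ct κ' l) + 1 := by ring
    have hne2 : ((ct κ k - ct κ' l + 1 : ℤ) : K) ≠ 0 := by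
      rw [← e4]
      refine hK.int hne (abs_ct' (κ := κ) (by have := hB k; rwa [add_same] at this) hB1 l)
    rw [e4, gam_succ K _ (by omega) hne2, mul_comm]
  rw [e1, e3]
  ring

/-- **one step**: box past strip is gauge equivalent to `T_x` -/
theorem step_B {B : ℕ} (hK : HK K B) {κ κ' : Fin r → ℕ} {k j : Fin r} (h : IL κ' κ)
    (h' : IL (add κ' j) (add κ k)) (hB : ∀ i, add κ k i + r ≤ B) :
    Bco K κ κ' k j * G K κ κ' = G K (add κ k) (add κ' j) * tco K κ k (some (ct κ' j)) := by
  have h1 := vd_step hK h.anti h'.anti hB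
  have h2 := ps_step hK h h' hB
  have hB0 : ∀ i, κ i + r ≤ B := by
    intro i
    refine le_trans (Nat.add_le_add_right ?_ r) (hB i)
    by_cases h : i = k
    · subst h; rw [add_same]; omega
    · rw [add_ne κ h]
  have h3 : (∏ i ∈ univ.erase k, ((ct κ i - ct κ k : ℤ) : K)) *
      ∏ i ∈ univ.erase k, (((ct κ i - ct κ k : ℤ) : K))⁻¹ = 1 := by
    rw [← prod_mul_distrib]
    apply prod_eq_one
    intro i hi
    apply mul_inv_cancel₀
    have hik : i ≠ k := ne_of_mem_erase hi
    exact hK.int (by have := ct_ne h.anti hik.symm; omega) (abs_ct hB0 hB0 i k)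
  rw [G, G, sg_add, tco, prod_mul_distrib, Bco]
  calc _ = sg K κ * (vd K κ * 1 * ∏ l ∈ univ.erase k, (((ct κ k + 1 - ct κ l : ℤ) : K))⁻¹)
        * (ps K κ κ' * ∏ l ∈ univ.erase j, ((ct κ k + 1 - ct κ' l : ℤ) : K)) := by ring
    _ = sg K κ * ((vd K κ * (∏ i ∈ univ.erase k, ((ct κ i - ct κ k : ℤ) : K)) *
        ∏ l ∈ univ.erase k, (((ct κ k + 1 - ct κ l : ℤ) : K))⁻¹) *
        ∏ i ∈ univ.erase k, (((ct κ i - ct κ k : ℤ) : K))⁻¹)
        * (ps K (add κ k) (add κ' j) * (∏ i ∈ univ.erase k, ((ct κ i - ct κ' j : ℤ) : K))) := by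
      rw [h2, ← h3]; ring
    _ = _ := by rw [← h1]; ring

/-- **last step**: the symmetrizer coefficient is gauge equivalent to `T_∞` -/
theorem step_g {B : ℕ} (hK : HK K B) {κ κ' : Fin r → ℕ} {k : Fin r} (h : IL κ' κ)
    (h' : IL κ' (add κ k)) (hB : ∀ i, add κ k i + r ≤ B) :
    gco K κ κ' k * G K κ κ' = G K (add κ k) κ' * tco K κ k none := by
  have h1 := vd_step hK h.anti h'.anti hB
  have h2 := ps_step' hK h h' hB
  have hB0 : ∀ i, κ i + r ≤ B := by
    intro i
    refine le_trans (Nat.add_le_add_right ?_ r) (hB i)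
    by_cases h : i = k
    · subst h; rw [add_same]; omega
    · rw [add_ne κ h]
  have h3 : (∏ i ∈ univ.erase k, ((ct κ i - ct κ k : ℤ) : K)) *
      ∏ i ∈ univ.erase k, (((ct κ i - ct κ k : ℤ) : K))⁻¹ = 1 := by
    rw [← prod_mul_distrib]
    apply prod_eq_one
    intro i hi
    apply mul_inv_cancel₀
    have hik : i ≠ k := ne_of_mem_erase hi
    exact hK.int (by have := ct_ne h.anti hik.symm; omega) (abs_ct hB0 hB0 i k)
  rw [G, G, sg_add, tco, gco]
  calc _ = sg K κ * (vd K κ * 1 * ∏ l ∈ univ.erase k, (((ct κ k + 1 - ct κ l : ℤ) : K))⁻¹)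
        * (ps K κ κ' * ∏ l, ((ct κ k + 1 - ct κ' l : ℤ) : K)) := by ring
    _ = sg K κ * ((vd K κ * (∏ i ∈ univ.erase k, ((ct κ i - ct κ k : ℤ) : K)) *
        ∏ l ∈ univ.erase k, (((ct κ k + 1 - ct κ l : ℤ) : K))⁻¹) *
        ∏ i ∈ univ.erase k, (((ct κ i - ct κ k : ℤ) : K))⁻¹)
        * ps K (add κ k) κ' := by
      rw [h2, ← h3]; ring
    _ = _ := by rw [← h1]; ring

/-! ### path sums -/

lemma le_add' (κ : Fin r → ℕ) (k i : Fin r) : κ i ≤ add κ k i := by
  by_cases h : i = k
  · subst h; rw [add_same]; omega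
  · rw [add_ne κ h]

variable (K)

/-- matrix element of a product of operators `T_x`, `T_∞` (first = applied first) -/
noncomputable def Fg : List (Option ℤ) → (Fin r → ℕ) → (Fin r → ℕ) → K
  | [], κ, lam => if κ = lam then 1 else 0
  | t :: ts, κ, lam =>
      ∑ k : Fin r, if Antitone (add κ k) then tco K κ k t * Fg ts (add κ k) lam else 0


/-- contents along a word -/
def contsW : (Fin r → ℕ) → List (Fin r) → List ℤ
  | _, [] => []
  | κ', j :: js => ct κ' j :: contsW (add κ' j) js

variable {K}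

lemma Fg_zero (ts : List (Option ℤ)) : ∀ (κ lam : Fin r → ℕ), ¬ (∀ i, κ i ≤ lam i) →
    Fg K ts κ lam = 0 := by
  induction ts with
  | nil =>
    intro κ lam h
    rw [Fg, if_neg]
    rintro rfl
    exact h fun i => le_rfl
  | cons t ts ih =>
    intro κ lam h
    rw [Fg]
    apply sum_eq_zero
    intro k _
    split_ifs
    · rw [ih, mul_zero]
      intro h2
      exact h fun i => (le_add' κ k i).trans (h2 i)
    · rfl




/-! ### commutation of the operators -/

/-- slope and constant term of the numerator factors -/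
def al (K : Type*) [Field K] : Option ℤ → K
  | none => 0
  | some _ => 1

/-- constant term -/
def be (K : Type*) [Field K] : Option ℤ → K
  | none => 1
  | some x => -(x : K)

lemma tco_eq (κ : Fin r → ℕ) (k : Fin r) (s : Option ℤ) :
    tco K κ k s = (∏ i ∈ univ.erase k, (al K s * ((ct κ i : ℤ) : K) + be K s)) *
      ∏ i ∈ univ.erase k, (((ct κ i - ct κ k : ℤ) : K))⁻¹ := by
  cases s with
  | none => simp [tco, al, be]
  | some x =>
    rw [tco, prod_mul_distrib]
    congr 1
    apply prod_congr rfl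
    intro i _
    simp only [al, be]
    push_cast
    ring

/-- the case of two different rows -/
lemma two_ne {B : ℕ} (hK : HK K B) {κ lam : Fin r → ℕ} (hB : ∀ i, lam i + r ≤ B)
    (hκ : IL κ lam) {k m : Fin r} (hkm : k ≠ m) (hle : ∀ i, add (add κ k) m i ≤ lam i)
    (s t : Option ℤ) :
    tco K κ k s * tco K (add κ k) m t + tco K κ m s * tco K (add κ m) k t
      = tco K κ k t * tco K (add κ k) m s + tco K κ m t * tco K (add κ m) k s := by
  have hB0 : ∀ i, κ i + r ≤ B := fun i => (Nat.add_le_add_right (hκ.1 i) r).trans (hB i)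
  have hBk : κ k + 1 + r ≤ B := by
    have := hle k
    rw [add_ne _ hkm, add_same] at this
    exact (Nat.add_le_add_right this r).trans (hB k)
  have hBm : κ m + 1 + r ≤ B := by
    have := hle m
    rw [add_same, add_ne _ hkm.symm] at this
    exact (Nat.add_le_add_right this r).trans (hB m)
  -- differences of contents
  have hD : ct κ k - ct κ m ≠ 0 ∧ ct κ k + 1 - ct κ m ≠ 0 ∧ ct κ m + 1 - ct κ k ≠ 0 := by
    have h1 := hle k
    have h2 := hle m
    rw [add_ne _ hkm, add_same] at h1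
    rw [add_same, add_ne _ hkm.symm] at h2
    rcases lt_or_gt_of_ne hkm with h | h
    · have h3 := hκ.2 k m h
      have h4 : (k : ℕ) < m := h
      unfold ct
      omega
    · have h3 := hκ.2 m k h
      have h4 : (m : ℕ) < k := h
      unfold ct
      omega
  have n1 : ((ct κ k - ct κ m : ℤ) : K) ≠ 0 := hK.int hD.1 (abs_ct hB0 hB0 k m)
  have n1' : ((ct κ m - ct κ k : ℤ) : K) ≠ 0 :=
    hK.int (by have := hD.1; omega) (abs_ct hB0 hB0 m k)
  have n2 : ((ct κ k + 1 - ct κ m : ℤ) : K) ≠ 0 := hK.int hD.2.1 (abs_ct' hBk hB0 m)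
  have n3 : ((ct κ m + 1 - ct κ k : ℤ) : K) ≠ 0 := hK.int hD.2.2 (abs_ct' hBm hB0 k)
  have hmem : m ∈ univ.erase k := mem_erase.mpr ⟨hkm.symm, mem_univ m⟩
  have hmem' : k ∈ univ.erase m := mem_erase.mpr ⟨hkm, mem_univ k⟩
  have hset : (univ.erase m).erase k = (univ.erase k).erase m := erase_right_comm
  -- expansions
  have e1 : ∀ s : Option ℤ, tco K κ k s
      = ((al K s * ((ct κ m : ℤ) : K) + be K s) * (((ct κ m - ct κ k : ℤ) : K))⁻¹) *
        ((∏ i ∈ (univ.erase k).erase m, (al K s * ((ct κ i : ℤ) : K) + be K s)) *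
        ∏ i ∈ (univ.erase k).erase m, (((ct κ i - ct κ k : ℤ) : K))⁻¹) := by
    intro s
    rw [tco_eq, ← mul_prod_erase _ _ hmem,
      ← mul_prod_erase _ (fun i => (((ct κ i - ct κ k : ℤ) : K))⁻¹) hmem]
    ring
  have e2 : ∀ s : Option ℤ, tco K κ m s
      = ((al K s * ((ct κ k : ℤ) : K) + be K s) * (((ct κ k - ct κ m : ℤ) : K))⁻¹) *
        ((∏ i ∈ (univ.erase k).erase m, (al K s * ((ct κ i : ℤ) : K) + be K s)) *
        ∏ i ∈ (univ.erase k).erase m, (((ct κ i - ct κ m : ℤ) : K))⁻¹) := by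
    intro s
    rw [tco_eq, ← mul_prod_erase _ _ hmem',
      ← mul_prod_erase _ (fun i => (((ct κ i - ct κ m : ℤ) : K))⁻¹) hmem', hset]
    ring
  have e3 : ∀ s : Option ℤ, tco K (add κ k) m s
      = ((al K s * ((ct κ k + 1 : ℤ) : K) + be K s) * (((ct κ k + 1 - ct κ m : ℤ) : K))⁻¹) *
        ((∏ i ∈ (univ.erase k).erase m, (al K s * ((ct κ i : ℤ) : K) + be K s)) *
        ∏ i ∈ (univ.erase k).erase m, (((ct κ i - ct κ m : ℤ) : K))⁻¹) := by
    intro s
    rw [tco_eq, ← mul_prod_erase _ _ hmem',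
      ← mul_prod_erase _ (fun i => (((ct (add κ k) i - ct (add κ k) m : ℤ) : K))⁻¹) hmem', hset,
      ct_add_same, ct_add_ne κ hkm.symm]
    have h1 : ∏ i ∈ (univ.erase k).erase m, (al K s * ((ct (add κ k) i : ℤ) : K) + be K s)
        = ∏ i ∈ (univ.erase k).erase m, (al K s * ((ct κ i : ℤ) : K) + be K s) := by
      apply prod_congr rfl
      intro i hi
      rw [ct_add_ne κ (ne_of_mem_erase (mem_of_mem_erase hi))]
    have h2 : ∏ i ∈ (univ.erase k).erase m, (((ct (add κ k) i - ct κ m : ℤ) : K))⁻¹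
        = ∏ i ∈ (univ.erase k).erase m, (((ct κ i - ct κ m : ℤ) : K))⁻¹ := by
      apply prod_congr rfl
      intro i hi
      rw [ct_add_ne κ (ne_of_mem_erase (mem_of_mem_erase hi))]
    rw [h1, h2]
    ring
  have e4 : ∀ s : Option ℤ, tco K (add κ m) k s
      = ((al K s * ((ct κ m + 1 : ℤ) : K) + be K s) * (((ct κ m + 1 - ct κ k : ℤ) : K))⁻¹) *
        ((∏ i ∈ (univ.erase k).erase m, (al K s * ((ct κ i : ℤ) : K) + be K s)) *
        ∏ i ∈ (univ.erase k).erase m, (((ct κ i - ct κ k : ℤ) : K))⁻¹) := by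
    intro s
    rw [tco_eq, ← mul_prod_erase _ _ hmem,
      ← mul_prod_erase _ (fun i => (((ct (add κ m) i - ct (add κ m) k : ℤ) : K))⁻¹) hmem,
      ct_add_same, ct_add_ne κ hkm]
    have h1 : ∏ i ∈ (univ.erase k).erase m, (al K s * ((ct (add κ m) i : ℤ) : K) + be K s)
        = ∏ i ∈ (univ.erase k).erase m, (al K s * ((ct κ i : ℤ) : K) + be K s) := by
      apply prod_congr rfl
      intro i hi
      rw [ct_add_ne κ (ne_of_mem_erase hi)]
    have h2 : ∏ i ∈ (univ.erase k).erase m, (((ct (add κ m) i - ct κ k : ℤ) : K))⁻¹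
        = ∏ i ∈ (univ.erase k).erase m, (((ct κ i - ct κ k : ℤ) : K))⁻¹ := by
      apply prod_congr rfl
      intro i hi
      rw [ct_add_ne κ (ne_of_mem_erase hi)]
    rw [h1, h2]
    ring
  rw [e1 s, e1 t, e2 s, e2 t, e3 s, e3 t, e4 s, e4 t]
  generalize (∏ i ∈ (univ.erase k).erase m, (al K s * ((ct κ i : ℤ) : K) + be K s)) = Ps
  generalize (∏ i ∈ (univ.erase k).erase m, (al K t * ((ct κ i : ℤ) : K) + be K t)) = Pt
  generalize (∏ i ∈ (univ.erase k).erase m, (((ct κ i - ct κ k : ℤ) : K))⁻¹) = Qk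
  generalize (∏ i ∈ (univ.erase k).erase m, (((ct κ i - ct κ m : ℤ) : K))⁻¹) = Qm
  generalize al K s = as, be K s = bs, al K t = at', be K t = bt
  push_cast at n1 n1' n2 n3 ⊢
  generalize ((ct κ k : ℤ) : K) = x at *
  generalize ((ct κ m : ℤ) : K) = y at *
  have n1'' : y - x = -(x - y) := by ring
  have key : ((as * y + bs) * (y - x)⁻¹) * ((at' * (x + 1) + bt) * (x + 1 - y)⁻¹)
      + ((as * x + bs) * (x - y)⁻¹) * ((at' * (y + 1) + bt) * (y + 1 - x)⁻¹)
      = ((at' * y + bt) * (y - x)⁻¹) * ((as * (x + 1) + bs) * (x + 1 - y)⁻¹)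
      + ((at' * x + bt) * (x - y)⁻¹) * ((as * (y + 1) + bs) * (y + 1 - x)⁻¹) := by
    rw [n1'']
    field_simp
    ring
  linear_combination (Ps * Pt * Qk * Qm) * key

/-- shapes between `κ` and `lam` in a horizontal strip -/
lemma IL.between {κ lam ρ : Fin r → ℕ} (h : IL κ lam) (h1 : ∀ i, κ i ≤ ρ i)
    (h2 : ∀ i, ρ i ≤ lam i) : IL ρ lam :=
  ⟨h2, fun i j hij => (h.2 i j hij).trans (h1 i)⟩

lemma two_eq (κ : Fin r → ℕ) (k : Fin r) (s t : Option ℤ) :
    tco K κ k s * tco K (add κ k) k t = tco K κ k t * tco K (add κ k) k s := by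
  rw [tco_eq, tco_eq, tco_eq, tco_eq]
  have h1 : ∀ s : Option ℤ, ∏ i ∈ univ.erase k, (al K s * ((ct (add κ k) i : ℤ) : K) + be K s)
      = ∏ i ∈ univ.erase k, (al K s * ((ct κ i : ℤ) : K) + be K s) := by
    intro s
    apply prod_congr rfl
    intro i hi
    rw [ct_add_ne κ (ne_of_mem_erase hi)]
  rw [h1, h1]
  ring

/-- the operators commute inside a horizontal strip -/
theorem Fg_swap {B : ℕ} (hK : HK K B) {κ lam : Fin r → ℕ} (hB : ∀ i, lam i + r ≤ B)
    (hκ : IL κ lam) (s t : Option ℤ) (ts : List (Option ℤ)) :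
    Fg K (s :: t :: ts) κ lam = Fg K (t :: s :: ts) κ lam := by
  classical
  have hexp : ∀ s t : Option ℤ, Fg K (s :: t :: ts) κ lam
      = ∑ p : Fin r × Fin r, tco K κ p.1 s * tco K (add κ p.1) p.2 t *
        Fg K ts (add (add κ p.1) p.2) lam := by
    intro s t
    rw [Fintype.sum_prod_type, Fg]
    apply sum_congr rfl
    intro k _
    rw [Fg]
    by_cases hk : ∀ i, add κ k i ≤ lam i
    · have hk2 := hκ.between (le_add' κ k) hk
      rw [if_pos hk2.anti', mul_sum]
      apply sum_congr rfl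
      intro m _
      by_cases hm : ∀ i, add (add κ k) m i ≤ lam i
      · have hm2 := hk2.between (le_add' _ m) hm
        rw [if_pos hm2.anti']
        ring
      · rw [Fg_zero _ _ _ hm]
        simp
    · have h0 : ∀ m, ¬ ∀ i, add (add κ k) m i ≤ lam i := by
        intro m hm
        exact hk fun i => (le_add' _ m i).trans (hm i)
      rw [sum_eq_zero (s := univ) (f := fun y => tco K κ (k, y).1 s * tco K (add κ (k, y).1) (k, y).2 t *
        Fg K ts (add (add κ (k, y).1) (k, y).2) lam)]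
      · split_ifs
        · rw [sum_eq_zero, mul_zero]
          intro m _
          rw [Fg_zero _ _ _ (h0 m)]
          simp
        · rfl
      · intro m _
        rw [Fg_zero _ _ _ (h0 m), mul_zero]
  rw [hexp s t, hexp t s, ← sub_eq_zero, ← sum_sub_distrib]
  refine sum_involution (fun p _ => (p.2, p.1)) ?_ ?_ (fun _ _ => mem_univ _) (fun _ _ => rfl)
  · rintro ⟨k, m⟩ _
    show tco K κ k s * tco K (add κ k) m t * Fg K ts (add (add κ k) m) lam
        - tco K κ k t * tco K (add κ k) m s * Fg K ts (add (add κ k) m) lam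
        + (tco K κ m s * tco K (add κ m) k t * Fg K ts (add (add κ m) k) lam
        - tco K κ m t * tco K (add κ m) k s * Fg K ts (add (add κ m) k) lam) = 0
    rw [add_comm' κ m k]
    by_cases hm : ∀ i, add (add κ k) m i ≤ lam i
    · by_cases hkm : k = m
      · subst hkm
        rw [two_eq κ k s t]
        ring
      · have h := two_ne hK hB hκ hkm hm s t
        linear_combination (Fg K ts (add (add κ k) m) lam) * h
    · rw [Fg_zero _ _ _ hm]
      ring
  · rintro ⟨k, m⟩ _ hne heq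
    apply hne
    have : m = k := congrArg Prod.fst heq
    subst this
    show tco K κ m s * tco K (add κ m) m t * Fg K ts (add (add κ m) m) lam
        - tco K κ m t * tco K (add κ m) m s * Fg K ts (add (add κ m) m) lam = 0
    rw [two_eq κ m s t]
    ring

/-- `Fg` does not depend on the order of the operators -/
theorem Fg_perm {B : ℕ} (hK : HK K B) {lam : Fin r → ℕ} (hB : ∀ i, lam i + r ≤ B)
    {ts ts' : List (Option ℤ)} (hp : ts.Perm ts') :
    ∀ {κ : Fin r → ℕ}, IL κ lam → Fg K ts κ lam = Fg K ts' κ lam := by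
  induction hp with
  | nil => intro κ _; rfl
  | cons x _ ih =>
    intro κ hκ
    rw [Fg, Fg]
    apply sum_congr rfl
    intro k _
    by_cases hk : ∀ i, add κ k i ≤ lam i
    · rw [ih (hκ.between (le_add' κ k) hk)]
    · rw [Fg_zero _ _ _ hk, Fg_zero _ _ _ hk]
  | swap x y l => intro κ hκ; exact Fg_swap hK hB hκ y x l
  | trans _ _ ih1 ih2 => intro κ hκ; exact (ih1 hκ).trans (ih2 hκ)

/-! ### the link with `Spec` -/

lemma Fp_eq (ts : List (Option ℤ)) : ∀ κ lam : Spec.Sh, Spec.Fp K ts κ lam = Fg K ts κ lam := by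
  induction ts with
  | nil => intro κ lam; rfl
  | cons t ts ih =>
    intro κ lam
    rw [Spec.Fp, Fg]
    apply sum_congr rfl
    intro k _
    have h : Spec.stepCo K κ k t = tco K κ k t := by
      cases t <;> rfl
    rw [ih, h]


/-- the contents along a word are the contents of the skew shape -/
lemma contsW_perm (js : List (Fin 6)) : ∀ κ' : Spec.Sh,
    (contsW κ' js).Perm (Spec.conts κ' (sh κ' js)) := by
  induction js with
  | nil =>
    intro κ'
    have : Spec.conts κ' (sh κ' []) = [] := by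
      simp [Spec.conts, sh]
    rw [this]
    exact List.Perm.refl _
  | cons j js ih =>
    intro κ'
    rw [contsW, sh]
    have hle : ∀ (js : List (Fin 6)) (κ : Spec.Sh) i, κ i ≤ sh κ js i := by
      intro js
      induction js with
      | nil => intro κ i; exact le_rfl
      | cons a t ih => intro κ i; exact (le_add' κ a i).trans (ih _ i)
    set lam := sh (add κ' j) js with hlam
    refine List.Perm.trans (List.Perm.cons _ (ih (add κ' j))) ?_
    rw [← hlam]
    let f : Spec.Sh → Fin 6 → List ℤ := fun κ i => (List.range (lam i - κ i)).map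
      (fun c => ((κ i + c : ℕ) : ℤ) - (i : ℕ))
    show (ct κ' j :: (List.finRange 6).flatMap (f (add κ' j))).Perm
      ((List.finRange 6).flatMap (f κ'))
    have hp : (List.finRange 6).Perm (j :: (List.finRange 6).erase j) :=
      List.perm_cons_erase (List.mem_finRange j)
    have h1 : ((List.finRange 6).flatMap (f (add κ' j))).Perm
        (f (add κ' j) j ++ ((List.finRange 6).erase j).flatMap (f (add κ' j))) := by
      have := hp.flatMap_right (f (add κ' j))
      rwa [List.flatMap_cons] at this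
    have h2 : ((List.finRange 6).flatMap (f κ')).Perm
        (f κ' j ++ ((List.finRange 6).erase j).flatMap (f κ')) := by
      have := hp.flatMap_right (f κ')
      rwa [List.flatMap_cons] at this
    have h3 : ((List.finRange 6).erase j).flatMap (f (add κ' j))
        = ((List.finRange 6).erase j).flatMap (f κ') := by
      apply List.flatMap_congr
      intro i hi
      have hij : i ≠ j := by
        rintro rfl
        exact (List.Nodup.mem_erase_iff (List.nodup_finRange 6)).mp hi |>.1 rfl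
      simp only [f]
      rw [add_ne κ' hij]
    have h4 : f κ' j = ct κ' j :: f (add κ' j) j := by
      simp only [f]
      have h5 : add κ' j j ≤ lam j := hle js (add κ' j) j
      rw [add_same] at h5 ⊢
      have h6 : lam j - κ' j = (lam j - (κ' j + 1)) + 1 := by omega
      rw [h6, List.range_succ_eq_map, List.map_cons, List.map_map]
      congr 1
      apply List.map_congr_left
      intro c _
      simp only [Function.comp_apply, Nat.succ_eq_add_one]
      push_cast
      ring
    refine List.Perm.trans (List.Perm.cons _ h1) ?_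
    refine List.Perm.trans ?_ h2.symm
    rw [h3, h4]
    exact List.Perm.refl _


end Crest.Agent.R187.SN.Gauge
private theorem rz_f1c0b89dd6 : type_of% @_root_.Crest.Agent.R187.SN.Gauge.Fg.eq_def := @_root_.Crest.Agent.R187.SN.Gauge.Fg.eq_def -- L449
private theorem rz_99509b4c8b : type_of% @_root_.Crest.Agent.R187.SN.Gauge.Fg.eq_1 := @_root_.Crest.Agent.R187.SN.Gauge.Fg.eq_1 -- L449
private theorem rz_fdabfb869f : type_of% @_root_.Crest.Agent.R187.SN.Gauge.al.eq_1 := @_root_.Crest.Agent.R187.SN.Gauge.al.eq_1 -- L639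
private theorem rz_4b9f244f54 : type_of% @_root_.Crest.Agent.R187.SN.Gauge.be.eq_1 := @_root_.Crest.Agent.R187.SN.Gauge.be.eq_1 -- L644
private theorem rz_87ea5290c7 : type_of% @_root_.Crest.Agent.R187.SN.Gauge.contsW.eq_def := @_root_.Crest.Agent.R187.SN.Gauge.contsW.eq_def -- L463
private theorem rz_649f40b4ff : type_of% @_root_.Crest.Agent.R187.SN.Gauge.contsW.eq_1 := @_root_.Crest.Agent.R187.SN.Gauge.contsW.eq_1 -- L463
private theorem rz_b74c2f6029 : type_of% @_root_.Crest.Agent.R187.SN.Gauge.gam.eq_1 := @_root_.Crest.Agent.R187.SN.Gauge.gam.eq_1 -- L36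
private theorem rz_b599ee6d12 : type_of% @_root_.Crest.Agent.R187.SN.Gauge.tco.eq_1 := @_root_.Crest.Agent.R187.SN.Gauge.tco.eq_1 -- L122
end

-- ▼ part R187/SN/Gauge2

/-!
# Row 187, PLAN S, block C5: the path sum of the local lemma (L) equals `Spec.Fc` up to gauge
-/

set_option autoImplicit false

namespace Crest.Agent.R187.SN.Gauge

open Crest.Agent.R187.SN Finset

variable {r : ℕ} (K : Type*) [Field K]

/-- path sum: the letters of the word are passed below the strip (`κ'` = start shape of the strip,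
`κ1` = its final shape, `lam` = final shape at the end) -/
def PB : List (Fin r) → (Fin r → ℕ) → (Fin r → ℕ) → (Fin r → ℕ) → K
  | [], _, κ1, lam => if κ1 = lam then 1 else 0
  | j :: js, κ', κ1, lam =>
      ∑ k : Fin r, Strip.Bc K (add κ1 k) κ' k j * PB js (add κ' j) (add κ1 k) lam

/-- the coefficient of the local lemma -/
def FL (y : List (Fin r)) (κ' κ lam : Fin r → ℕ) : K :=
  ∑ k : Fin r, Strip.gc K (add κ k) κ' k * PB K y κ' (add κ k) lam

variable {K}

lemma Bc_eq (κ κ' : Fin r → ℕ) (k j : Fin r) :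
    Strip.Bc K (add κ k) κ' k j = Bco K κ κ' k j := by
  rw [Strip.Bc, Bco, Strip.Nn, div_eq_mul_inv, ← prod_inv_distrib]
  congr 1
  · apply prod_congr rfl
    intro l _
    rw [Strip.cK, Strip.cK, ct_add_same]
    push_cast
    ring
  · apply prod_congr rfl
    intro l hl
    rw [Strip.cK, Strip.cK, ct_add_same, ct_add_ne κ (ne_of_mem_erase hl)]
    push_cast
    ring

lemma gc_eq (κ κ' : Fin r → ℕ) (k : Fin r) :
    Strip.gc K (add κ k) κ' k = gco K κ κ' k := by
  rw [Strip.gc, gco, Strip.Nn, div_eq_mul_inv, ← prod_inv_distrib]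
  congr 1
  · apply prod_congr rfl
    intro l _
    rw [Strip.cK, Strip.cK, ct_add_same]
    push_cast
    ring
  · apply prod_congr rfl
    intro l hl
    rw [Strip.cK, Strip.cK, ct_add_same, ct_add_ne κ (ne_of_mem_erase hl)]
    push_cast
    ring

lemma PB_zero (js : List (Fin r)) : ∀ (κ' κ1 lam : Fin r → ℕ), ¬ (∀ i, κ1 i ≤ lam i) →
    PB K js κ' κ1 lam = 0 := by
  induction js with
  | nil =>
    intro κ' κ1 lam h
    rw [PB, if_neg]
    rintro rfl
    exact h fun i => le_rfl
  | cons j js ih =>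
    intro κ' κ1 lam h
    rw [PB]
    apply sum_eq_zero
    intro k _
    rw [ih, mul_zero]
    intro h2
    exact h fun i => (le_add' κ1 k i).trans (h2 i)

/-- a violation of the first interlacing inequality is never repaired in the strip form -/
lemma bad_zero_B (js : List (Fin r)) : ∀ (κ' κ1 lam : Fin r → ℕ), (∃ i, κ1 i + 1 ≤ κ' i) →
    (∀ i, sh κ' js i ≤ lam i) → PB K js κ' κ1 lam = 0 := by
  induction js with
  | nil =>
    rintro κ' κ1 lam ⟨i, hi⟩ h
    rw [PB, if_neg]
    rintro rfl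
    have := h i
    rw [sh] at this
    omega
  | cons j js ih =>
    rintro κ' κ1 lam ⟨i, hi⟩ h
    rw [PB]
    apply sum_eq_zero
    intro k _
    have hj := le_add' κ' j i
    by_cases hk : i = k
    · subst hk
      by_cases hij : i = j
      · subst hij
        rw [ih (add κ' i) (add κ1 i) lam ⟨i, by rw [add_same, add_same]; omega⟩ h, mul_zero]
      · by_cases h2 : κ1 i + 2 ≤ κ' i
        · rw [ih (add κ' j) (add κ1 i) lam ⟨i, by rw [add_same]; omega⟩ h, mul_zero]
        · rw [Bc_eq, Bco, prod_eq_zero (i := i) (mem_erase.mpr ⟨hij, mem_univ i⟩), zero_mul,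
            zero_mul]
          have : ct κ1 i + 1 - ct κ' i = 0 := by
            unfold ct
            omega
          rw [this]
          simp
    · rw [ih (add κ' j) (add κ1 k) lam ⟨i, by rw [add_ne κ1 hk]; omega⟩ h, mul_zero]

/-- what can go wrong in one step -/
lemma not_IL {κ κ' : Fin r → ℕ} {k j : Fin r} (h : IL κ' κ) (ha : Antitone (add κ' j))
    (h1 : ¬ IL (add κ' j) (add κ k)) :
    (j ≠ k ∧ κ j = κ' j) ∨
      ∃ i : Fin r, i ≠ j ∧ (i : ℕ) + 1 = k ∧ κ k = κ' i := by
  by_cases h3 : ∀ i, add κ' j i ≤ add κ k i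
  · right
    have h4 : ∃ i l : Fin r, i < l ∧ add κ' j i < add κ k l := by
      by_contra h5
      push Not at h5
      exact h1 ⟨h3, h5⟩
    obtain ⟨i, l, hil, h5⟩ := h4
    have hil' : (i : ℕ) < l := hil
    let i' : Fin r := ⟨l - 1, by omega⟩
    have hi'l : i' < l := by show (l : ℕ) - 1 < l; omega
    have h6 : add κ' j i' ≤ add κ' j i := ha (by show (i : ℕ) ≤ l - 1; omega)
    have h7 := h.2 i' l hi'l
    have h8 := le_add' κ' j i'
    have hlk : l = k := by
      by_contra hlk
      rw [add_ne κ hlk] at h5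
      omega
    subst hlk
    have hj : i' ≠ j := by
      intro hj
      rw [← hj, add_same] at h6
      rw [← hj] at h5
      rw [add_same] at h5
      omega
    refine ⟨i', hj, by show (l : ℕ) - 1 + 1 = l; omega, ?_⟩
    rw [add_same] at h5
    rw [add_ne κ' hj] at h6
    omega
  · left
    push Not at h3
    obtain ⟨i, hi⟩ := h3
    have h4 := h.1 i
    have h5 := le_add' κ k i
    have hij : i = j := by
      by_contra hij
      rw [add_ne κ' hij] at hi
      omega
    subst hij
    rw [add_same] at hi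
    have hik : i ≠ k := by
      rintro rfl
      rw [add_same] at hi
      omega
    exact ⟨hik, by omega⟩


/-- a violation of the second interlacing inequality is never repaired (without `T_∞`) -/
lemma bad_zero' {lam : Fin r → ℕ} (js : List (Fin r)) : ∀ (κ κ' : Fin r → ℕ),
    (∃ i k : Fin r, (i : ℕ) + 1 = k ∧ κ' i + 1 ≤ κ k) → IL (sh κ' js) lam →
    Fg K ((contsW κ' js).map some) κ lam = 0 := by
  induction js with
  | nil =>
    rintro κ κ' ⟨i, k, hik, hv⟩ hf
    simp only [contsW, List.map_nil, Fg]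
    rw [if_neg]
    rintro rfl
    have h3 := hf.2 i k (by show (i : ℕ) < k; omega)
    rw [sh] at h3
    omega
  | cons j js ih =>
    rintro κ κ' ⟨i, k, hik, hv⟩ hf
    simp only [contsW, List.map_cons, Fg]
    apply sum_eq_zero
    intro m _
    split_ifs
    swap
    · rfl
    have hm := le_add' κ m k
    by_cases hij : i = j
    · subst hij
      by_cases h2 : κ' i + 2 ≤ add κ m k
      · rw [ih (add κ m) (add κ' i) ⟨i, k, hik, by rw [add_same]; omega⟩ hf, mul_zero]
      · have hmk : k ≠ m := by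
          rintro rfl
          rw [add_same] at h2
          omega
        have h3 : κ k = κ' i + 1 := by omega
        have h4 : tco K κ m (some (ct κ' i)) = 0 := by
          rw [tco]
          apply prod_eq_zero (mem_erase.mpr ⟨hmk, mem_univ k⟩)
          have h5 : ct κ k - ct κ' i = 0 := by
            unfold ct
            omega
          rw [h5]
          simp
        rw [h4, zero_mul]
    · rw [ih (add κ m) (add κ' j) ⟨i, k, hik, by rw [add_ne κ' hij]; omega⟩ hf, mul_zero]

/-- gauge equivalence for `PB` -/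
theorem PB_eq {B : ℕ} (hK : HK K B) {lam : Fin r → ℕ} (hB : ∀ i, lam i + r ≤ B)
    (js : List (Fin r)) : ∀ (κ' κ1 : Fin r → ℕ), IL κ' κ1 → Lat κ' js → IL (sh κ' js) lam →
    PB K js κ' κ1 lam * G K κ1 κ'
      = G K lam (sh κ' js) * Fg K ((contsW κ' js).map some) κ1 lam := by
  induction js with
  | nil =>
    intro κ' κ1 h _ hf
    simp only [contsW, List.map_nil, Fg, PB, sh] at hf ⊢
    split_ifs with h1
    · rw [h1, one_mul, mul_one]
    · rw [zero_mul, mul_zero]
  | cons j js ih =>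
    intro κ' κ h hlat hf
    simp only [contsW, List.map_cons, Fg, PB, sh] at hf ⊢
    rw [sum_mul, mul_sum]
    apply sum_congr rfl
    intro k _
    by_cases hle : ∀ i, add κ k i ≤ lam i
    swap
    · rw [PB_zero _ _ _ _ hle, Fg_zero _ _ _ hle]
      simp
    have hBk : ∀ i, add κ k i + r ≤ B := fun i => (Nat.add_le_add_right (hle i) r).trans (hB i)
    by_cases h1 : IL (add κ' j) (add κ k)
    · have h2 := ih (add κ' j) (add κ k) h1 hlat.2 hf
      have h3 := step_B hK h h1 hBk
      rw [if_pos h1.anti, Bc_eq]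
      calc _ = (Bco K κ κ' k j * G K κ κ') * PB K js (add κ' j) (add κ k) lam := by ring
        _ = (PB K js (add κ' j) (add κ k) lam * G K (add κ k) (add κ' j))
            * tco K κ k (some (ct κ' j)) := by rw [h3]; ring
        _ = _ := by rw [h2]; ring
    · rcases not_IL h hlat.2.anti h1 with ⟨hjk, hj⟩ | ⟨i, hij, hik, hi⟩
      · rw [bad_zero_B js (add κ' j) (add κ k) lam
          ⟨j, by rw [add_ne κ hjk, add_same]; omega⟩ hf.1]
        have h6 : tco K κ k (some (ct κ' j)) = 0 := by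
          rw [tco]
          apply prod_eq_zero (mem_erase.mpr ⟨hjk, mem_univ j⟩)
          have h5 : ct κ j - ct κ' j = 0 := by
            unfold ct
            omega
          rw [h5]
          simp
        rw [h6]
        simp
      · rw [Bc_eq, Bco, prod_eq_zero (i := i) (mem_erase.mpr ⟨hij, mem_univ i⟩)]
        · rw [bad_zero' js (add κ k) (add κ' j)
              ⟨i, k, hik, by rw [add_same, add_ne κ' hij]; omega⟩ hf]
          simp
        · have h5 : ct κ k + 1 - ct κ' i = 0 := by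
            unfold ct
            omega
          rw [h5]
          simp

/-- **the coefficient of the local lemma (L) equals `Spec.Fc` up to gauge** -/
theorem FL_Fc {B : ℕ} (hK : HK K B) {κ κ' lam : Spec.Sh} (hB : ∀ i, lam i + 6 ≤ B)
    (js : List (Fin 6)) (hκ : IL κ' κ) (hlat : Lat κ' js) (hf : IL (sh κ' js) lam)
    (hs : IL κ lam) :
    FL K js κ' κ lam * G K κ κ' = G K lam (sh κ' js) * Spec.Fc K κ κ' lam (sh κ' js) := by
  have hp : Spec.Fc K κ κ' lam (sh κ' js)
      = Fg K (none :: (contsW κ' js).map some) κ lam := by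
    rw [Spec.Fc, Fp_eq]
    apply Fg_perm hK hB _ hs
    exact List.Perm.cons _ ((contsW_perm js κ').map some).symm
  rw [hp, FL, Fg, sum_mul, mul_sum]
  apply sum_congr rfl
  intro k _
  by_cases hle : ∀ i, add κ k i ≤ lam i
  swap
  · rw [PB_zero _ _ _ _ hle, Fg_zero _ _ _ hle]
    simp
  have hBk : ∀ i, add κ k i + 6 ≤ B := fun i => (Nat.add_le_add_right (hle i) 6).trans (hB i)
  rw [if_pos (hs.between (le_add' κ k) hle).anti', gc_eq]
  by_cases h1 : IL κ' (add κ k)
  · have h2 := PB_eq hK hB js κ' (add κ k) h1 hlat hf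
    have h3 := step_g hK hκ h1 hBk
    calc _ = (gco K κ κ' k * G K κ κ') * PB K js κ' (add κ k) lam := by ring
      _ = (PB K js κ' (add κ k) lam * G K (add κ k) κ') * tco K κ k none := by rw [h3]; ring
      _ = _ := by rw [h2]; ring
  · -- the second inequality is violated
    have h4 : ∃ i l : Fin 6, i < l ∧ κ' i < add κ k l := by
      by_contra h5
      push Not at h5
      exact h1 ⟨fun i => (hκ.1 i).trans (le_add' κ k i), h5⟩
    obtain ⟨i, l, hil, h5⟩ := h4
    have hil' : (i : ℕ) < l := hil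
    let i' : Fin 6 := ⟨l - 1, by omega⟩
    have hi'l : i' < l := by show (l : ℕ) - 1 < l; omega
    have h6 : κ' i' ≤ κ' i := hκ.anti' (by show (i : ℕ) ≤ l - 1; omega)
    have h7 := hκ.2 i' l hi'l
    have hlk : l = k := by
      by_contra hlk
      rw [add_ne κ hlk] at h5
      omega
    subst hlk
    rw [add_same] at h5
    have hik : (i' : ℕ) + 1 = l := by show (l : ℕ) - 1 + 1 = l; omega
    rw [gco, prod_eq_zero (i := i') (mem_univ i'),
      bad_zero' js (add κ l) κ' ⟨i', l, hik, by rw [add_same]; omega⟩ hf]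
    · simp
    · have h8 : ct κ l + 1 - ct κ' i' = 0 := by
        unfold ct
        omega
      rw [h8]
      simp

end Crest.Agent.R187.SN.Gauge
private theorem rz_3a49fdac4b : type_of% @_root_.Crest.Agent.R187.SN.Gauge.PB.eq_def := @_root_.Crest.Agent.R187.SN.Gauge.PB.eq_def -- L18
private theorem rz_910aefe0bd : type_of% @_root_.Crest.Agent.R187.SN.Gauge.PB.eq_1 := @_root_.Crest.Agent.R187.SN.Gauge.PB.eq_1 -- L18
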