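import Crest.Agent.R187.SN.Insert
import Crest.Agent.R187.SN.Strip
import Crest.Agent.R187.SN.Gauge2
import Crest.Agent.R187.SN.Assemble
import Crest.Agent.R187.SN.Jucys

-- ▼ part R187/SN/Insert2
section

/-!
# Row 187, PLAN S, block (C1): column insertion preserves the range of `E`
-/

set_option autoImplicit false

namespace Crest.Agent.R187.SN.Ins

open Equiv Crest.Agent.R187.SN

variable {r : ℕ} {K : Type*} [Field K]

/-! ### cycles and block swaps -/

/-- `s_i s_{i+1} ⋯ s_{i+m-1}` -/
def cycP (N : ℕ) : ℕ → ℕ → Perm (Fin N)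
  | _, 0 => 1
  | i, m + 1 => sN N i * cycP N (i + 1) m

/-- block swap -/
def bsP (N m : ℕ) : ℕ → ℕ → Perm (Fin N)
  | _, 0 => 1
  | i, q + 1 => bsP N m (i + 1) q * cycP N i m

lemma sN_val (N k : ℕ) (hk : k + 1 < N) (x : Fin N) :
    (sN N k x : ℕ) = if (x : ℕ) = k then k + 1 else if (x : ℕ) = k + 1 then k else x := by
  unfold sN
  rw [dif_pos hk, swap_apply_def]
  simp only [Fin.ext_iff]
  split_ifs <;> rfl

lemma cycP_val (N : ℕ) (m : ℕ) : ∀ (i : ℕ) (_ : i + m < N) (x : Fin N),
    (cycP N i m x : ℕ) = if (x : ℕ) < i then (x : ℕ) else if (x : ℕ) < i + m then (x : ℕ) + 1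
      else if (x : ℕ) = i + m then i else x := by
  induction m with
  | zero =>
    intro i _ x
    simp only [cycP, Perm.one_apply]
    split_ifs <;> omega
  | succ m ih =>
    intro i h x
    simp only [cycP, Perm.mul_apply]
    rw [sN_val N i (by omega), ih (i + 1) (by omega) x]
    split_ifs <;> omega

lemma bsP_val (N m : ℕ) (hm : 0 < m) (q : ℕ) : ∀ (i : ℕ) (_ : i + m + q ≤ N) (x : Fin N),
    (bsP N m i q x : ℕ) = if (x : ℕ) < i then (x : ℕ) else if (x : ℕ) < i + m then (x : ℕ) + q
      else if (x : ℕ) < i + m + q then (x : ℕ) - m else x := by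
  induction q with
  | zero =>
    intro i _ x
    simp only [bsP, Perm.one_apply]
    split_ifs <;> omega
  | succ q ih =>
    intro i h x
    simp only [bsP, Perm.mul_apply]
    rw [ih (i + 1) (by omega), cycP_val N m i (by omega)]
    split_ifs <;> omega

lemma emb_cycP (q : ℕ) {M N : ℕ} (h : q + M ≤ N) (m : ℕ) : ∀ (i : ℕ) (_ : i + m < M),
    emb q h (cycP M i m) = cycP N (q + i) m := by
  induction m with
  | zero => intro i _; simp [cycP]
  | succ m ih =>
    intro i hi
    simp only [cycP]
    rw [map_mul, emb_sN q h i (by omega), ih (i + 1) (by omega)]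
    rfl

lemma emb_bsP (q : ℕ) {M N : ℕ} (h : q + M ≤ N) (m : ℕ) (q' : ℕ) :
    ∀ (i : ℕ) (_ : i + m + q' ≤ M), emb q h (bsP M m i q') = bsP N m (q + i) q' := by
  induction q' with
  | zero => intro i _; simp [bsP]
  | succ q' ih =>
    intro i hi
    simp only [bsP]
    rw [map_mul, ih (i + 1) (by omega), emb_cycP q h m i (by omega)]
    rfl

/-! ### splitting permutations -/

lemma emb_injective (q : ℕ) {m N : ℕ} (h : q + m ≤ N) : Function.Injective (emb q h) :=
  Perm.viaEmbeddingHom_injective _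

/-- a permutation preserving the first `q` letters is a product -/
lemma split {q m N : ℕ} (h : q + m = N) (g : Perm (Fin N))
    (hg : ∀ x : Fin N, (x : ℕ) < q → (g x : ℕ) < q) :
    ∃ (g1 : Perm (Fin q)) (g2 : Perm (Fin m)),
      g = emb 0 (show 0 + q ≤ N by omega) g1 * emb q (show q + m ≤ N by omega) g2 := by
  have h1 : ∀ i : Fin q, (g (embF 0 (show 0 + q ≤ N by omega) i) : ℕ) < q := fun i =>
    hg _ (by rw [embF_val]; omega)
  let f1 : Fin q → Fin q := fun i => ⟨g (embF 0 (show 0 + q ≤ N by omega) i), h1 i⟩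
  have f1i : Function.Injective f1 := by
    intro i j hij
    have h2 : g (embF 0 (show 0 + q ≤ N by omega) i)
        = g (embF 0 (show 0 + q ≤ N by omega) j) := by
      have h9 := congrArg Fin.val hij
      simp only [f1] at h9
      exact Fin.ext h9
    exact (embF 0 _).injective (g.injective h2)
  have f1b : Function.Bijective f1 := Finite.injective_iff_bijective.1 f1i
  -- the complement is preserved
  have hc : ∀ x : Fin N, q ≤ (x : ℕ) → q ≤ (g x : ℕ) := by
    intro x hx
    by_contra hcon
    push Not at hcon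
    obtain ⟨i, hi⟩ := f1b.2 ⟨g x, hcon⟩
    have h3 : g (embF 0 (show 0 + q ≤ N by omega) i) = g x := by
      have h9 := congrArg Fin.val hi
      simp only [f1] at h9
      exact Fin.ext h9
    have h4 := congrArg Fin.val (g.injective h3)
    rw [embF_val] at h4
    have := i.2
    omega
  have h2 : ∀ i : Fin m, (g (embF q (show q + m ≤ N by omega) i) : ℕ) - q < m := fun i => by
    have h5 := (g (embF q (show q + m ≤ N by omega) i)).2
    have h6 := i.2
    omega
  let f2 : Fin m → Fin m := fun i => ⟨g (embF q (show q + m ≤ N by omega) i) - q, h2 i⟩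
  have f2i : Function.Injective f2 := by
    intro i j hij
    have h5 := hc (embF q (show q + m ≤ N by omega) i) (by rw [embF_val]; omega)
    have h6 := hc (embF q (show q + m ≤ N by omega) j) (by rw [embF_val]; omega)
    have h7 : g (embF q (show q + m ≤ N by omega) i)
        = g (embF q (show q + m ≤ N by omega) j) := by
      ext
      have h8 := congrArg Fin.val hij
      simp only [f2] at h8
      omega
    exact (embF q _).injective (g.injective h7)
  have f2b : Function.Bijective f2 := Finite.injective_iff_bijective.1 f2i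
  refine ⟨Equiv.ofBijective f1 f1b, Equiv.ofBijective f2 f2b, ?_⟩
  ext x
  rw [Perm.mul_apply]
  rcases in_or_out q (show q + m ≤ N by omega) x with ⟨i, rfl⟩ | hx
  · rw [emb_in, emb_out 0 _ _ _ (by rw [embF_val]; omega), embF_val]
    have h5 := hc (embF q (show q + m ≤ N by omega) i) (by rw [embF_val]; omega)
    simp only [Equiv.ofBijective_apply, f2]
    omega
  · rw [emb_out q _ _ x hx]
    rcases in_or_out 0 (show 0 + q ≤ N by omega) x with ⟨i, rfl⟩ | hx2
    · rw [emb_in, embF_val]
      simp only [Equiv.ofBijective_apply, f1]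
      omega
    · omega

/-! ### sums -/

/-- the sum of all permutations -/
noncomputable def allS (K : Type*) [Field K] (m : ℕ) : MonoidAlgebra K (Perm (Fin m)) :=
  ∑ g : Perm (Fin m), MonoidAlgebra.single g 1

/-- coset sum of `S_{m+1} / S_m` on the first `m+1` letters -/
noncomputable def csum (K : Type*) [Field K] (N m : ℕ) : MonoidAlgebra K (Perm (Fin N)) :=
  ∑ k ∈ Finset.range (m + 1), MonoidAlgebra.single (cycP N k (m - k)) 1

lemma embA_csum (q : ℕ) {M N : ℕ} (h : q + M ≤ N) (m : ℕ) (hm : m < M) :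
    embA K q h (csum K M m)
      = ∑ k ∈ Finset.range (m + 1), MonoidAlgebra.single (cycP N (q + k) (m - k)) 1 := by
  unfold csum
  rw [map_sum]
  refine Finset.sum_congr rfl fun k hk => ?_
  rw [Finset.mem_range] at hk
  rw [embA_single, emb_cycP q h _ k (by omega)]

lemma csum_mul (m : ℕ) : csum K (m + 1) m * embA K 0 (show 0 + m ≤ m + 1 by omega) (allS K m)
    = allS K (m + 1) := by
  let F : Fin (m + 1) × Perm (Fin m) → Perm (Fin (m + 1)) := fun p =>
    cycP (m + 1) p.1 (m - p.1) * emb 0 (show 0 + m ≤ m + 1 by omega) p.2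
  have hF : Function.Bijective F := by
    rw [Fintype.bijective_iff_injective_and_card]
    constructor
    · rintro ⟨k, h⟩ ⟨k', h'⟩ hh
      have h1 : ∀ (k : Fin (m + 1)) (h : Perm (Fin m)), (F (k, h) (Fin.last m) : ℕ) = k := by
        intro k h
        simp only [F, Perm.mul_apply]
        rw [emb_out 0 _ _ _ (by right; simp), cycP_val _ _ _ (by omega)]
        have := k.2
        simp only [Fin.val_last]
        split_ifs <;> omega
      have h2 : k = k' := by
        ext
        rw [← h1 k h, ← h1 k' h', hh]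
      subst h2
      have h3 : emb 0 (show 0 + m ≤ m + 1 by omega) h = emb 0 (show 0 + m ≤ m + 1 by omega) h' :=
        mul_left_cancel hh
      rw [emb_injective _ _ h3]
    · rw [Fintype.card_prod, Fintype.card_fin, Fintype.card_perm, Fintype.card_perm,
        Fintype.card_fin, Fintype.card_fin, Nat.factorial_succ]
  unfold csum allS
  rw [map_sum, Finset.sum_mul_sum, Finset.sum_range (fun k => ∑ j, MonoidAlgebra.single
    (cycP (m + 1) k (m - k)) (1 : K) * embA K 0 (show 0 + m ≤ m + 1 by omega)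
      (MonoidAlgebra.single j 1)), ← Fintype.sum_prod_type' (fun (k : Fin (m + 1))
      (j : Perm (Fin m)) => MonoidAlgebra.single (cycP (m + 1) k (m - k)) (1 : K) *
        embA K 0 (show 0 + m ≤ m + 1 by omega) (MonoidAlgebra.single j 1))]
  refine Fintype.sum_bijective F hF _ _ fun p => ?_
  rw [embA_single, MonoidAlgebra.single_mul_single, mul_one]


/-- conjugation of embedded algebras -/
lemma conj_embA (q q' : ℕ) {m N : ℕ} (h : q + m ≤ N) (h' : q' + m ≤ N) (s : Perm (Fin N))
    (hs : ∀ i : Fin m, s (embF q h i) = embF q' h' i) (x : MonoidAlgebra K (Perm (Fin m))) :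
    MonoidAlgebra.single s (1 : K) * embA K q h x
      = embA K q' h' x * MonoidAlgebra.single s (1 : K) := by
  induction x using alg_induction with
  | h0 => simp
  | ha x y hx hy => rw [map_add, map_add, mul_add, add_mul, hx, hy]
  | hs g c =>
    rw [embA_single, embA_single, MonoidAlgebra.single_mul_single,
      MonoidAlgebra.single_mul_single, mul_one, one_mul]
    congr 1
    ext x
    rw [Perm.mul_apply, Perm.mul_apply]
    rcases in_or_out q h x with ⟨i, rfl⟩ | hx
    · rw [emb_in, hs, hs, emb_in]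
    · rw [emb_out q h g x hx]
      rcases in_or_out q' h' (s x) with ⟨i, hi⟩ | hx2
      · exfalso
        rw [← hs] at hi
        have := congrArg Fin.val (s.injective hi)
        rw [embF_val] at this
        omega
      · rw [emb_out q' h' g _ hx2]

/-! ### rows -/

section rows

open Link

/-- row-major numbering -/
abbrev eE (a b : ℕ) : Fin a × Fin b ≃ Fin (a * b) := finProdFinEquiv

lemma mem_row {a b : ℕ} {g : Perm (Fin (a * b))} :
    g ∈ rowSub (eE a b) ↔ ∀ x : Fin (a * b), (g x : ℕ) / b = (x : ℕ) / b := by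
  rw [mem_rowSub]
  refine forall_congr' fun x => ?_
  rw [Fin.ext_iff]
  rfl

lemma mem_col {a b : ℕ} {g : Perm (Fin (a * b))} :
    g ∈ colSub (eE a b) ↔ ∀ x : Fin (a * b), (g x : ℕ) % b = (x : ℕ) % b := by
  rw [mem_colSub]
  refine forall_congr' fun x => ?_
  rw [Fin.ext_iff]
  rfl

lemma hL (a b : ℕ) : 0 + a * b ≤ (a + 1) * b := by rw [Nat.add_one_mul]; omega

lemma hR (a b : ℕ) : a * b + b ≤ (a + 1) * b := by rw [Nat.add_one_mul]

/-- rows of the big grid -/
lemma ysum_row (a b : ℕ) (hb : 0 < b) :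
    ysum K (rowSub (eE (a + 1) b))
      = embA K 0 (hL a b) (ysum K (rowSub (eE a b))) * embA K (a * b) (hR a b) (allS K b) := by
  classical
  have e0 : (a + 1) * b = a * b + b := Nat.add_one_mul a b
  have key : ∀ j < b, (a * b + j) / b = a := fun j hj => by
    rw [Nat.mul_comm a b, Nat.mul_add_div hb, Nat.div_eq_of_lt hj, add_zero]
  unfold ysum allS
  rw [← Finset.sum_filter, ← Finset.sum_filter, map_sum, map_sum, Finset.sum_mul_sum,
    ← Finset.sum_product']
  symm
  refine Finset.sum_nbij (fun p : Perm (Fin (a * b)) × Perm (Fin b) =>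
    emb 0 (hL a b) p.1 * emb (a * b) (hR a b) p.2) ?_ ?_ ?_ ?_
  · rintro ⟨g, h⟩ hp
    rw [Finset.mem_product, Finset.mem_filter] at hp
    rw [Finset.mem_filter]
    refine ⟨Finset.mem_univ _, ?_⟩
    have hg := mem_row.1 hp.1.2
    rw [mem_row]
    intro x
    rw [Perm.mul_apply]
    rcases in_or_out (a * b) (hR a b) x with ⟨i, rfl⟩ | hx
    · rw [emb_in, emb_out 0 _ _ _ (by rw [embF_val]; omega), embF_val, embF_val]
      rw [key _ (h i).2, key _ i.2]
    · rw [emb_out (a * b) _ _ x hx]
      rcases in_or_out 0 (hL a b) x with ⟨i, rfl⟩ | hx2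
      · rw [emb_in, embF_val, embF_val, zero_add, zero_add]
        exact hg i
      · rw [emb_out 0 _ _ x hx2]
  · rintro ⟨g, h⟩ _ ⟨g', h'⟩ _ hh
    have hh' : emb 0 (hL a b) g * emb (a * b) (hR a b) h
        = emb 0 (hL a b) g' * emb (a * b) (hR a b) h' := hh
    have h1 : ∀ (g : Perm (Fin (a * b))) (h : Perm (Fin b)) (i : Fin b),
        ((emb 0 (hL a b) g * emb (a * b) (hR a b) h) (embF (a * b) (hR a b) i) : ℕ)
          = a * b + h i := by
      intro g h i
      rw [Perm.mul_apply, emb_in, emb_out 0 _ _ _ (by rw [embF_val]; omega), embF_val]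
    have h2 : h = h' := by
      ext i
      have h3 := h1 g h i
      rw [hh', h1 g' h' i] at h3
      omega
    subst h2
    rw [Prod.mk.injEq]
    exact ⟨emb_injective _ _ (mul_right_cancel hh'), rfl⟩
  · intro g hg
    rw [Finset.mem_coe, Finset.mem_filter, mem_row] at hg
    obtain ⟨g1, g2, h12⟩ := split (q := a * b) (m := b) e0.symm g (by
      intro x hx
      have h1 := hg.2 x
      have h2 : (x : ℕ) / b < a := (Nat.div_lt_iff_lt_mul hb).2 hx
      rw [← h1] at h2
      exact (Nat.div_lt_iff_lt_mul hb).1 h2)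
    refine ⟨(g1, g2), ?_, h12.symm⟩
    rw [Finset.mem_coe, Finset.mem_product, Finset.mem_filter]
    refine ⟨⟨Finset.mem_univ _, ?_⟩, Finset.mem_univ _⟩
    rw [mem_row]
    intro i
    have h1 := hg.2 (embF 0 (hL a b) i)
    rw [h12, Perm.mul_apply, emb_out (a * b) _ _ _ (by
      have := i.2
      rw [embF_val]; omega), emb_in, embF_val, embF_val, zero_add, zero_add] at h1
    exact h1
  · rintro ⟨g, h⟩ _
    rw [embA_single, embA_single, MonoidAlgebra.single_mul_single, mul_one]

lemma hR' (a b : ℕ) : a * b + (b + 1 + a) ≤ (a + 1) * (b + 1) := by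
  have : (a + 1) * (b + 1) = a * b + (b + 1 + a) := by ring
  omega

/-- the local operator: the first new letter joins the last row (coset sum), the other `a` new
letters move in front of the block of `b+1` letters -/
noncomputable def loc (K : Type*) [Field K] (a b : ℕ) :
    MonoidAlgebra K (Perm (Fin (b + 1 + a))) :=
  MonoidAlgebra.single (bsP (b + 1 + a) (b + 1) 0 a) 1 * csum K (b + 1 + a) b

/-- column insertion in the group algebra -/
noncomputable def G (K : Type*) [Field K] :
    (a b : ℕ) → MonoidAlgebra K (Perm (Fin (a * (b + 1))))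
  | 0, _ => 1
  | a + 1, b => embA K 0 (hL a (b + 1)) (G K a b) * embA K (a * b) (hR' a b) (loc K a b)

/-- distribution of the new column -/
noncomputable def dist : (a b : ℕ) → Perm (Fin (a * (b + 1)))
  | 0, _ => 1
  | a + 1, b => emb 0 (hL a (b + 1)) (dist a b) *
      emb (a * b) (hR' a b) (bsP (b + 1 + a) (b + 1) 0 a)

lemma hM (a b : ℕ) : 0 + a * b ≤ a * (b + 1) := by
  have : a * (b + 1) = a * b + a := by ring
  omega


lemma G_row (b : ℕ) (hb : 0 < b) : ∀ a : ℕ,
    G K a b * embA K 0 (hM a b) (ysum K (rowSub (eE a b)))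
      = ysum K (rowSub (eE a (b + 1))) * MonoidAlgebra.single (dist a b) 1
  | 0 => by
    have h1 : ∀ (m : ℕ), IsEmpty (Fin (0 * m)) := fun m => by
      rw [Nat.zero_mul]; infer_instance
    have h2 := h1 b
    have h3 := h1 (b + 1)
    have h4 : ∀ (m : ℕ) [IsEmpty (Fin (0 * m))], ysum K (rowSub (eE 0 m)) = 1 := by
      intro m _
      have h5 : ∀ g : Perm (Fin (0 * m)), g = 1 := fun g => Subsingleton.elim _ _
      unfold ysum
      rw [Fintype.sum_eq_single (1 : Perm (Fin (0 * m))) (fun g hg => absurd (h5 g) hg),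
        if_pos (Subgroup.one_mem _)]
      rfl
    rw [h4 b, h4 (b + 1), map_one]
    rfl
  | a + 1 => by
    have ih := G_row b hb a
    rw [ysum_row a b hb, ysum_row a (b + 1) (by omega), map_mul, embA_embA, embA_embA]
    -- block of the last row, inside the last `b+1+a` letters
    have e1 : embA K (0 + a * b) (show 0 + a * b + b ≤ (a + 1) * (b + 1) by
          have := hR' a b; omega) (allS K b)
        = embA K (a * b) (hR' a b) (embA K 0 (show 0 + b ≤ b + 1 + a by omega) (allS K b)) := by
      rw [embA_embA]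
      congr 1; simp
    have e2 : csum K (b + 1 + a) b * embA K 0 (show 0 + b ≤ b + 1 + a by omega) (allS K b)
        = embA K 0 (show 0 + (b + 1) ≤ b + 1 + a by omega) (allS K (b + 1)) := by
      have h1 : csum K (b + 1 + a) b
          = embA K 0 (show 0 + (b + 1) ≤ b + 1 + a by omega) (csum K (b + 1) b) := by
        rw [embA_csum 0 _ b (by omega)]
        unfold csum
        simp
      have h2 : embA K 0 (show 0 + b ≤ b + 1 + a by omega) (allS K b)
          = embA K 0 (show 0 + (b + 1) ≤ b + 1 + a by omega)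
            (embA K 0 (show 0 + b ≤ b + 1 by omega) (allS K b)) := by
        rw [embA_embA]
      rw [h1, h2, ← map_mul, csum_mul]
    have e3 : MonoidAlgebra.single (bsP (b + 1 + a) (b + 1) 0 a) (1 : K) *
        embA K 0 (show 0 + (b + 1) ≤ b + 1 + a by omega) (allS K (b + 1))
        = embA K a (show a + (b + 1) ≤ b + 1 + a by omega) (allS K (b + 1)) *
          MonoidAlgebra.single (bsP (b + 1 + a) (b + 1) 0 a) (1 : K) := by
      apply conj_embA
      intro i
      ext
      have := i.2
      rw [bsP_val _ _ (by omega) _ _ (by omega), embF_val, embF_val]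
      split_ifs <;> omega
    have e4 : loc K a b * embA K 0 (show 0 + b ≤ b + 1 + a by omega) (allS K b)
        = embA K a (show a + (b + 1) ≤ b + 1 + a by omega) (allS K (b + 1)) *
          MonoidAlgebra.single (bsP (b + 1 + a) (b + 1) 0 a) (1 : K) := by
      unfold loc
      rw [mul_assoc, e2, e3]
    have e5 : embA K (0 + 0) (show 0 + 0 + a * b ≤ (a + 1) * (b + 1) by
          have := hR' a b; omega) (ysum K (rowSub (eE a b)))
        = embA K 0 (hL a (b + 1)) (embA K 0 (hM a b) (ysum K (rowSub (eE a b)))) := by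
      rw [embA_embA]
    have e6 := embA_comm (K := K) 0 (show 0 + a * b ≤ (a + 1) * (b + 1) by
          have := hR' a b; omega) (a * b) (hR' a b) (by omega) (ysum K (rowSub (eE a b)))
          (loc K a b)
    have e7 : embA K (a * b) (hR' a b) (embA K a (show a + (b + 1) ≤ b + 1 + a by omega)
        (allS K (b + 1))) = embA K (a * (b + 1)) (hR a (b + 1)) (allS K (b + 1)) := by
      rw [embA_embA]
      congr 1
    have e8 := embA_comm (K := K) 0 (hL a (b + 1)) (a * (b + 1)) (hR a (b + 1)) (by omega)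
      (MonoidAlgebra.single (dist a b) (1 : K)) (allS K (b + 1))
    rw [e1]
    show embA K 0 (hL a (b + 1)) (G K a b) * embA K (a * b) (hR' a b) (loc K a b) *
      (embA K (0 + 0) _ (ysum K (rowSub (eE a b))) * _) = _
    calc embA K 0 (hL a (b + 1)) (G K a b) * embA K (a * b) (hR' a b) (loc K a b) *
        (embA K (0 + 0) (show 0 + 0 + a * b ≤ (a + 1) * (b + 1) by
          have := hR' a b; omega) (ysum K (rowSub (eE a b))) *
          embA K (a * b) (hR' a b) (embA K 0 (show 0 + b ≤ b + 1 + a by omega) (allS K b)))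
        = embA K 0 (hL a (b + 1)) (G K a b) * (embA K (a * b) (hR' a b) (loc K a b) *
        embA K 0 (show 0 + a * b ≤ (a + 1) * (b + 1) by
          have := hR' a b; omega) (ysum K (rowSub (eE a b)))) *
          embA K (a * b) (hR' a b) (embA K 0 (show 0 + b ≤ b + 1 + a by omega) (allS K b)) := by
          simp only [mul_assoc]
      _ = embA K 0 (hL a (b + 1)) (G K a b) * embA K 0 (hL a (b + 1))
            (embA K 0 (hM a b) (ysum K (rowSub (eE a b)))) *
          (embA K (a * b) (hR' a b) (loc K a b) *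
          embA K (a * b) (hR' a b) (embA K 0 (show 0 + b ≤ b + 1 + a by omega) (allS K b))) := by
          rw [← e6, ← e5]
          simp only [mul_assoc]
      _ = embA K 0 (hL a (b + 1)) (G K a b * embA K 0 (hM a b) (ysum K (rowSub (eE a b)))) *
          embA K (a * b) (hR' a b) (loc K a b *
            embA K 0 (show 0 + b ≤ b + 1 + a by omega) (allS K b)) := by
          rw [map_mul, map_mul]
      _ = (embA K 0 (hL a (b + 1)) (ysum K (rowSub (eE a (b + 1)))) *
            embA K 0 (hL a (b + 1)) (MonoidAlgebra.single (dist a b) 1)) *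
          (embA K (a * (b + 1)) (hR a (b + 1)) (allS K (b + 1)) *
            embA K (a * b) (hR' a b)
              (MonoidAlgebra.single (bsP (b + 1 + a) (b + 1) 0 a) (1 : K))) := by
          rw [ih, e4, map_mul, map_mul, e7]
      _ = embA K 0 (hL a (b + 1)) (ysum K (rowSub (eE a (b + 1)))) *
            (embA K 0 (hL a (b + 1)) (MonoidAlgebra.single (dist a b) 1) *
          embA K (a * (b + 1)) (hR a (b + 1)) (allS K (b + 1))) *
            embA K (a * b) (hR' a b)
              (MonoidAlgebra.single (bsP (b + 1 + a) (b + 1) 0 a) (1 : K)) := by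
          simp only [mul_assoc]
      _ = embA K 0 (hL a (b + 1)) (ysum K (rowSub (eE a (b + 1)))) *
            embA K (a * (b + 1)) (hR a (b + 1)) (allS K (b + 1)) *
            MonoidAlgebra.single (dist (a + 1) b) 1 := by
          rw [e8, embA_single, embA_single]
          simp only [mul_assoc]
          rw [MonoidAlgebra.single_mul_single, mul_one]
          rfl

end rows

end Crest.Agent.R187.SN.Ins
private theorem rz_f45f6555ca : type_of% @_root_.Crest.Agent.R187.SN.Ins.G.eq_def := @_root_.Crest.Agent.R187.SN.Ins.G.eq_def -- L339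
private theorem rz_66293af5c1 : type_of% @_root_.Crest.Agent.R187.SN.Ins.G.eq_1 := @_root_.Crest.Agent.R187.SN.Ins.G.eq_1 -- L339
private theorem rz_5fe1e1486a : type_of% @_root_.Crest.Agent.R187.SN.Ins.bsP.eq_def := @_root_.Crest.Agent.R187.SN.Ins.bsP.eq_def -- L23
private theorem rz_675ed0a411 : type_of% @_root_.Crest.Agent.R187.SN.Ins.bsP.eq_1 := @_root_.Crest.Agent.R187.SN.Ins.bsP.eq_1 -- L23
private theorem rz_bb94301df6 : type_of% @_root_.Crest.Agent.R187.SN.Ins.cycP.eq_def := @_root_.Crest.Agent.R187.SN.Ins.cycP.eq_def -- L18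
private theorem rz_1b1e7e8386 : type_of% @_root_.Crest.Agent.R187.SN.Ins.cycP.eq_1 := @_root_.Crest.Agent.R187.SN.Ins.cycP.eq_1 -- L18
private theorem rz_467fd581bb : type_of% @_root_.Crest.Agent.R187.SN.Ins.dist.eq_def := @_root_.Crest.Agent.R187.SN.Ins.dist.eq_def -- L345
private theorem rz_ebb98185f0 : type_of% @_root_.Crest.Agent.R187.SN.Ins.dist.eq_1 := @_root_.Crest.Agent.R187.SN.Ins.dist.eq_1 -- L345
end

-- ▼ part R187/SN/Insert3
section

/-!
# Row 187, PLAN S, block (C1): column insertion preserves the range of `E` (conclusion)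
-/

set_option autoImplicit false

namespace Crest.Agent.R187.SN.Ins

open Equiv Crest.Agent.R187.SN Link

variable {r : ℕ} {K : Type*} [Field K]

/-! ### columns -/

lemma dist_col (b : ℕ) : ∀ (a : ℕ) (x : Fin (a * (b + 1))),
    (dist a b x : ℕ) % (b + 1) = if (x : ℕ) < a * b then (x : ℕ) % b else b
  | 0, x => by
    have := x.2
    simp at this
  | a + 1, x => by
    have ih := dist_col b a
    have e0 : a * (b + 1) = a * b + a := by ring
    have e1 : (a + 1) * b = a * b + b := by ring
    rw [dist, Perm.mul_apply]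
    rcases in_or_out (a * b) (hR' a b) x with ⟨i, rfl⟩ | hx
    · rw [emb_in]
      by_cases hi : (i : ℕ) < b + 1
      · rw [emb_out 0 (hL a (b + 1)) _ _ (by
          right
          rw [embF_val, bsP_val _ _ (by omega) _ _ (by omega)]
          split_ifs <;> omega), embF_val, embF_val, bsP_val _ _ (by omega) _ _ (by omega),
          if_neg (by omega), if_pos (by omega)]
        have e2 : a * b + (i + a) = (b + 1) * a + i := by ring
        rw [e2, Nat.mul_add_mod, Nat.mod_eq_of_lt hi]
        by_cases hi2 : (i : ℕ) < b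
        · rw [if_pos (by omega), Nat.mul_comm a b, Nat.mul_add_mod, Nat.mod_eq_of_lt hi2]
        · rw [if_neg (by omega)]
          omega
      · have hi3 := i.2
        have h1 : (embF (a * b) (hR' a b) (bsP (b + 1 + a) (b + 1) 0 a i) : ℕ)
            = a * b + (i - (b + 1)) := by
          rw [embF_val, bsP_val _ _ (by omega) _ _ (by omega), if_neg (by omega),
            if_neg (by omega), if_pos (by omega)]
        rcases in_or_out 0 (hL a (b + 1)) (embF (a * b) (hR' a b)
          (bsP (b + 1 + a) (b + 1) 0 a i)) with ⟨j, hj⟩ | hout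
        · have h2 := congrArg Fin.val hj
          rw [h1, embF_val] at h2
          rw [hj, emb_in, embF_val, embF_val, zero_add, ih j, if_neg (by omega),
            if_neg (by omega)]
        · rw [h1] at hout
          omega
    · rw [emb_out (a * b) _ _ x hx]
      have hx3 := x.2
      have hx4 := hR' a b
      have e5 : (a + 1) * (b + 1) = a * b + (b + 1 + a) := by ring
      rcases in_or_out 0 (hL a (b + 1)) x with ⟨j, rfl⟩ | hout
      · rw [embF_val] at hx hx3
        rw [emb_in, embF_val, embF_val, zero_add, zero_add, ih j, if_pos (by omega),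
          if_pos (by omega)]
      · omega

/-! ### projections and strips -/

/-- initial slice -/
def ini {κ : Fin r → ℕ} {N : ℕ} (m : ℕ) (y : List (Fin r)) (h : m + y.length = N) :
    V K κ N →ₗ[K] V K κ m :=
  mid m [] y (by simpa using h)

lemma ini_coe {κ : Fin r → ℕ} {N : ℕ} (m : ℕ) (y : List (Fin r)) (h : m + y.length = N)
    (f : V K κ N) (u : List (Fin r)) :
    ((ini m y h f : V K κ m) : List (Fin r) → K) u = (f : List (Fin r) → K) (u ++ y) := rfl

lemma ini_rh {B : ℕ} (hK : HK K B) {κ : Fin r → ℕ} {N : ℕ} (hB : Bd B κ N) (m : ℕ)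
    (y : List (Fin r)) (h : m + y.length = N) (h' : 0 + m ≤ N)
    (hB' : Bd B κ m) (g : Perm (Fin m)) (f : V K κ N) :
    ini m y h (rh hK hB (emb 0 h' g) f) = rh hK hB' g (ini m y h f) :=
  mid_rh hK hB m [] y (by simpa using h) h' hB' g f


/-- projection to a final shape -/
def Pj {κ0 : Fin r → ℕ} {N : ℕ} (τ : Fin r → ℕ) : V K κ0 N →ₗ[K] V K κ0 N where
  toFun x := ⟨fun w => if sh κ0 w = τ then (x : List (Fin r) → K) w else 0, by
    intro w hw
    show (if sh κ0 w = τ then (x : List (Fin r) → K) w else 0) = 0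
    rw [x.2 w hw, ite_self]⟩
  map_add' x y := by
    apply Subtype.ext
    funext w
    show (if sh κ0 w = τ then ((x : List (Fin r) → K) w + (y : List (Fin r) → K) w) else 0)
      = (if sh κ0 w = τ then (x : List (Fin r) → K) w else 0)
        + (if sh κ0 w = τ then (y : List (Fin r) → K) w else 0)
    split_ifs
    · rfl
    · rw [add_zero]
  map_smul' c x := by
    apply Subtype.ext
    funext w
    show (if sh κ0 w = τ then (c * (x : List (Fin r) → K) w) else 0)
      = c * (if sh κ0 w = τ then (x : List (Fin r) → K) w else 0)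
    split_ifs
    · rfl
    · rw [mul_zero]

lemma Pj_coe {κ0 : Fin r → ℕ} {N : ℕ} (τ : Fin r → ℕ) (x : V K κ0 N) (w : List (Fin r)) :
    (Pj τ x : List (Fin r) → K) w = if sh κ0 w = τ then (x : List (Fin r) → K) w else 0 := rfl

lemma Pj_rh {B : ℕ} (hK : HK K B) {κ : Fin r → ℕ} {N : ℕ} (hB : Bd B κ N) (τ : Fin r → ℕ)
    (g : Perm (Fin N)) (f : V K κ N) : Pj τ (rh hK hB g f) = rh hK hB g (Pj τ f) := by
  induction g using gen_induction generalizing f with
  | h1 => simp
  | hs k g hk ih =>
    rw [map_mul, Module.End.mul_apply, Module.End.mul_apply, rh_s hK hB k hk, ← ih]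
    apply Subtype.ext
    funext w
    rw [Pj_coe, TV_coe, TV_coe, T_apply, T_apply, Pj_coe, Pj_coe, sh_sw]
    split_ifs
    · rfl
    · rw [mul_zero, mul_zero, add_zero]


/-- append a strip -/
def Z (N1 N : ℕ) (κ τ : Fin r → ℕ) : V K (0 : Fin r → ℕ) N1 →ₗ[K] V K (0 : Fin r → ℕ) N where
  toFun x := ⟨fun w => if w.length = N ∧ sh 0 (w.take N1) = κ then
      (x : List (Fin r) → K) (w.take N1) * str K κ τ (w.drop N1) else 0, by
    intro w hw
    show (if w.length = N ∧ sh 0 (w.take N1) = κ then
      (x : List (Fin r) → K) (w.take N1) * str K κ τ (w.drop N1) else 0) = 0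
    by_cases h1 : w.length = N ∧ sh 0 (w.take N1) = κ
    · rw [if_pos h1]
      by_cases h2 : (x : List (Fin r) → K) (w.take N1) = 0
      · rw [h2, zero_mul]
      · have h3 : Lat 0 (w.take N1) := by
          by_contra hcon
          exact h2 (x.2 _ (fun h => hcon h.1))
        rw [str_zero, mul_zero]
        rintro ⟨h4, h5⟩
        apply hw
        refine ⟨?_, h1.1⟩
        have h6 := (lat_append 0 (w.take N1) (w.drop N1)).2 ⟨h3, by
          rw [h1.2]
          exact h4.lat h5⟩
        rwa [List.take_append_drop] at h6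
    · exact if_neg h1⟩
  map_add' x y := by
    apply Subtype.ext
    funext w
    show (if w.length = N ∧ sh 0 (w.take N1) = κ then
      ((x : List (Fin r) → K) (w.take N1) + (y : List (Fin r) → K) (w.take N1)) *
        str K κ τ (w.drop N1) else 0)
      = (if w.length = N ∧ sh 0 (w.take N1) = κ then
      (x : List (Fin r) → K) (w.take N1) * str K κ τ (w.drop N1) else 0) +
      (if w.length = N ∧ sh 0 (w.take N1) = κ then
      (y : List (Fin r) → K) (w.take N1) * str K κ τ (w.drop N1) else 0)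
    split_ifs
    · rw [add_mul]
    · rw [add_zero]
  map_smul' c x := by
    apply Subtype.ext
    funext w
    show (if w.length = N ∧ sh 0 (w.take N1) = κ then
      (c * (x : List (Fin r) → K) (w.take N1)) * str K κ τ (w.drop N1) else 0)
      = c * (if w.length = N ∧ sh 0 (w.take N1) = κ then
      (x : List (Fin r) → K) (w.take N1) * str K κ τ (w.drop N1) else 0)
    split_ifs
    · rw [mul_assoc]
    · rw [mul_zero]

lemma Z_coe (N1 N : ℕ) (κ τ : Fin r → ℕ) (x : V K (0 : Fin r → ℕ) N1) (w : List (Fin r)) :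
    (Z N1 N κ τ x : List (Fin r) → K) w = if w.length = N ∧ sh 0 (w.take N1) = κ then
      (x : List (Fin r) → K) (w.take N1) * str K κ τ (w.drop N1) else 0 := rfl

lemma Z_append (N1 N : ℕ) (κ τ : Fin r → ℕ) (x : V K (0 : Fin r → ℕ) N1) (u y : List (Fin r))
    (hu : u.length = N1) (huy : u.length + y.length = N) :
    (Z N1 N κ τ x : List (Fin r) → K) (u ++ y)
      = if sh 0 u = κ then (x : List (Fin r) → K) u * str K κ τ y else 0 := by
  rw [Z_coe, List.length_append, List.take_append_of_le_length hu.ge,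
    List.drop_append_of_le_length hu.ge, List.take_of_length_le hu.le,
    List.drop_of_length_le hu.le, List.nil_append]
  simp only [huy, true_and]

lemma Z_left {B : ℕ} (hK : HK K B) {N1 N : ℕ} (hB1 : Bd B (0 : Fin r → ℕ) N1)
    (hB : Bd B (0 : Fin r → ℕ) N) (h : 0 + N1 ≤ N) (κ τ : Fin r → ℕ) (g : Perm (Fin N1))
    (x : V K (0 : Fin r → ℕ) N1) :
    rh hK hB (emb 0 h g) (Z N1 N κ τ x) = Z N1 N κ τ (rh hK hB1 g x) := by
  apply Subtype.ext
  funext w
  by_cases hw : w.length = N
  swap
  · rw [(rh hK hB (emb 0 h g) (Z N1 N κ τ x)).2 w (fun h => hw h.2),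
      (Z N1 N κ τ (rh hK hB1 g x)).2 w (fun h => hw h.2)]
  obtain ⟨u, y, rfl, hu⟩ : ∃ u y : List (Fin r), w = u ++ y ∧ u.length = N1 :=
    ⟨w.take N1, w.drop N1, (List.take_append_drop _ _).symm, by rw [List.length_take]; omega⟩
  rw [List.length_append] at hw
  have hlen : N1 + y.length = N := by omega
  have h1 := ini_rh hK hB N1 y hlen h hB1 g (Z N1 N κ τ x)
  have h2 : ini N1 y hlen (Z N1 N κ τ x) = str K κ τ y • Pj κ x := by
    apply Subtype.ext
    funext u'
    by_cases hu' : u'.length = N1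
    · rw [ini_coe, Z_append _ _ _ _ _ _ _ hu' (by omega)]
      show _ = str K κ τ y * (if sh 0 u' = κ then (x : List (Fin r) → K) u' else 0)
      split_ifs
      · rw [mul_comm]
      · rw [mul_zero]
    · rw [(ini N1 y hlen (Z N1 N κ τ x)).2 u' (fun h => hu' h.2)]
      exact ((str K κ τ y • Pj κ x).2 u' (fun h => hu' h.2)).symm
  rw [h2, map_smul, ← Pj_rh] at h1
  have h3 := congrArg (fun f : V K (0 : Fin r → ℕ) N1 => (f : List (Fin r) → K) u) h1
  have h4 : (rh hK hB (emb 0 h g) (Z N1 N κ τ x) : List (Fin r) → K) (u ++ y)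
      = str K κ τ y * (Pj κ (rh hK hB1 g x) : List (Fin r) → K) u := h3
  rw [h4, Z_append _ _ _ _ _ _ _ hu hw, Pj_coe]
  split_ifs
  · rw [mul_comm]
  · rw [mul_zero]

lemma Z_leftA {B : ℕ} (hK : HK K B) {N1 N : ℕ} (hB1 : Bd B (0 : Fin r → ℕ) N1)
    (hB : Bd B (0 : Fin r → ℕ) N) (h : 0 + N1 ≤ N) (κ τ : Fin r → ℕ)
    (g : MonoidAlgebra K (Perm (Fin N1))) (x : V K (0 : Fin r → ℕ) N1) :
    rhA hK hB (embA K 0 h g) (Z N1 N κ τ x) = Z N1 N κ τ (rhA hK hB1 g x) := by
  induction g using alg_induction with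
  | h0 => simp
  | ha g g' hg hg' => rw [map_add, map_add, map_add, LinearMap.add_apply, LinearMap.add_apply,
      map_add, hg, hg']
  | hs g c => rw [embA_single, rhA_single, rhA_single, LinearMap.smul_apply,
      LinearMap.smul_apply, map_smul, Z_left hK hB1]

lemma Z_right {B : ℕ} (hK : HK K B) {N1 a N : ℕ} 
    (hB : Bd B (0 : Fin r → ℕ) N) (h : N1 + a ≤ N) (h' : N1 + a = N) (κ τ : Fin r → ℕ)
    (g : Perm (Fin a)) (x : V K (0 : Fin r → ℕ) N1) :
    rh hK hB (emb N1 h g) (Z N1 N κ τ x) = Z N1 N κ τ x := by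
  apply Subtype.ext
  funext w
  by_cases hw : w.length = N
  swap
  · rw [(rh hK hB (emb N1 h g) (Z N1 N κ τ x)).2 w (fun h => hw h.2),
      (Z N1 N κ τ x).2 w (fun h => hw h.2)]
  obtain ⟨u, y, rfl, hu⟩ : ∃ u y : List (Fin r), w = u ++ y ∧ u.length = N1 :=
    ⟨w.take N1, w.drop N1, (List.take_append_drop _ _).symm, by rw [List.length_take]; omega⟩
  rw [List.length_append] at hw
  have hlen : u.length + a + ([] : List (Fin r)).length = N := by
    simp only [List.length_nil]
    omega
  have hBu : Bd B (sh 0 u) a := Bd.mid hB (by omega)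
  subst hu
  have h1 := mid_rh hK hB a u [] hlen h hBu g (Z u.length N κ τ x)
  have h2 : rh hK hBu g (mid a u [] hlen (Z u.length N κ τ x))
      = mid a u [] hlen (Z u.length N κ τ x) := by
    apply rh_fixed
    intro i w
    rw [mid_coe, mid_coe, List.append_nil, List.append_nil, Z_coe, Z_coe, List.length_append,
      List.length_append, length_sw, List.take_left, List.take_left, List.drop_left,
      List.drop_left, str_sw]
  rw [h2] at h1
  have h3 := congrArg (fun f : V K (sh 0 u) a => (f : List (Fin r) → K) y) h1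
  have h4 : (rh hK hB (emb u.length h g) (Z u.length N κ τ x) : List (Fin r) → K)
      (u ++ (y ++ [])) = (Z u.length N κ τ x : List (Fin r) → K) (u ++ (y ++ [])) := h3
  rwa [List.append_nil] at h4

/-! ### the range of `E` -/

/-- `x` is the row symmetrisation of a column invariant vector -/
def InX {B : ℕ} (hK : HK K B) (a b : ℕ) (hB : Bd B (0 : Fin r → ℕ) (a * b))
    (x : V K (0 : Fin r → ℕ) (a * b)) : Prop :=
  ∃ y : V K (0 : Fin r → ℕ) (a * b), (∀ g ∈ colSub (eE a b), rh hK hB g y = y) ∧
    rhA hK hB (ysum K (rowSub (eE a b))) y = x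

lemma single_fix {B : ℕ} (hK : HK K B) {κ : Fin r → ℕ} {N : ℕ} (hB : Bd B κ N)
    (g : Perm (Fin N)) (f : V K κ N) :
    rhA hK hB (MonoidAlgebra.single g 1) f = rh hK hB g f := by
  rw [rhA_single, one_smul]

lemma row_zero (a : ℕ) : ysum K (rowSub (eE a 0)) = 1 := by
  have h0 : IsEmpty (Fin (a * 0)) := by rw [Nat.mul_zero]; infer_instance
  have h5 : ∀ g : Perm (Fin (a * 0)), g = 1 := fun g => Subsingleton.elim _ _
  unfold ysum
  rw [Fintype.sum_eq_single (1 : Perm (Fin (a * 0))) (fun g hg => absurd (h5 g) hg),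
    if_pos (Subgroup.one_mem _)]
  rfl

lemma row_one (a : ℕ) : ysum K (rowSub (eE a 1)) = 1 := by
  classical
  have h5 : ∀ g : Perm (Fin (a * 1)), g ∈ rowSub (eE a 1) → g = 1 := by
    intro g hg
    rw [mem_row] at hg
    ext x
    have := hg x
    rw [Nat.div_one, Nat.div_one] at this
    rw [this, Perm.one_apply]
  unfold ysum
  rw [Fintype.sum_eq_single (1 : Perm (Fin (a * 1))) (fun g hg => if_neg (fun h => hg (h5 g h))),
    if_pos (Subgroup.one_mem _)]
  rfl

lemma G_zero : ∀ a : ℕ, G K a 0 = MonoidAlgebra.single (dist a 0) 1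
  | 0 => rfl
  | a + 1 => by
    have h1 : csum K (0 + 1 + a) 0 = 1 := by
      unfold csum
      simp [cycP]
      rfl
    rw [G, dist, G_zero a, loc, h1, mul_one, embA_single, embA_single,
      MonoidAlgebra.single_mul_single, mul_one]

lemma G_row' (a b : ℕ) :
    G K a b * embA K 0 (hM a b) (ysum K (rowSub (eE a b)))
      = ysum K (rowSub (eE a (b + 1))) * MonoidAlgebra.single (dist a b) 1 := by
  rcases Nat.eq_zero_or_pos b with rfl | hb
  · rw [row_zero, row_one, map_one, mul_one, one_mul, G_zero]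
  · exact G_row b hb a

lemma hS (a b : ℕ) : a * b + a = a * (b + 1) := by ring

lemma bd_mono {B : ℕ} {κ : Fin r → ℕ} {m n : ℕ} (h : m ≤ n) (hB : Bd B κ n) : Bd B κ m := by
  intro a
  have := hB a
  omega

/-- the column insertion preserves the range -/
theorem InX.step {B : ℕ} (hK : HK K B) (a b : ℕ) (hB : Bd B (0 : Fin r → ℕ) (a * b))
    (hB' : Bd B (0 : Fin r → ℕ) (a * (b + 1))) (κ τ : Fin r → ℕ)
    {x : V K (0 : Fin r → ℕ) (a * b)} (hx : InX hK a b hB x) :
    InX hK a (b + 1) hB' (rhA hK hB' (G K a b) (Z (a * b) (a * (b + 1)) κ τ x)) := by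
  obtain ⟨y, hy, rfl⟩ := hx
  refine ⟨rh hK hB' (dist a b) (Z (a * b) (a * (b + 1)) κ τ y), ?_, ?_⟩
  · intro g hg
    -- conjugate by `dist`
    set g' : Perm (Fin (a * (b + 1))) := (dist a b)⁻¹ * g * dist a b with hg'
    have hcol : ∀ x : Fin (a * (b + 1)), (dist a b (g' x) : ℕ) % (b + 1)
        = (dist a b x : ℕ) % (b + 1) := by
      intro x
      have h1 : dist a b (g' x) = g (dist a b x) := by
        rw [hg', Perm.mul_apply, Perm.mul_apply, pai]
      rw [h1]
      exact mem_col.1 hg _
    have hlt : ∀ x : Fin (a * (b + 1)), (x : ℕ) < a * b → (g' x : ℕ) < a * b := by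
      intro x hx
      by_contra hcon
      have h1 := hcol x
      rw [dist_col, dist_col, if_neg hcon, if_pos hx] at h1
      have hb : 0 < b := by
        rcases Nat.eq_zero_or_pos b with rfl | hb
        · simp at hx
        · exact hb
      have := Nat.mod_lt (x : ℕ) hb
      omega
    obtain ⟨g1, g2, h12⟩ := split (hS a b) g' hlt
    have hg1 : g1 ∈ colSub (eE a b) := by
      rw [mem_col]
      intro i
      have h1 := hcol (embF 0 (hM a b) i)
      have h2 := hlt (embF 0 (hM a b) i) (by rw [embF_val, zero_add]; exact i.2)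
      rw [dist_col, dist_col, if_pos h2, if_pos (by rw [embF_val, zero_add]; exact i.2), h12,
        Perm.mul_apply, emb_out (a * b) _ _ _ (by
          left
          rw [embF_val, zero_add]; exact i.2), emb_in, embF_val, embF_val, zero_add,
        zero_add] at h1
      exact h1
    have h3 : rh hK hB' g' (Z (a * b) (a * (b + 1)) κ τ y) = Z (a * b) (a * (b + 1)) κ τ y := by
      rw [h12, map_mul, Module.End.mul_apply, Z_right hK hB' _ (hS a b), Z_left hK hB, hy g1 hg1]
    have h4 : g * dist a b = dist a b * g' := by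
      rw [hg']
      group
    rw [← Module.End.mul_apply, ← map_mul, h4, map_mul, Module.End.mul_apply, h3]
  · have h1 := congrArg (fun A => rhA hK hB' A (Z (a * b) (a * (b + 1)) κ τ y)) (G_row' a b (K := K))
    simp only [map_mul, Module.End.mul_apply] at h1
    rw [Z_leftA hK hB hB' (hM a b), single_fix] at h1
    exact h1.symm

/-- column sum on column-invariant vectors -/
lemma ysum_fixed {B : ℕ} (hK : HK K B) {κ : Fin r → ℕ} {N : ℕ} (hB : Bd B κ N)
    (H : Subgroup (Perm (Fin N))) (y : V K κ N) (hy : ∀ g ∈ H, rh hK hB g y = y) :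
    rhA hK hB (ysum K H) y = (Nat.card H : K) • y := by
  classical
  unfold ysum
  rw [← Finset.sum_filter, map_sum, LinearMap.sum_apply]
  rw [Finset.sum_congr rfl (g := fun _ => y) (fun g hg => by
    rw [Finset.mem_filter] at hg
    rw [single_fix, hy g hg.2])]
  rw [Finset.sum_const, Nat.card_eq_fintype_card, Fintype.card_subtype, Nat.cast_smul_eq_nsmul]

lemma card_col {X : Type*} [Fintype X] [DecidableEq X] {a b : ℕ} (e : Fin a × Fin b ≃ X) :
    Nat.card (colSub e) = a.factorial ^ b := by
  classical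
  have h1 := sum_col e (fun _ => (1 : Crest.Agent.R187.SA a a))
  rw [Finset.sum_const, Finset.sum_const, nsmul_eq_mul, nsmul_eq_mul, mul_one, mul_one,
    Nat.cast_inj, Finset.card_univ, Fintype.card_fun, Fintype.card_perm, Fintype.card_fin,
    Fintype.card_fin] at h1
  rw [Nat.card_eq_fintype_card, Fintype.card_subtype, h1]

/-- **membership in the range of `ρ(E)`** -/
theorem inX_iff {B : ℕ} (hK : HK K B) (a b : ℕ) (hB : Bd B (0 : Fin r → ℕ) (a * b))
    (ha : (a.factorial : K) ≠ 0) (x : V K (0 : Fin r → ℕ) (a * b)) :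
    InX hK a b hB x ↔ x ∈ LinearMap.range (rhA hK hB (E K (eE a b))) := by
  constructor
  · rintro ⟨y, hy, rfl⟩
    have h1 := ysum_fixed hK hB (colSub (eE a b)) y hy
    have h2 : (Nat.card (colSub (eE a b)) : K) ≠ 0 := by
      rw [card_col, Nat.cast_pow]
      exact pow_ne_zero _ ha
    refine ⟨(Nat.card (colSub (eE a b)) : K)⁻¹ • y, ?_⟩
    rw [E, map_mul, Module.End.mul_apply, map_smul, h1, smul_smul, inv_mul_cancel₀ h2, one_smul]
  · rintro ⟨z, rfl⟩
    refine ⟨rhA hK hB (ysum K (colSub (eE a b))) z, ?_, ?_⟩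
    · intro g hg
      rw [← single_fix, ← Module.End.mul_apply, ← map_mul, single_mul_ysum hg]
    · rw [E, map_mul, Module.End.mul_apply]


/-- the base case: no columns -/
theorem InX.base {B : ℕ} (hK : HK K B) (a : ℕ) (hB : Bd B (0 : Fin r → ℕ) (a * 0))
    (x : V K (0 : Fin r → ℕ) (a * 0)) : InX hK a 0 hB x := by
  refine ⟨x, ?_, ?_⟩
  · intro g hg
    have h0 : IsEmpty (Fin (a * 0)) := by rw [Nat.mul_zero]; infer_instance
    have h5 : g = 1 := Subsingleton.elim _ _
    rw [h5, map_one]
    rfl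
  · rw [row_zero, map_one]
    rfl

end Crest.Agent.R187.SN.Ins
end

-- ▼ part R187/SN/Insert4
section

/-!
# Row 187, PLAN S, block (C1): the operators in terms of `T κ i`
-/

set_option autoImplicit false

namespace Crest.Agent.R187.SN.Ins

open Equiv Crest.Agent.R187.SN Link Strip

variable {r : ℕ} {K : Type*} [Field K]

lemma rh_cycP {B : ℕ} (hK : HK K B) {κ : Fin r → ℕ} {N : ℕ} (hB : Bd B κ N) (m : ℕ) :
    ∀ (i : ℕ) (_ : i + m < N) (f : V K κ N),
    (rh hK hB (cycP N i m) f : List (Fin r) → K) = cyc κ i m (f : List (Fin r) → K) := by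
  induction m with
  | zero => intro i _ f; simp [cycP, cyc]
  | succ m ih =>
    intro i hi f
    rw [cycP, map_mul, Module.End.mul_apply, rh_s hK hB i (by omega), TV_coe,
      ih (i + 1) (by omega)]
    rfl

lemma rh_bsP {B : ℕ} (hK : HK K B) {κ : Fin r → ℕ} {N : ℕ} (hB : Bd B κ N) (m q : ℕ) :
    ∀ (i : ℕ) (_ : i + m + q ≤ N) (f : V K κ N),
    (rh hK hB (bsP N m i q) f : List (Fin r) → K) = bs κ i m q (f : List (Fin r) → K) := by
  induction q with
  | zero => intro i _ f; simp [bsP, bs]
  | succ q ih =>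
    intro i hi f
    rw [bsP, map_mul, Module.End.mul_apply, ih (i + 1) (by omega), rh_cycP hK hB m i (by omega)]
    rfl

lemma rhA_csum {B : ℕ} (hK : HK K B) {κ : Fin r → ℕ} {N : ℕ} (hB : Bd B κ N) (m M q : ℕ)
    (hm : m < M) (hM : q + M ≤ N) (f : V K κ N) :
    (rhA hK hB (embA K q hM (csum K M m)) f : List (Fin r) → K)
      = sy κ q m (f : List (Fin r) → K) := by
  rw [embA_csum q hM m hm, map_sum, LinearMap.sum_apply]
  funext w
  rw [sy_apply]
  rw [Submodule.coe_sum, Finset.sum_apply]
  refine Finset.sum_congr rfl fun k hk => ?_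
  rw [Finset.mem_range] at hk
  rw [single_fix, rh_cycP hK hB _ _ (by omega)]

lemma rhA_loc {B : ℕ} (hK : HK K B) {κ : Fin r → ℕ} {N : ℕ} (hB : Bd B κ N) (a b q : ℕ)
    (h : q + (b + 1 + a) ≤ N) (f : V K κ N) :
    (rhA hK hB (embA K q h (loc K a b)) f : List (Fin r) → K)
      = bs κ q (b + 1) a (sy κ q b (f : List (Fin r) → K)) := by
  rw [loc, map_mul, map_mul, Module.End.mul_apply, embA_single, single_fix,
    emb_bsP q h (b + 1) a 0 (by omega)]
  show (rh hK hB (bsP N (b + 1) q a) _ : List (Fin r) → K) = _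
  rw [rh_bsP hK hB (b + 1) a q (by omega), rhA_csum hK hB b _ q (by omega)]


/-- column insertion on functions, from `b` to `b + 1` columns -/
noncomputable def Pop (K : Type*) [Field K] (r b : ℕ) :
    ℕ → ((List (Fin r) → K) →ₗ[K] (List (Fin r) → K))
  | 0 => LinearMap.id
  | a + 1 => Pop K r b a ∘ₗ bs 0 (a * b) (b + 1) a ∘ₗ sy 0 (a * b) b

lemma rhA_G {B : ℕ} (hK : HK K B) (b : ℕ) : ∀ (a : ℕ) {N : ℕ}
    (hB : Bd B (0 : Fin r → ℕ) N) (h : 0 + a * (b + 1) ≤ N) (f : V K (0 : Fin r → ℕ) N),
    (rhA hK hB (embA K 0 h (G K a b)) f : List (Fin r) → K)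
      = Pop K r b a (f : List (Fin r) → K)
  | 0, N, hB, h, f => by
    rw [G, map_one, map_one]
    rfl
  | a + 1, N, hB, h, f => by
    have h1 : (a + 1) * (b + 1) = a * b + (b + 1 + a) := by ring
    have h2 : (a + 1) * (b + 1) = a * (b + 1) + (b + 1) := by ring
    have e1 : embA K (0 + 0) (show 0 + 0 + a * (b + 1) ≤ N by omega) (G K a b)
        = embA K 0 (show 0 + a * (b + 1) ≤ N by omega) (G K a b) := rfl
    have e2 : embA K (0 + a * b) (show 0 + a * b + (b + 1 + a) ≤ N by omega) (loc K a b)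
        = embA K (a * b) (show a * b + (b + 1 + a) ≤ N by omega) (loc K a b) := by
      congr 1
      simp
    rw [G, map_mul, map_mul, Module.End.mul_apply, embA_embA, embA_embA, e1, e2,
      rhA_G hK b a hB, rhA_loc]
    rfl

/-- **C1, in terms of the operators `T κ i`** -/
theorem pop_range {B : ℕ} (hK : HK K B) (a b : ℕ) (hB : Bd B (0 : Fin r → ℕ) (a * b))
    (hB' : Bd B (0 : Fin r → ℕ) (a * (b + 1))) (ha : (a.factorial : K) ≠ 0)
    (κ lam : Fin r → ℕ) (hz : Hz κ lam) (x : V K (0 : Fin r → ℕ) (a * b))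
    (hx : x ∈ LinearMap.range (rhA hK hB (E K (eE a b))))
    (hxκ : ∀ w, sh 0 w ≠ κ → (x : List (Fin r) → K) w = 0)
    (f : List (Fin r) → K)
    (hf1 : ∀ w, Lat 0 w → w.length = a * (b + 1) → sh 0 w = lam →
      f w = (x : List (Fin r) → K) (w.take (a * b)))
    (hf0 : ∀ w, ¬ (Lat 0 w ∧ w.length = a * (b + 1) ∧ sh 0 w = lam) → f w = 0) :
    ∃ h : Pop K r b a f ∈ V K (0 : Fin r → ℕ) (a * (b + 1)),
      (⟨Pop K r b a f, h⟩ : V K (0 : Fin r → ℕ) (a * (b + 1)))
        ∈ LinearMap.range (rhA hK hB' (E K (eE a (b + 1)))) := by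
  have h1 : f = (Z (a * b) (a * (b + 1)) κ lam x : V K (0 : Fin r → ℕ) (a * (b + 1))) := by
    funext w
    rw [Z_coe]
    by_cases hw : w.length = a * (b + 1)
    swap
    · rw [hf0 w (fun h => hw h.2.1), if_neg (fun h => hw h.1)]
    by_cases hs : sh 0 (w.take (a * b)) = κ
    swap
    · rw [if_neg (fun h => hs h.2)]
      by_cases hL : Lat 0 w ∧ w.length = a * (b + 1) ∧ sh 0 w = lam
      · rw [hf1 w hL.1 hL.2.1 hL.2.2, hxκ _ hs]
      · rw [hf0 w hL]
    rw [if_pos ⟨hw, hs⟩]
    by_cases hL : Lat 0 w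
    · have e1 : sh κ (w.drop (a * b)) = sh 0 w := by
        conv_rhs => rw [← List.take_append_drop (a * b) w, sh_append, hs]
      by_cases h2 : sh 0 w = lam
      · rw [hf1 w hL hw h2]
        unfold str
        rw [if_pos ⟨hz, e1.trans h2⟩, mul_one]
      · rw [hf0 w (fun h => h2 h.2.2), str_zero (fun h => h2 (e1.symm.trans h.2)), mul_zero]
    · rw [hf0 w (fun h => hL h.1)]
      by_cases h2 : (x : List (Fin r) → K) (w.take (a * b)) = 0
      · rw [h2, zero_mul]
      · have h3 : Lat 0 (w.take (a * b)) := by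
          by_contra hcon
          exact h2 (x.2 _ (fun h => hcon h.1))
        rw [str_zero, mul_zero]
        rintro ⟨h4, h5⟩
        apply hL
        have h6 := (lat_append 0 (w.take (a * b)) (w.drop (a * b))).2 ⟨h3, by
          rw [hs]
          exact h4.lat h5⟩
        rwa [List.take_append_drop] at h6
  have h2 := InX.step hK a b hB hB' κ lam ((inX_iff hK a b hB ha x).2 hx)
  rw [inX_iff hK a (b + 1) hB' ha] at h2
  have h3 : (rhA hK hB' (G K a b) (Z (a * b) (a * (b + 1)) κ lam x) : List (Fin r) → K)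
      = Pop K r b a f := by
    have h4 := rhA_G hK b a hB' (show 0 + a * (b + 1) ≤ a * (b + 1) by omega)
      (Z (a * b) (a * (b + 1)) κ lam x)
    have h5 : ∀ {N : ℕ} (x : MonoidAlgebra K (Perm (Fin N))) (h : 0 + N ≤ N),
        embA K 0 h x = x := by
      intro N x h
      induction x using alg_induction with
      | h0 => simp
      | ha x y hx hy => rw [map_add, hx, hy]
      | hs g c =>
        rw [embA_single]
        congr 1
        ext x
        rcases in_or_out 0 h x with ⟨i, rfl⟩ | hx
        · rw [emb_in, embF_val]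
          have : embF 0 h i = i := by
            ext
            rw [embF_val, zero_add]
          rw [this, zero_add]
        · have := x.2
          omega
    rw [h5] at h4
    rw [h4, h1]
  rw [← h3]
  exact ⟨(rhA hK hB' (G K a b) (Z (a * b) (a * (b + 1)) κ lam x)).2, h2⟩

end Crest.Agent.R187.SN.Ins
private theorem rz_34f52f5766 : type_of% @_root_.Crest.Agent.R187.SN.Ins.Pop.eq_def := @_root_.Crest.Agent.R187.SN.Ins.Pop.eq_def -- L88
private theorem rz_20c0570bb7 : type_of% @_root_.Crest.Agent.R187.SN.Ins.Pop.eq_1 := @_root_.Crest.Agent.R187.SN.Ins.Pop.eq_1 -- L88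
end

-- ▼ part R187/SN/IotaDef
section

/-!
# Row 187, PLAN S, block (C4): from pattern functions to vectors of the seminormal module
-/

set_option autoImplicit false

namespace Crest.Agent.R187.SN.Iota

open Crest.Agent.R187.SN Gauge

variable (K : Type*) [Field K]

open scoped Classical in
/-- pattern functions of level `a` (top shape `lam`) as functions on words of length `a * b` -/
noncomputable def iota : (a b : ℕ) → Spec.Sh → (List Spec.Sh → K) → (List (Fin 6) → K)
  | 0, _, lam, x => fun w => if w = [] ∧ lam = 0 then x [] else 0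
  | a + 1, b, lam, x => fun w =>
      if Lat 0 w ∧ w.length = (a + 1) * b ∧ sh 0 w = lam ∧
          Spec.HS (sh 0 (w.take (a * b))) lam b then
        Gauge.G K lam (sh 0 (w.take (a * b))) *
          iota a b (sh 0 (w.take (a * b)))
            (fun l => x (sh 0 (w.take (a * b)) :: l)) (w.take (a * b))
      else 0

open scoped Classical in
/-- append a strip: `n` old letters, `m` new letters, final shape `lam` -/
noncomputable def Zf (n m : ℕ) (lam : Spec.Sh) (f : List (Fin 6) → K) : List (Fin 6) → K :=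
  fun w => if Lat 0 w ∧ w.length = n + m ∧ sh 0 w = lam then f (w.take n) else 0

/-- supported on valid chains -/
def VC : (a b : ℕ) → Spec.Sh → (List Spec.Sh → K) → Prop
  | 0, _, lam, x => (lam ≠ 0 → x [] = 0) ∧ ∀ l, l ≠ [] → x l = 0
  | a + 1, b, lam, x => x [] = 0 ∧
      ∀ κ, VC a b κ (fun l => x (κ :: l)) ∧ (¬ Spec.HS κ lam b → ∀ l, x (κ :: l) = 0)

variable {K}

lemma iota_add (a b : ℕ) : ∀ (lam : Spec.Sh) (x y : List Spec.Sh → K),
    iota K a b lam (x + y) = iota K a b lam x + iota K a b lam y := by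
  induction a with
  | zero =>
    intro lam x y
    funext w
    simp only [iota, Pi.add_apply]
    split_ifs <;> simp
  | succ a ih =>
    intro lam x y
    funext w
    have h := congrFun (ih (sh 0 (w.take (a * b))) (fun l => x (sh 0 (w.take (a * b)) :: l))
      (fun l => y (sh 0 (w.take (a * b)) :: l))) (w.take (a * b))
    simp only [Pi.add_apply] at h
    simp only [iota, Pi.add_apply]
    split_ifs
    · rw [← mul_add, ← h]
      rfl
    · simp

lemma iota_smul (a b : ℕ) : ∀ (lam : Spec.Sh) (c : K) (x : List Spec.Sh → K),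
    iota K a b lam (c • x) = c • iota K a b lam x := by
  induction a with
  | zero =>
    intro lam c x
    funext w
    simp only [iota, Pi.smul_apply]
    split_ifs <;> simp
  | succ a ih =>
    intro lam c x
    funext w
    have h := congrFun (ih (sh 0 (w.take (a * b))) c
      (fun l => x (sh 0 (w.take (a * b)) :: l))) (w.take (a * b))
    simp only [Pi.smul_apply, smul_eq_mul] at h
    simp only [iota, Pi.smul_apply, smul_eq_mul]
    split_ifs
    · rw [mul_left_comm, ← h]
      rfl
    · simp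

/-- `iota` as a linear map -/
noncomputable def iotaL (a b : ℕ) (lam : Spec.Sh) :
    (List Spec.Sh → K) →ₗ[K] (List (Fin 6) → K) where
  toFun := iota K a b lam
  map_add' := iota_add a b lam
  map_smul' := iota_smul a b lam


lemma iota_zero (a b : ℕ) (lam : Spec.Sh) : iota K a b lam 0 = 0 :=
  (iotaL (K := K) a b lam).map_zero


/-- support -/
lemma iota_supp (a b : ℕ) (lam : Spec.Sh) (x : List Spec.Sh → K) (w : List (Fin 6))
    (h : iota K a b lam x w ≠ 0) : Lat 0 w ∧ w.length = a * b ∧ sh 0 w = lam := by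
  cases a with
  | zero =>
    simp only [iota] at h
    split_ifs at h with h1
    · obtain ⟨rfl, rfl⟩ := h1
      refine ⟨fun _ _ _ => le_rfl, by simp, rfl⟩
    · exact absurd rfl h
  | succ a =>
    simp only [iota] at h
    split_ifs at h with h1
    · exact ⟨h1.1, h1.2.1, h1.2.2.1⟩
    · exact absurd rfl h

lemma iota_mem (a b : ℕ) (lam : Spec.Sh) (x : List Spec.Sh → K) :
    iota K a b lam x ∈ V K (0 : Fin 6 → ℕ) (a * b) := by
  rw [mem_V]
  intro w hw
  by_contra h
  have := iota_supp a b lam x w h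
  exact hw ⟨this.1, this.2.1⟩

lemma iota_shape (a b : ℕ) (lam : Spec.Sh) (x : List Spec.Sh → K) (w : List (Fin 6))
    (h : sh 0 w ≠ lam) : iota K a b lam x w = 0 := by
  by_contra h1
  exact h (iota_supp a b lam x w h1).2.2

/-- value on a concatenation `old word ++ strip` -/
lemma iota_append (a b : ℕ) (lam : Spec.Sh) (x : List Spec.Sh → K) (w v : List (Fin 6))
    (hw : w.length = a * b) (hL : Lat 0 (w ++ v)) (hv : v.length = b) (hs : sh 0 (w ++ v) = lam)
    (hH : Spec.HS (sh 0 w) lam b) :
    iota K (a + 1) b lam x (w ++ v)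
      = Gauge.G K lam (sh 0 w) * iota K a b (sh 0 w) (fun l => x (sh 0 w :: l)) w := by
  have ht : (w ++ v).take (a * b) = w := by
    rw [← hw, List.take_left']
    rfl
  simp only [iota]
  rw [ht, if_pos ⟨hL, by rw [List.length_append, hw, hv]; ring, hs, hH⟩]

/-! ### valid chains -/

lemma VC.zero (a b : ℕ) : ∀ lam : Spec.Sh, VC K a b lam 0 := by
  induction a with
  | zero => intro lam; exact ⟨fun _ => rfl, fun _ _ => rfl⟩
  | succ a ih => intro lam; exact ⟨rfl, fun κ => ⟨ih κ, fun _ _ => rfl⟩⟩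

lemma VC.add (a b : ℕ) : ∀ (lam : Spec.Sh) (x y : List Spec.Sh → K), VC K a b lam x →
    VC K a b lam y → VC K a b lam (x + y) := by
  induction a with
  | zero =>
    intro lam x y hx hy
    refine ⟨fun h => ?_, fun l hl => ?_⟩
    · rw [Pi.add_apply, hx.1 h, hy.1 h, add_zero]
    · rw [Pi.add_apply, hx.2 l hl, hy.2 l hl, add_zero]
  | succ a ih =>
    intro lam x y hx hy
    refine ⟨?_, fun κ => ⟨ih κ _ _ (hx.2 κ).1 (hy.2 κ).1, fun h l => ?_⟩⟩
    · rw [Pi.add_apply, hx.1, hy.1, add_zero]
    · rw [Pi.add_apply, (hx.2 κ).2 h l, (hy.2 κ).2 h l, add_zero]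

lemma VC.smul (a b : ℕ) : ∀ (lam : Spec.Sh) (c : K) (x : List Spec.Sh → K), VC K a b lam x →
    VC K a b lam (c • x) := by
  induction a with
  | zero =>
    intro lam c x hx
    refine ⟨fun h => ?_, fun l hl => ?_⟩
    · rw [Pi.smul_apply, hx.1 h, smul_zero]
    · rw [Pi.smul_apply, hx.2 l hl, smul_zero]
  | succ a ih =>
    intro lam c x hx
    refine ⟨?_, fun κ => ⟨ih κ _ _ (hx.2 κ).1, fun h l => ?_⟩⟩
    · rw [Pi.smul_apply, hx.1, smul_zero]
    · rw [Pi.smul_apply, (hx.2 κ).2 h l, smul_zero]

/-- the submodule of functions supported on valid chains -/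
def VCs (a b : ℕ) (lam : Spec.Sh) : Submodule K (List Spec.Sh → K) where
  carrier := {x | VC K a b lam x}
  zero_mem' := VC.zero a b lam
  add_mem' {x y} hx hy := VC.add a b lam x y hx hy
  smul_mem' c x hx := VC.smul a b lam c x hx

lemma mem_VCs {a b : ℕ} {lam : Spec.Sh} {x : List Spec.Sh → K} :
    x ∈ VCs (K := K) a b lam ↔ VC K a b lam x := Iff.rfl

end Crest.Agent.R187.SN.Iota
private theorem rz_6f78c27f5a : type_of% @_root_.Crest.Agent.R187.SN.Iota.iota.eq_def := @_root_.Crest.Agent.R187.SN.Iota.iota.eq_def -- L18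
private theorem rz_0846066b88 : type_of% @_root_.Crest.Agent.R187.SN.Iota.iota.eq_1 := @_root_.Crest.Agent.R187.SN.Iota.iota.eq_1 -- L18
end

-- ▼ part R187/SN/IotaVC
section

/-!
# Row 187, PLAN S, block (C4): valid chains, `D ≤ VCs`, injectivity of `iota`
-/

set_option autoImplicit false

namespace Crest.Agent.R187.SN.Iota

open Crest.Agent.R187.SN Gauge

variable {K : Type*} [Field K]

lemma HS_zero {κ lam : Spec.Sh} (h : Spec.HS κ lam 0) : κ = lam := by
  funext i
  by_contra hne
  have hlt : κ i < lam i := lt_of_le_of_ne (h.1 i) hne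
  have h1 := Finset.sum_lt_sum (fun j _ => h.1 j) ⟨i, Finset.mem_univ i, hlt⟩
  rw [h.2.2] at h1
  omega

lemma HS_zero' (κ : Spec.Sh) (h : Antitone κ) : Spec.HS κ κ 0 :=
  ⟨fun _ => le_rfl, fun _ _ hij => h hij.le, rfl⟩

lemma HS_Hz {κ lam : Spec.Sh} {m : ℕ} (h : Spec.HS κ lam m) : Ins.Hz κ lam := ⟨h.1, h.2.1⟩

lemma HS_antitone {κ lam : Spec.Sh} {m : ℕ} (h : Spec.HS κ lam m) : Antitone κ :=
  (HS_Hz h).anti

/-- `Mop` preserves valid chains -/
lemma VC.Mop (b : ℕ) (a : ℕ) : ∀ (κ lam : Spec.Sh) (x : List Spec.Sh → K), Spec.HS κ lam a →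
    VC K a b κ x → VC K a (b + 1) lam (Spec.Mop K (b + 1) a κ lam x) := by
  induction a with
  | zero =>
    intro κ lam x h hx
    have e := HS_zero h
    subst e
    exact hx
  | succ a ih =>
    intro κ lam x _ hx
    refine ⟨rfl, fun lam' => ⟨?_, fun hl l => ?_⟩⟩
    · by_cases hl : Spec.HS lam' lam (b + 1)
      · have e : (fun l => Spec.Mop K (b + 1) (a + 1) κ lam x (lam' :: l))
            = ∑ κ' ∈ Spec.below lam', if Spec.HS κ' lam' a then
              Spec.Fc K κ κ' lam lam' • Spec.Mop K (b + 1) a κ' lam' (fun m => x (κ' :: m))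
              else 0 := by
          funext l
          rw [Finset.sum_apply]
          simp only [Spec.Mop, if_pos hl]
          refine Finset.sum_congr rfl fun κ' _ => ?_
          split_ifs <;> simp
        rw [e, ← mem_VCs]
        refine Submodule.sum_mem _ fun κ' _ => ?_
        split_ifs with h1
        · exact Submodule.smul_mem _ _ (mem_VCs.2 (ih κ' lam' _ h1 (hx.2 κ').1))
        · exact Submodule.zero_mem _
      · have e : (fun l => Spec.Mop K (b + 1) (a + 1) κ lam x (lam' :: l)) = 0 := by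
          funext l
          simp only [Spec.Mop, if_neg hl, Pi.zero_apply]
        rw [e]
        exact VC.zero _ _ _
    · simp only [Spec.Mop, if_neg hl]

lemma VC_x0 (a : ℕ) : VC K a 0 0 (Spec.x0 K a) := by
  induction a with
  | zero =>
    refine ⟨fun h => absurd rfl h, fun l hl => ?_⟩
    unfold Spec.x0
    rw [if_neg]
    simpa using hl
  | succ a ih =>
    refine ⟨?_, fun κ => ?_⟩
    · unfold Spec.x0
      rw [if_neg]
      simp
    · by_cases hκ : κ = 0
      · subst hκ
        refine ⟨?_, fun h => absurd (HS_zero' 0 (fun _ _ _ => le_rfl)) h⟩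
        have e : (fun l => Spec.x0 K (a + 1) ((0 : Spec.Sh) :: l)) = Spec.x0 K a := by
          funext l
          simp [Spec.x0, List.replicate_succ]
        rw [e]
        exact ih
      · have e : ∀ l, Spec.x0 K (a + 1) (κ :: l) = 0 := by
          intro l
          simp [Spec.x0, List.replicate_succ, hκ]
        refine ⟨?_, fun _ l => e l⟩
        have e' : (fun l => Spec.x0 K (a + 1) (κ :: l)) = 0 := funext e
        rw [e']
        exact VC.zero _ _ _

/-- the computed spaces consist of functions supported on valid chains -/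
theorem D_le (a b : ℕ) : ∀ lam : Spec.Sh, Spec.D K a b lam ≤ VCs a b lam := by
  induction b with
  | zero =>
    intro lam
    unfold Spec.D
    split_ifs with h
    · subst h
      rw [Submodule.span_le, Set.singleton_subset_iff]
      exact VC_x0 a
    · exact bot_le
  | succ b ih =>
    intro lam
    rw [Spec.D, Submodule.span_le]
    rintro y ⟨κ, h, x, hx, rfl⟩
    exact VC.Mop b a κ lam x h (ih κ hx)

/-- **injectivity** -/
theorem iota_inj {B : ℕ} (hK : HK K B) (b : ℕ) (a : ℕ) : ∀ (lam : Spec.Sh)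
    (_ : Antitone lam) (_ : ∀ i, lam i + 6 ≤ B) (x : List Spec.Sh → K) (_ : VC K a b lam x)
    (_ : iota K a b lam x = 0), x = 0 := by
  induction a with
  | zero =>
    intro lam hl hB x hx h
    funext l
    by_cases hnil : l = []
    · subst hnil
      by_cases h0 : lam = 0
      · have := congrFun h []
        simpa [iota, h0] using this
      · exact hx.1 h0
    · exact hx.2 l hnil
  | succ a ih =>
    intro lam hl hB x hx h
    funext l
    rcases l with _ | ⟨κ, l⟩
    · exact hx.1
    by_cases hH : Spec.HS κ lam b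
    · have hκ : Antitone κ := HS_antitone hH
      have hBκ : ∀ i, κ i + 6 ≤ B := fun i => by
        have := hH.1 i
        have := hB i
        omega
      have h1 : iota K a b κ (fun l => x (κ :: l)) = 0 := by
        funext w
        by_contra hne
        obtain ⟨w1, w2, w3⟩ := iota_supp a b κ _ w hne
        subst w3
        have hs : sh (sh 0 w) (Ins.srt (sh 0 w) lam) = lam := Ins.sh_srt hH.1
        have hLv : Lat (sh 0 w) (Ins.srt (sh 0 w) lam) := (HS_Hz hH).lat hs
        have hlen : (Ins.srt (sh 0 w) lam).length = b := by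
          have e1 := Ins.sum_sh (sh 0 w) (Ins.srt (sh 0 w) lam)
          rw [hs, hH.2.2] at e1
          omega
        have e := iota_append (K := K) a b lam x w (Ins.srt (sh 0 w) lam) w2
          ((lat_append _ _ _).2 ⟨w1, hLv⟩) hlen (by rw [sh_append, hs]) hH
        rw [h] at e
        have e2 : Gauge.G K lam (sh 0 w) * iota K a b (sh 0 w) (fun l => x (sh 0 w :: l)) w = 0 :=
          e.symm
        rcases mul_eq_zero.1 e2 with h3 | h3
        · exact G_ne hK hl hB hBκ h3
        · exact hne h3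
      have := ih κ hκ hBκ _ (hx.2 κ).1 h1
      exact congrFun this l
    · exact (hx.2 κ).2 hH l

end Crest.Agent.R187.SN.Iota
end

-- ▼ part R187/SN/TargetC
section

/-!
# Row 187, PLAN S, block (C): assembly of `TargetC`
-/

set_option autoImplicit false

namespace Crest.Agent.R187.SN.Iota

open Crest.Agent.R187.SN Gauge

variable {K : Type*} [Field K]

/-- the recursion (R) -/
def RStmt (K : Type*) [Field K] : Prop :=
  ∀ (B : ℕ) (_ : HK K B) (a b : ℕ) (κ lam : Spec.Sh) (_ : Bd B (0 : Fin 6 → ℕ) (a * (b + 1)))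
    (_ : Antitone lam) (_ : ∑ i, lam i = a * (b + 1)) (_ : Spec.HS κ lam a)
    (x : List Spec.Sh → K) (_ : VC K a b κ x),
    Ins.Pop K 6 b a (Zf K (a * b) a lam (iota K a b κ x))
      = iota K a (b + 1) lam (Spec.Mop K (b + 1) a κ lam x)

lemma Mop_zero (b : ℕ) (a : ℕ) : ∀ κ lam : Spec.Sh, Spec.Mop K b a κ lam 0 = 0 := by
  induction a with
  | zero => intro κ lam; rfl
  | succ a ih =>
    intro κ lam
    funext l
    rcases l with _ | ⟨lam', l⟩
    · rfl
    · simp only [Spec.Mop, Pi.zero_apply]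
      split_ifs with h
      · refine Finset.sum_eq_zero fun κ' _ => ?_
        split_ifs
        · have h2 : Spec.Mop K b a κ' lam' (fun _ => (0 : K)) l = 0 := congrFun (ih κ' lam') l
          rw [h2, mul_zero]
        · rfl
      · rfl

lemma D_bot (a : ℕ) (b : ℕ) : ∀ lam : Spec.Sh, ¬ (∑ i, lam i = a * b ) →
    Spec.D K a b lam = ⊥ := by
  induction b with
  | zero =>
    intro lam h
    rw [Spec.D, if_neg]
    rintro rfl
    apply h
    simp
  | succ b ih =>
    intro lam h
    rw [Spec.D, Submodule.span_eq_bot]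
    rintro y ⟨κ, hs, x, hx, rfl⟩
    rw [ih κ] at hx
    · rw [(Submodule.mem_bot K).1 hx, Mop_zero]
    · intro h1
      apply h
      rw [hs.2.2, h1]
      ring

lemma rangeD (hR : RStmt K) {B : ℕ} (hK : HK K B) (a : ℕ) (ha : (a.factorial : K) ≠ 0) (b : ℕ) :
    ∀ (hB : Bd B (0 : Fin 6 → ℕ) (a * b)) (lam : Spec.Sh) (_ : Antitone lam)
    (x : List Spec.Sh → K) (_ : x ∈ Spec.D K a b lam),
    (⟨iota K a b lam x, iota_mem a b lam x⟩ : V K (0 : Fin 6 → ℕ) (a * b)) ∈
      LinearMap.range (Ins.rhA hK hB (Link.E K (Ins.eE a b))) := by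
  induction b with
  | zero =>
    intro hB lam _ x _
    rw [← Ins.inX_iff hK a 0 hB ha]
    exact Ins.InX.base hK a hB _
  | succ b ih =>
    intro hB lam hlam x hx
    by_cases hsum : ∑ i, lam i = a * (b + 1)
    swap
    · rw [D_bot a (b + 1) lam hsum, Submodule.mem_bot] at hx
      subst hx
      have : (⟨iota K a (b + 1) lam 0, iota_mem a (b + 1) lam 0⟩ :
          V K (0 : Fin 6 → ℕ) (a * (b + 1))) = 0 := by
        apply Subtype.ext
        exact iota_zero a (b + 1) lam
      rw [this]
      exact Submodule.zero_mem _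
    set W : Submodule K (List Spec.Sh → K) :=
      (LinearMap.range (Ins.rhA hK hB (Link.E K (Ins.eE a (b + 1))))).comap
        ((iotaL (K := K) a (b + 1) lam).codRestrict (V K (0 : Fin 6 → ℕ) (a * (b + 1)))
          (fun x => iota_mem a (b + 1) lam x)) with hW
    have hle : Spec.D K a (b + 1) lam ≤ W := by
      rw [Spec.D, Submodule.span_le]
      rintro y ⟨κ, hs, z, hz, rfl⟩
      show _ ∈ W
      rw [hW, Submodule.mem_comap]
      have hB0 : Bd B (0 : Fin 6 → ℕ) (a * b) :=
        Ins.bd_mono (Nat.mul_le_mul_left a (Nat.le_succ b)) hB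
      have h1 := ih hB0 κ (HS_antitone hs) z hz
      obtain ⟨h2, h3⟩ := Ins.pop_range hK a b hB0 hB ha κ lam (HS_Hz hs)
        ⟨iota K a b κ z, iota_mem a b κ z⟩ h1 (fun w hw => iota_shape a b κ z w hw)
        (Zf K (a * b) a lam (iota K a b κ z))
        (fun w hw1 hw2 hw3 => by
          unfold Zf
          rw [if_pos ⟨hw1, by rw [hw2]; ring, hw3⟩])
        (fun w hw => by
          unfold Zf
          rw [if_neg]
          rintro ⟨h4, h5, h6⟩
          exact hw ⟨h4, by rw [h5]; ring, h6⟩)
      have hR' := hR B hK a b κ lam hB hlam hsum hs z (D_le a b κ hz)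
      have e : ((iotaL (K := K) a (b + 1) lam).codRestrict (V K (0 : Fin 6 → ℕ) (a * (b + 1)))
          (fun x => iota_mem a (b + 1) lam x)) (Spec.Mop K (b + 1) a κ lam z)
          = ⟨Ins.Pop K 6 b a (Zf K (a * b) a lam (iota K a b κ z)), h2⟩ := by
        apply Subtype.ext
        show iota K a (b + 1) lam (Spec.Mop K (b + 1) a κ lam z) = _
        exact hR'.symm
      rw [e]
      exact h3
    exact hle hx

/-- `TargetC` from the recursion (R) -/
theorem targetC_of_R (hR : RStmt K) (h6 : ((6).factorial : K) ≠ 0) : Assemble.TargetC K := by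
  intro B hK hB lam hlam hsum
  have hB' : Bd B (0 : Fin 6 → ℕ) (6 * 7) := hB
  refine ⟨((iotaL (K := K) 6 7 lam).codRestrict (V K (0 : Fin 6 → ℕ) (6 * 7))
          (fun x => iota_mem 6 7 lam x)).domRestrict (Spec.D K 6 7 lam), ?_, ?_, ?_⟩
  · rw [injective_iff_map_eq_zero]
    rintro ⟨x, hx⟩ h
    have h1 : iota K 6 7 lam x = 0 := congrArg Subtype.val h
    have h2 : x = 0 := iota_inj hK 7 6 lam hlam (fun i => by
      have h3 : lam i ≤ ∑ j, lam j := Finset.single_le_sum (fun _ _ => Nat.zero_le _)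
        (Finset.mem_univ i)
      have h4 := hB i
      simp only [Pi.zero_apply] at h4
      omega) x (D_le 6 7 lam hx) h1
    exact Subtype.ext h2
  · rintro ⟨x, hx⟩
    exact rangeD hR hK 6 h6 7 hB' lam hlam x hx
  · rintro ⟨x, hx⟩ w hw
    exact iota_shape 6 7 lam x w hw

end Crest.Agent.R187.SN.Iota
end

-- ▼ part R187/SN/Braid
section

/-!
# Row 187, PLAN S, block (C): cycles and block swaps in a monoid with the Coxeter relations
-/

set_option autoImplicit false

namespace Crest.Agent.R187.SN.Br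

open Crest.Agent.R187.SN

section mon

variable {H : Type*} [Monoid H]

/-- `cy f i m = f i * f (i+1) * ... * f (i+m-1)` : moves the letter at position `i+m` to `i` -/
def cy (f : ℕ → H) (i : ℕ) : ℕ → H
  | 0 => 1
  | m + 1 => cy f i m * f (i + m)

/-- `bs f i m q` moves the `q` letters at positions `i+m, …` in front of the `m` letters at `i, …` -/
def bs (f : ℕ → H) : ℕ → ℕ → ℕ → H
  | _, _, 0 => 1
  | i, m, q + 1 => bs f (i + 1) m q * cy f i m


lemma cy_succ (f : ℕ → H) (i m : ℕ) : cy f i (m + 1) = cy f i m * f (i + m) := rfl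

lemma cy_succ' (f : ℕ → H) (i m : ℕ) : cy f i (m + 1) = f i * cy f (i + 1) m := by
  induction m with
  | zero => simp [cy]
  | succ m ih =>
    rw [cy_succ, ih, cy_succ, mul_assoc]
    congr 3
    omega


lemma bs_succ (f : ℕ → H) (i m q : ℕ) : bs f i m (q + 1) = bs f (i + 1) m q * cy f i m := rfl





lemma cy_congr {f g : ℕ → H} {i m : ℕ} (h : ∀ k, i ≤ k → k < i + m → f k = g k) :
    cy f i m = cy g i m := by
  induction m with
  | zero => rfl
  | succ m ih =>
    rw [cy_succ, cy_succ, ih (fun k h1 h2 => h k h1 (by omega)), h (i + m) (by omega) (by omega)]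

lemma bs_congr {f g : ℕ → H} {i m q : ℕ} (h : ∀ k, i ≤ k → k + 1 < i + m + q → f k = g k) :
    bs f i m q = bs g i m q := by
  induction q generalizing i with
  | zero => rfl
  | succ q ih =>
    rw [bs_succ, bs_succ, ih (fun k h1 h2 => h k (by omega) (by omega)),
      cy_congr (fun k h1 h2 => h k h1 (by omega))]

variable {n : ℕ} {f : ℕ → H}

/-- far commutation (both orders) -/
lemma rel_comm (h : Cox.Rel n f) {i j : ℕ} (hi : i < n) (hj : j < n) (hij : i + 1 < j ∨ j + 1 < i) :
    f i * f j = f j * f i := by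
  rcases hij with h1 | h1
  · exact h.comm i j h1 hj
  · exact (h.comm j i h1 hi).symm

lemma comm_cy (h : Cox.Rel n f) {j i m : ℕ} (hj : j < n) (hm : i + m ≤ n)
    (hij : j + 1 < i ∨ i + m < j) : f j * cy f i m = cy f i m * f j := by
  induction m with
  | zero => simp [cy]
  | succ m ih =>
    rw [cy_succ, ← mul_assoc, ih (by omega) (by omega), mul_assoc,
      rel_comm h hj (by omega) (by omega), mul_assoc]

lemma comm_bs (h : Cox.Rel n f) {j i m q : ℕ} (hj : j < n) (hm : i + m + q ≤ n + 1)
    (hij : j + 1 < i ∨ i + m + q ≤ j) : f j * bs f i m q = bs f i m q * f j := by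
  induction q generalizing i with
  | zero => simp [bs]
  | succ q ih =>
    rw [bs_succ, ← mul_assoc, ih (by omega) (by omega), mul_assoc,
      comm_cy h hj (by omega) (by omega), mul_assoc]

/-- two letters past a block -/
lemma two_cy (h : Cox.Rel n f) {i m : ℕ} (hm : i + m + 1 ≤ n) :
    f i * (cy f (i + 1) m * cy f i m) = (cy f (i + 1) m * cy f i m) * f (i + m) := by
  induction m with
  | zero => simp [cy]
  | succ m ih =>
    have e1 : f (i + 1 + m) * cy f i m = cy f i m * f (i + 1 + m) :=
      comm_cy h (by omega) (by omega) (by omega)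
    have e2 : cy f (i + 1) (m + 1) * cy f i (m + 1) =
        (cy f (i + 1) m * cy f i m) * (f (i + 1 + m) * f (i + m)) := by
      rw [cy_succ, cy_succ, mul_assoc, ← mul_assoc (f (i + 1 + m)), e1]
      simp only [mul_assoc]
    have e3 : i + 1 + m = i + m + 1 := by omega
    have e4 := h.braid (i + m) (by omega)
    rw [e2, ← mul_assoc, ih (by omega), e3, mul_assoc, ← mul_assoc (f (i + m)), e4]
    simp only [mul_assoc]
    rfl

/-- the block swap conjugates the moved letters -/
lemma bs_conj_right (h : Cox.Rel n f) {i m q k : ℕ} (hk : k + 1 < q) (hm : i + m + q ≤ n + 1) :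
    f (i + k) * bs f i m q = bs f i m q * f (i + m + k) := by
  induction q generalizing i k with
  | zero => omega
  | succ q ih =>
    rcases k with _ | k
    · obtain ⟨q, rfl⟩ : ∃ q', q = q' + 1 := ⟨q - 1, by omega⟩
      rw [bs_succ, bs_succ, Nat.add_zero, Nat.add_zero, ← mul_assoc, ← mul_assoc,
        comm_bs h (by omega) (by omega) (by omega), mul_assoc, mul_assoc, two_cy h (by omega)]
      simp only [mul_assoc, Nat.add_zero]
    · have e1 := ih (i := i + 1) (k := k) (by omega) (by omega)
      have e2 : i + (k + 1) = i + 1 + k := by omega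
      have e3 : i + m + (k + 1) = i + 1 + m + k := by omega
      rw [bs_succ, e2, e3, ← mul_assoc, e1, mul_assoc, comm_cy h (by omega) (by omega) (by omega),
        mul_assoc]



end mon

end Crest.Agent.R187.SN.Br
private theorem rz_ed5e93a8c5 : type_of% @_root_.Crest.Agent.R187.SN.Br.bs.eq_def := @_root_.Crest.Agent.R187.SN.Br.bs.eq_def -- L23
private theorem rz_90c418a565 : type_of% @_root_.Crest.Agent.R187.SN.Br.bs.eq_1 := @_root_.Crest.Agent.R187.SN.Br.bs.eq_1 -- L23
private theorem rz_609ce7db31 : type_of% @_root_.Crest.Agent.R187.SN.Br.cy.eq_def := @_root_.Crest.Agent.R187.SN.Br.cy.eq_def -- L18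
private theorem rz_682d90f84c : type_of% @_root_.Crest.Agent.R187.SN.Br.cy.eq_1 := @_root_.Crest.Agent.R187.SN.Br.cy.eq_1 -- L18
end

-- ▼ part R187/SN/Local
section

/-!
# Row 187, PLAN S, block (C): the local lemma (B3) + (L)

Strip past strip, and the effect of one column insertion on the last block.
-/

set_option autoImplicit false

namespace Crest.Agent.R187.SN.Loc

open Crest.Agent.R187.SN Crest.Agent.R187.SN.Strip Finset

variable {r : ℕ} {K : Type*} [Field K]

/-! ### locality of the operators -/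

lemma sw_perm {α : Type*} (i : ℕ) (w : List α) : (sw i w).Perm w := by
  induction i generalizing w with
  | zero =>
    rcases w with _ | ⟨a, _ | ⟨b, t⟩⟩
    · exact List.Perm.refl _
    · exact List.Perm.refl _
    · exact List.Perm.swap a b t
  | succ i ih =>
    rcases w with _ | ⟨a, t⟩
    · exact List.Perm.refl _
    · exact (ih t).cons a

lemma T_congr {κ : Fin r → ℕ} {i : ℕ} {f g : List (Fin r) → K} {w : List (Fin r)}
    (h : ∀ u : List (Fin r), u.Perm w → f u = g u) : T κ i f w = T κ i g w := by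
  rw [T_apply, T_apply, h w (List.Perm.refl _), h _ (sw_perm i w)]

lemma cyc_congr {κ : Fin r → ℕ} {i m : ℕ} {f g : List (Fin r) → K} {w : List (Fin r)}
    (h : ∀ u : List (Fin r), u.Perm w → f u = g u) : cyc κ i m f w = cyc κ i m g w := by
  induction m generalizing i w with
  | zero => exact h w (List.Perm.refl _)
  | succ m ih =>
    simp only [cyc, LinearMap.comp_apply]
    apply T_congr
    intro u hu
    exact ih (fun v hv => h v (hv.trans hu))

lemma bs_congr {κ : Fin r → ℕ} {i m q : ℕ} {f g : List (Fin r) → K} {w : List (Fin r)}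
    (h : ∀ u : List (Fin r), u.Perm w → f u = g u) : Strip.bs κ i m q f w = Strip.bs κ i m q g w := by
  induction q generalizing i f g w with
  | zero => exact h w (List.Perm.refl _)
  | succ q ih =>
    simp only [Strip.bs, LinearMap.comp_apply]
    apply ih
    intro u hu
    exact cyc_congr (fun v hv => h v (hv.trans hu))

lemma sy_congr {κ : Fin r → ℕ} {i m : ℕ} {f g : List (Fin r) → K} {w : List (Fin r)}
    (h : ∀ u : List (Fin r), u.Perm w → f u = g u) : sy κ i m f w = sy κ i m g w := by
  rw [sy_apply, sy_apply]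
  apply sum_congr rfl
  intro k _
  exact cyc_congr h

lemma cyc_append_left (κ : Fin r → ℕ) (i m : ℕ) (f : List (Fin r) → K) (x y : List (Fin r))
    (h : i + m < x.length) : cyc κ i m f (x ++ y) = cyc κ i m (fun u => f (u ++ y)) x := by
  induction m generalizing i x with
  | zero => rfl
  | succ m ih =>
    simp only [cyc, LinearMap.comp_apply]
    rw [T_append_left κ i _ x y (by omega)]
    apply T_congr
    intro u hu
    exact ih (i + 1) u (by rw [hu.length_eq]; omega)

lemma sy_append_left (κ : Fin r → ℕ) (i m : ℕ) (f : List (Fin r) → K) (x y : List (Fin r))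
    (h : i + m < x.length) : sy κ i m f (x ++ y) = sy κ i m (fun u => f (u ++ y)) x := by
  rw [sy_apply, sy_apply]
  apply sum_congr rfl
  intro k hk
  rw [mem_range] at hk
  exact cyc_append_left κ (i + k) (m - k) f x y (by omega)

lemma cyc_append_right (κ : Fin r → ℕ) (i m : ℕ) (f : List (Fin r) → K) (x y : List (Fin r)) :
    cyc κ (x.length + i) m f (x ++ y) = cyc (sh κ x) i m (fun u => f (x ++ u)) y := by
  induction x generalizing κ f with
  | nil => simp [sh]
  | cons a t ih =>
    have h1 : (a :: t).length + i = (t.length + i) + 1 := by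
      simp only [List.length_cons]; omega
    rw [h1, List.cons_append, cyc_cons, ih]
    rfl

lemma sy_append_right (κ : Fin r → ℕ) (i m : ℕ) (f : List (Fin r) → K) (x y : List (Fin r)) :
    sy κ (x.length + i) m f (x ++ y) = sy (sh κ x) i m (fun u => f (x ++ u)) y := by
  rw [sy_apply, sy_apply]
  apply sum_congr rfl
  intro k _
  rw [Nat.add_assoc, cyc_append_right]

lemma bs_append_right (κ : Fin r → ℕ) (i m q : ℕ) (f : List (Fin r) → K) (x y : List (Fin r)) :
    Strip.bs κ (x.length + i) m q f (x ++ y) =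
      Strip.bs (sh κ x) i m q (fun u => f (x ++ u)) y := by
  induction x generalizing κ f with
  | nil => simp [sh]
  | cons a t ih =>
    have h1 : (a :: t).length + i = (t.length + i) + 1 := by
      simp only [List.length_cons]; omega
    rw [h1, List.cons_append, bs_cons, ih]
    rfl

/-! ### (W) moving one letter -/

lemma sh_inj {κ κ' : Fin r → ℕ} {y : List (Fin r)} (h : sh κ y = sh κ' y) : κ = κ' := by
  funext i
  have := congrFun h i
  rw [Ins.sh_apply, Ins.sh_apply] at this
  omega

lemma add_inj {κ κ' : Fin r → ℕ} {a : Fin r} (h : add κ a = add κ' a) : κ = κ' :=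
  sh_inj (y := [a]) h

lemma sh_perm {κ : Fin r → ℕ} {u w : List (Fin r)} (h : u.Perm w) : sh κ u = sh κ w := by
  funext i
  rw [Ins.sh_apply, Ins.sh_apply, h.count_eq]

/-- slices of the two-block vector -/
lemma ind2_slice (κ b lam : Fin r → ℕ) (m q : ℕ) (u y : List (Fin r)) (hu : u.length = m + 1) :
    ind2 K κ m b (q + 1) lam (u ++ y) =
      ind K (sh κ u) q lam y * ∑ k, lastF K κ (m + 1) (add b k) k u := by
  classical
  rcases List.eq_nil_or_concat u with rfl | ⟨u', i, rfl⟩
  · simp at hu
  have hu' : u'.length = m := by simpa using hu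
  have e1 : ∀ k, lastF K κ (m + 1) (add b k) k (u'.concat i) =
      if Lat κ (u'.concat i) ∧ sh κ u' = b ∧ i = k then 1 else 0 := by
    intro k
    unfold lastF
    congr 1
    rw [eq_iff_iff]
    constructor
    · rintro ⟨h1, h2, h3, h4⟩
      rw [List.concat_eq_append, List.getLast?_append] at h4
      simp only [List.getLast?_singleton, Option.some_or, Option.some.injEq] at h4
      subst h4
      rw [List.concat_eq_append, sh_append] at h3
      exact ⟨h1, add_inj h3, rfl⟩
    · rintro ⟨h1, h2, h3⟩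
      subst h3
      refine ⟨h1, hu, ?_, ?_⟩
      · rw [List.concat_eq_append, sh_append, h2]
        rfl
      · rw [List.concat_eq_append, List.getLast?_append]
        simp
  have e2 : (u'.concat i ++ y).take m = u' := by
    rw [List.concat_eq_append, List.append_assoc, List.take_left' hu']
  rw [sum_congr rfl (fun k _ => e1 k)]
  by_cases h1 : Lat κ (u'.concat i) ∧ sh κ u' = b
  · rw [sum_eq_single i]
    · rw [if_pos (⟨h1.1, h1.2, rfl⟩ : Lat κ (u'.concat i) ∧ sh κ u' = b ∧ i = i), mul_one]
      unfold ind2 ind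
      congr 1
      rw [eq_iff_iff, lat_append, sh_append, e2]
      constructor
      · rintro ⟨h2, h4, -, h3⟩
        rw [List.length_append, hu] at h4
        exact ⟨h2.2, by omega, h3⟩
      · rintro ⟨h2, h4, h3⟩
        refine ⟨⟨h1.1, h2⟩, ?_, h1.2, h3⟩
        rw [List.length_append, hu, h4]
        omega
    · intro k _ hk
      rw [if_neg]
      rintro ⟨-, -, h⟩
      exact hk h.symm
    · simp
  · rw [sum_eq_zero, mul_zero]
    · unfold ind2
      rw [if_neg]
      rintro ⟨h2, -, h3, -⟩
      rw [e2] at h3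
      exact h1 ⟨((lat_append _ _ _).1 h2).1, h3⟩
    · intro k _
      rw [if_neg]
      rintro ⟨h2, h3, -⟩
      exact h1 ⟨h2, h3⟩

/-- one letter is moved in front of the block -/
theorem cyc_ind2 {B : ℕ} (hK : HK K B) {m q : ℕ} {κ b lam : Fin r → ℕ}
    (hB : Bd B κ (m + 1)) (hH : Hor κ b) (hκ : Antitone κ) (j : Fin r) (w : List (Fin r)) :
    cyc κ 0 m (ind2 K κ m b (q + 1) lam) (j :: w) =
      ∑ k, Bc K (add b k) κ k j * ind2 K (add κ j) m (add b k) q lam w := by
  classical
  by_cases hw : w.length = m + q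
  swap
  · rw [cyc_mem 0 m (ind2_mem κ m b (q + 1) lam) (j :: w)
      (fun h => hw (by have := h.2; rw [List.length_cons] at this; omega)), sum_eq_zero]
    intro k _
    rw [ind2_mem (add κ j) m (add b k) q lam w (fun h => hw h.2), mul_zero]
  obtain ⟨x, y, rfl, hx⟩ : ∃ x y : List (Fin r), w = x ++ y ∧ x.length = m :=
    ⟨w.take m, w.drop m, (List.take_append_drop _ _).symm, by
      rw [List.length_take]; omega⟩
  rw [← List.cons_append, cyc_append_left κ 0 m _ (j :: x) y (by
    rw [List.length_cons]; omega)]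
  have e1 : cyc κ 0 m (fun u => ind2 K κ m b (q + 1) lam (u ++ y)) (j :: x) =
      cyc κ 0 m (ind K (sh κ (j :: x)) q lam y • ∑ k, lastF K κ (m + 1) (add b k) k)
        (j :: x) := by
    apply cyc_congr
    intro u hu
    rw [ind2_slice κ b lam m q u y (by rw [hu.length_eq, List.length_cons, hx]), sh_perm hu,
      Pi.smul_apply, Finset.sum_apply, smul_eq_mul]
  rw [e1, map_smul, map_sum, Pi.smul_apply, Finset.sum_apply, smul_eq_mul, mul_sum]
  apply sum_congr rfl
  intro k _
  rw [cyc_last hK m hB (hH.horI k)]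
  have e2 : (x ++ y).take m = x := List.take_left' hx
  by_cases h1 : Lat κ (j :: x) ∧ x.length = m ∧ sh κ (j :: x) = add b k
  · rw [if_pos h1, mul_comm]
    congr 1
    unfold ind ind2
    congr 1
    rw [eq_iff_iff, lat_append, sh_append, e2]
    simp only [sh]
    constructor
    · rintro ⟨h2, h3, h4⟩
      exact ⟨⟨h1.1.2, h2⟩, by rw [List.length_append, hx, h3], h1.2.2, h4⟩
    · rintro ⟨⟨h2, h3⟩, h4, h5, h6⟩
      refine ⟨h3, ?_, h6⟩
      rw [List.length_append, hx] at h4
      omega
  · rw [if_neg h1, mul_zero]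
    unfold ind2
    rw [if_neg, mul_zero]
    rintro ⟨h2, h3, h4, h5⟩
    rw [e2] at h4
    rw [lat_append] at h2
    exact h1 ⟨⟨hκ, h2.1⟩, hx, h4⟩

/-- the symmetrizer on the two-block vector -/
theorem sy_ind2 {B : ℕ} (hK : HK K B) {m q : ℕ} {κ b lam : Fin r → ℕ}
    (hB : Bd B κ (m + 1)) (hH : Hor κ b) (w : List (Fin r)) :
    sy κ 0 m (ind2 K κ m b (q + 1) lam) w =
      ∑ k, gc K (add b k) κ k * ind2 K κ (m + 1) (add b k) q lam w := by
  classical
  by_cases hw : w.length = m + 1 + q
  swap
  · rw [sy_mem 0 m (ind2_mem κ m b (q + 1) lam) w (fun h => hw (by omega)), sum_eq_zero]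
    intro k _
    rw [ind2_mem κ (m + 1) (add b k) q lam w (fun h => hw h.2), mul_zero]
  obtain ⟨x, y, rfl, hx⟩ : ∃ x y : List (Fin r), w = x ++ y ∧ x.length = m + 1 :=
    ⟨w.take (m + 1), w.drop (m + 1), (List.take_append_drop _ _).symm, by
      rw [List.length_take]; omega⟩
  rw [sy_append_left κ 0 m _ x y (by omega)]
  have e1 : sy κ 0 m (fun u => ind2 K κ m b (q + 1) lam (u ++ y)) x =
      sy κ 0 m (ind K (sh κ x) q lam y • ∑ k, lastF K κ (m + 1) (add b k) k) x := by
    apply sy_congr
    intro u hu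
    rw [ind2_slice κ b lam m q u y (by rw [hu.length_eq, hx]), sh_perm hu,
      Pi.smul_apply, Finset.sum_apply, smul_eq_mul]
  rw [e1, map_smul, map_sum, Pi.smul_apply, Finset.sum_apply, smul_eq_mul, mul_sum]
  apply sum_congr rfl
  intro k _
  rw [sy_last hK m hB (hH.horI k), mul_left_comm]
  congr 1
  have e2 : (x ++ y).take (m + 1) = x := List.take_left' hx
  unfold ind ind2
  by_cases hA : Lat κ x ∧ x.length = m + 1 ∧ sh κ x = add b k
  · rw [if_pos hA, mul_one]
    congr 1
    rw [eq_iff_iff, lat_append, sh_append, e2]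
    constructor
    · rintro ⟨h1, h2, h3⟩
      exact ⟨⟨hA.1, h1⟩, by rw [List.length_append, hx, h2], hA.2.2, h3⟩
    · rintro ⟨⟨h1, h2⟩, h3, h4, h5⟩
      rw [List.length_append, hx] at h3
      exact ⟨h2, by omega, h5⟩
  · rw [if_neg hA, mul_zero, if_neg]
    rintro ⟨h1, h2, h3, h4⟩
    rw [lat_append] at h1
    rw [e2] at h3
    exact hA ⟨h1.1, hx, h3⟩

/-! ### (B3) strip past strip -/

/-- path sum: the letters `v` are moved in front of the block `κ → b`, target `c` -/
def Cw (K : Type*) [Field K] : (Fin r → ℕ) → (Fin r → ℕ) → (Fin r → ℕ) → List (Fin r) → K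
  | _, b, c, [] => if b = c then 1 else 0
  | κ, b, c, j :: v => ∑ k, Bc K (add b k) κ k j * Cw K (add κ j) (add b k) c v

lemma Bc_zero {κ b : Fin r → ℕ} (hH : Hor κ b) {k j : Fin r}
    (hn : ¬ Hor (add κ j) (add b k)) : Bc K (add b k) κ k j = 0 := by
  unfold Hor at hn
  push Not at hn
  obtain ⟨l, l', hl, h1⟩ := hn
  have h2 := hH l l' hl
  have hk : l' = k := by
    by_contra hk
    rw [add_ne _ hk] at h1
    have := add_mono_le κ j l
    omega
  subst hk
  rw [add_same] at h1
  have hj : l ≠ j := by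
    rintro rfl
    rw [add_same] at h1
    omega
  rw [add_ne _ hj] at h1
  have h3 : b l' = κ l := by omega
  unfold Bc
  rw [prod_eq_zero (i := l), zero_div]
  · simp [hj]
  · rw [cK_add_same]
    unfold cK ct
    rw [h3, ← hl]
    push_cast
    ring

lemma Bd_le {B : ℕ} {κ : Fin r → ℕ} {n n' : ℕ} (h : Bd B κ n) (hn : n' ≤ n) : Bd B κ n' := by
  intro a
  have := h a
  omega

/-- **(B3)** strip past strip -/
theorem bs_ind2 {B : ℕ} (hK : HK K B) {m q : ℕ} {κ b lam : Fin r → ℕ}
    (hB : Bd B κ (m + q)) (hH : Hor κ b) (y x : List (Fin r)) (hy : y.length = q) :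
    Strip.bs κ 0 m q (ind2 K κ m b q lam) (y ++ x) =
      Cw K κ b lam y * ind K κ (q + m) lam (y ++ x) := by
  classical
  induction q generalizing κ b y with
  | zero =>
    obtain rfl : y = [] := List.length_eq_zero_iff.1 hy
    simp only [Strip.bs, LinearMap.id_apply, List.nil_append, Cw]
    unfold ind2 ind
    by_cases h : Lat κ x ∧ x.length = m ∧ sh κ x = lam
    · rw [if_pos (⟨h.1, by omega, h.2.2⟩ : Lat κ x ∧ x.length = 0 + m ∧ sh κ x = lam), mul_one]
      congr 1
      rw [eq_iff_iff, ← h.2.2, List.take_of_length_le h.2.1.le]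
      constructor
      · rintro ⟨-, -, h1, -⟩
        exact h1.symm
      · intro h1
        exact ⟨h.1, by omega, h1.symm, rfl⟩
    · rw [if_neg (fun h1 : Lat κ x ∧ x.length = m + 0 ∧ sh κ (x.take m) = b ∧ sh κ x = lam =>
          h ⟨h1.1, by have := h1.2.1; omega, h1.2.2.2⟩),
        if_neg (fun h1 : Lat κ x ∧ x.length = 0 + m ∧ sh κ x = lam =>
          h ⟨h1.1, by have := h1.2.1; omega, h1.2.2⟩), mul_zero]
  | succ q ih =>
    obtain ⟨j, y', rfl⟩ : ∃ j y', y = j :: y' := by
      cases y with
      | nil => simp at hy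
      | cons j y' => exact ⟨j, y', rfl⟩
    have hy' : y'.length = q := by simpa using hy
    by_cases hκ : Antitone κ
    swap
    · rw [bs_mem 0 m (q + 1) (ind2_mem κ m b (q + 1) lam) _ (fun h => hκ h.1.anti),
        ind_mem κ (q + 1 + m) lam _ (fun h => hκ h.1.anti), mul_zero]
    have e1 : (fun u => cyc κ 0 m (ind2 K κ m b (q + 1) lam) (j :: u)) =
        ∑ k, Bc K (add b k) κ k j • ind2 K (add κ j) m (add b k) q lam := by
      funext u
      rw [cyc_ind2 hK (Bd_le hB (by omega)) hH hκ, Finset.sum_apply]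
      rfl
    have e2 : ind K κ (q + 1 + m) lam (j :: y' ++ x) = ind K (add κ j) (q + m) lam (y' ++ x) := by
      have e3 : q + 1 + m = (q + m) + 1 := by omega
      rw [e3, List.cons_append, ind_cons hκ]
    simp only [Strip.bs, LinearMap.comp_apply]
    rw [e2, List.cons_append, bs_cons, e1, map_sum, Finset.sum_apply, Cw, sum_mul]
    apply sum_congr rfl
    intro k _
    rw [map_smul, Pi.smul_apply, smul_eq_mul]
    by_cases hn : Hor (add κ j) (add b k)
    · rw [ih (hB.add j) hn y' hy']
      ring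
    · rw [Bc_zero hH hn]
      ring

/-- the path sum of the local lemma -/
def FL (K : Type*) [Field K] (κ' κ lam : Fin r → ℕ) (y : List (Fin r)) : K :=
  ∑ k, gc K (add κ k) κ' k * Cw K κ' (add κ k) lam y

lemma gc_zero {κ b : Fin r → ℕ} (hH : Hor κ b) {k : Fin r}
    (hn : ¬ Hor κ (add b k)) : gc K (add b k) κ k = 0 := by
  unfold Hor at hn
  push Not at hn
  obtain ⟨l, l', hl, h1⟩ := hn
  have h2 := hH l l' hl
  have hk : l' = k := by
    by_contra hk
    rw [add_ne _ hk] at h1
    omega
  subst hk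
  rw [add_same] at h1
  have h3 : b l' = κ l := by omega
  unfold gc
  rw [prod_eq_zero (i := l) (mem_univ l), zero_div]
  rw [cK_add_same]
  unfold cK ct
  rw [h3, ← hl]
  push_cast
  ring

/-- **(L)** first form: values at the words `y ++ x` -/
theorem local_val {B : ℕ} (hK : HK K B) {m q : ℕ} {κ' κ lam : Fin r → ℕ}
    (hB : Bd B κ' (m + 1 + q)) (hH : Hor κ' κ) (y x : List (Fin r)) (hy : y.length = q) :
    Strip.bs κ' 0 (m + 1) q (sy κ' 0 m (ind2 K κ' m κ (q + 1) lam)) (y ++ x) =
      FL K κ' κ lam y * ind K κ' (q + (m + 1)) lam (y ++ x) := by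
  have e1 : sy κ' 0 m (ind2 K κ' m κ (q + 1) lam) =
      ∑ k, gc K (add κ k) κ' k • ind2 K κ' (m + 1) (add κ k) q lam := by
    funext w
    rw [sy_ind2 hK (Bd_le hB (by omega)) hH, Finset.sum_apply]
    rfl
  rw [e1, map_sum, Finset.sum_apply, FL, sum_mul]
  apply sum_congr rfl
  intro k _
  rw [map_smul, Pi.smul_apply, smul_eq_mul]
  by_cases hn : Hor κ' (add κ k)
  · rw [bs_ind2 hK hB hn y x hy]
    ring
  · rw [gc_zero hH hn]
    ring

/-! ### invariance of the result in the first block -/

lemma coe_cy (κ : Fin r → ℕ) (n i m : ℕ) (f : V K κ n) :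
    ((Br.cy (TV (K := K) κ n) i m f : V K κ n) : List (Fin r) → K) = cyc κ i m f := by
  induction m generalizing i with
  | zero => rfl
  | succ m ih =>
    rw [Br.cy_succ', Module.End.mul_apply, TV_coe, ih]
    rfl

lemma coe_bs (κ : Fin r → ℕ) (n i m q : ℕ) (f : V K κ n) :
    ((Br.bs (TV (K := K) κ n) i m q f : V K κ n) : List (Fin r) → K) = Strip.bs κ i m q f := by
  induction q generalizing i f with
  | zero => rfl
  | succ q ih =>
    rw [Br.bs_succ, Module.End.mul_apply, ih, coe_cy]
    rfl

lemma Hor_of_Cw {κ b lam : Fin r → ℕ} {y : List (Fin r)} (hH : Hor κ b)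
    (h : Cw K κ b lam y ≠ 0) : Hor (sh κ y) lam := by
  induction y generalizing κ b with
  | nil =>
    have : b = lam := by
      by_contra hb
      exact h (if_neg hb)
    rw [← this]
    exact hH
  | cons j v ih =>
    rw [Cw] at h
    obtain ⟨k, -, hk⟩ := exists_ne_zero_of_sum_ne_zero h
    have h1 := left_ne_zero_of_mul hk
    have h2 := right_ne_zero_of_mul hk
    apply ih _ h2
    by_contra hn
    exact h1 (Bc_zero hH hn)

lemma Hor_of_FL {κ' κ lam : Fin r → ℕ} {y : List (Fin r)} (hH : Hor κ' κ)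
    (h : FL K κ' κ lam y ≠ 0) : Hor (sh κ' y) lam := by
  obtain ⟨k, -, hk⟩ := exists_ne_zero_of_sum_ne_zero h
  have h1 := left_ne_zero_of_mul hk
  have h2 := right_ne_zero_of_mul hk
  apply Hor_of_Cw _ h2
  by_contra hn
  exact h1 (gc_zero hH hn)

lemma Hz_of_Hor {κ lam : Fin r → ℕ} (h : Hor κ lam) (hl : Antitone lam)
    (hle : ∀ i, κ i ≤ lam i) : Ins.Hz κ lam := by
  refine ⟨hle, fun i j hij => ?_⟩
  have h1 : (i : ℕ) + 1 < r := by
    have h2 : (i : ℕ) < j := hij
    have := j.2
    omega
  have h3 : (⟨(i : ℕ) + 1, h1⟩ : Fin r) ≤ j := hij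
  exact (hl h3).trans (h i ⟨(i : ℕ) + 1, h1⟩ rfl)

lemma Hor_of_Hz {κ lam : Fin r → ℕ} (h : Ins.Hz κ lam) : Hor κ lam := by
  intro l l' hl
  apply h.2
  have : (l : ℕ) < l' := by omega
  exact this

/-- the second block of the two-block vector is a strip vector -/
lemma ind2_append (κ b lam : Fin r → ℕ) (m q : ℕ) (u v : List (Fin r)) (hu : u.length = m) :
    ind2 K κ m b q lam (u ++ v) = ind K κ m b u * ind K (sh κ u) q lam v := by
  classical
  unfold ind2 ind
  have e2 : (u ++ v).take m = u := List.take_left' hu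
  by_cases hA : Lat κ u ∧ u.length = m ∧ sh κ u = b
  · rw [if_pos hA, one_mul]
    congr 1
    rw [eq_iff_iff, lat_append, sh_append, e2]
    constructor
    · rintro ⟨⟨h1, h2⟩, h3, h4, h5⟩
      rw [List.length_append, hu] at h3
      exact ⟨h2, by omega, h5⟩
    · rintro ⟨h1, h2, h3⟩
      exact ⟨⟨hA.1, h1⟩, by rw [List.length_append, hu, h2], hA.2.2, h3⟩
  · rw [if_neg hA, zero_mul, if_neg]
    rintro ⟨h1, h2, h3, h4⟩
    rw [lat_append] at h1
    rw [e2] at h3
    exact hA ⟨h1.1, hu, h3⟩

lemma T_ind2 {κ b lam : Fin r → ℕ} {m q i : ℕ} (hH : Hor b lam) :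
    T κ (m + i) (ind2 K κ m b q lam) = ind2 K κ m b q lam := by
  funext w
  by_cases hw : w.length = m + q
  swap
  · rw [T_mem (m + i) (ind2_mem κ m b q lam) w (fun h => hw h.2),
      ind2_mem κ m b q lam w (fun h => hw h.2)]
  obtain ⟨u, v, rfl, hu⟩ : ∃ x y : List (Fin r), w = x ++ y ∧ x.length = m :=
    ⟨w.take m, w.drop m, (List.take_append_drop _ _).symm, by
      rw [List.length_take]; omega⟩
  have e : T κ (m + i) (ind2 K κ m b q lam) (u ++ v) =
      T (sh κ u) i (fun v => ind2 K κ m b q lam (u ++ v)) v := by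
    rw [← hu, T_append_right]
  have e2 : (fun v => ind2 K κ m b q lam (u ++ v)) = ind K κ m b u • ind K (sh κ u) q lam := by
    funext v
    rw [ind2_append κ b lam m q u v hu]
    rfl
  rw [e, e2, map_smul, Pi.smul_apply, smul_eq_mul, ind2_append κ b lam m q u v hu]
  by_cases hb : sh κ u = b
  · rw [hb, T_ind b q hH]
  · have : ind K κ m b u = 0 := by
      unfold ind
      rw [if_neg]
      rintro ⟨-, -, h⟩
      exact hb h
    rw [this, zero_mul, zero_mul]

/-- the vector of the local lemma -/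
noncomputable def LV (K : Type*) [Field K] (κ' : Fin r → ℕ) (m : ℕ) (κ : Fin r → ℕ) (q : ℕ)
    (lam : Fin r → ℕ) : List (Fin r) → K :=
  Strip.bs κ' 0 (m + 1) q (sy κ' 0 m (ind2 K κ' m κ (q + 1) lam))

lemma LV_mem (κ' κ lam : Fin r → ℕ) (m q : ℕ) : LV K κ' m κ q lam ∈ V K κ' (m + 1 + q) := by
  unfold LV
  apply bs_mem
  apply sy_mem
  have e : m + (q + 1) = m + 1 + q := by omega
  rw [← e]
  exact ind2_mem κ' m κ (q + 1) lam

lemma T_LV {B : ℕ} (hK : HK K B) {m q : ℕ} {κ' κ lam : Fin r → ℕ}
    (hB : Bd B κ' (m + 1 + q)) (hH : Hor κ' κ) (hH2 : Hor κ lam) {k : ℕ} (hk : k + 1 < q) :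
    T κ' k (LV K κ' m κ q lam) = LV K κ' m κ q lam := by
  have e0 : m + 1 + q = (m + q) + 1 := by omega
  have e1 : sy κ' 0 m (ind2 K κ' m κ (q + 1) lam) =
      ∑ k, gc K (add κ k) κ' k • ind2 K κ' (m + 1) (add κ k) q lam := by
    funext w
    rw [sy_ind2 hK (Bd_le hB (by omega)) hH, Finset.sum_apply]
    rfl
  have e2 : T κ' (m + 1 + k) (sy κ' 0 m (ind2 K κ' m κ (q + 1) lam)) =
      sy κ' 0 m (ind2 K κ' m κ (q + 1) lam) := by
    rw [e1, map_sum]
    apply sum_congr rfl
    intro l _
    rw [map_smul, T_ind2 (hH2.add l)]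
  have hmem : sy κ' 0 m (ind2 K κ' m κ (q + 1) lam) ∈ V K κ' ((m + q) + 1) := by
    apply sy_mem
    have e : m + (q + 1) = (m + q) + 1 := by omega
    rw [← e]
    exact ind2_mem κ' m κ (q + 1) lam
  have hrel : Cox.Rel (m + q) (TV (K := K) κ' ((m + q) + 1)) := rel_TV hK (by rw [← e0]; exact hB)
  have h1 := Br.bs_conj_right hrel (i := 0) (m := m + 1) (q := q) (k := k) hk (by omega)
  have h2 := congrArg (fun (F : Module.End K (V K κ' ((m + q) + 1))) =>
    ((F ⟨_, hmem⟩ : V K κ' ((m + q) + 1)) : List (Fin r) → K)) h1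
  simp only [Module.End.mul_apply, TV_coe, coe_bs, Nat.zero_add] at h2
  rw [e2] at h2
  exact h2

/-- **(L)**: the effect of one column insertion on the last block -/
theorem local_L {B : ℕ} (hK : HK K B) {m q : ℕ} {κ' κ lam : Fin r → ℕ}
    (hB : Bd B κ' (m + 1 + q)) (hH : Hor κ' κ) (hH2 : Hor κ lam) (y x : List (Fin r))
    (hy : y.length = q) :
    LV K κ' m κ q lam (y ++ x) =
      if x.length = m + 1 ∧ sh κ' (y ++ x) = lam ∧ Ins.Hz κ' (sh κ' y) ∧ Ins.Hz (sh κ' y) lam
      then FL K κ' κ lam y else 0 := by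
  classical
  have hval : LV K κ' m κ q lam (y ++ x) =
      FL K κ' κ lam y * ind K κ' (q + (m + 1)) lam (y ++ x) := local_val hK hB hH y x hy
  split_ifs with h
  · obtain ⟨h1, h2, h3, h4⟩ := h
    rw [hval]
    unfold ind
    rw [if_pos, mul_one]
    refine ⟨?_, ?_, h2⟩
    · rw [lat_append]
      refine ⟨h3.lat rfl, h4.lat ?_⟩
      rw [← sh_append, h2]
    · rw [List.length_append, hy, h1]
  · by_contra hne
    apply h
    have h0 : FL K κ' κ lam y ≠ 0 := by
      intro h0
      rw [hval, h0, zero_mul] at hne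
      exact hne rfl
    have hL : Lat κ' (y ++ x) ∧ (y ++ x).length = m + 1 + q := by
      by_contra hcon
      exact hne (LV_mem κ' κ lam m q _ hcon)
    have hx : x.length = m + 1 := by
      have := hL.2
      rw [List.length_append, hy] at this
      omega
    have hsh : sh κ' (y ++ x) = lam := by
      by_contra hcon
      apply hne
      rw [hval]
      unfold ind
      rw [if_neg, mul_zero]
      rintro ⟨-, -, h5⟩
      exact hcon h5
    refine ⟨hx, hsh, ?_, ?_⟩
    · -- symmetry in the first block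
      have hB' : Bd B κ' q := Bd_le hB (by omega)
      let F : V K κ' q := ⟨fun u => LV K κ' m κ q lam (u ++ x), by
        intro u hu
        apply LV_mem κ' κ lam m q
        rintro ⟨h5, h6⟩
        apply hu
        rw [List.length_append, hx] at h6
        exact ⟨((lat_append _ _ _).1 h5).1, by omega⟩⟩
      have hF : ∀ g : Equiv.Perm (Fin q), Ins.rh hK hB' g F = F := by
        intro g
        induction g using Ins.gen_induction with
        | h1 => simp
        | hs k g hk ih =>
          rw [map_mul, Module.End.mul_apply, ih, Ins.rh_s hK hB' k hk]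
          apply Subtype.ext
          funext u
          by_cases hu : u.length = q
          · have h7 := congrFun (T_LV (K := K) hK hB hH hH2 hk) (u ++ x)
            rw [T_append_left κ' k _ u x (by omega)] at h7
            exact h7
          · rw [(TV (K := K) κ' q k F).2 u (fun h => hu h.2), F.2 u (fun h => hu h.2)]
      have h8 := Ins.inv_strip hK hB' F hF y
      have h9 : (F : List (Fin r) → K) y ≠ 0 := hne
      rw [h8] at h9
      have h10 := right_ne_zero_of_mul h9
      by_contra hcon
      apply h10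
      exact Ins.str_zero (fun h => hcon h.1)
    · apply Hz_of_Hor (Hor_of_FL hH h0)
      · rw [← hsh]
        exact hL.1.sh_anti
      · intro i
        rw [← hsh, sh_append]
        exact Ins.le_sh _ _ _

end Crest.Agent.R187.SN.Loc
private theorem rz_d3a74aeabe : type_of% @_root_.Crest.Agent.R187.SN.Loc.Cw.eq_def := @_root_.Crest.Agent.R187.SN.Loc.Cw.eq_def -- L285
private theorem rz_c1b59f0684 : type_of% @_root_.Crest.Agent.R187.SN.Loc.Cw.eq_1 := @_root_.Crest.Agent.R187.SN.Loc.Cw.eq_1 -- L285
end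

-- ▼ part R187/SN/IotaRec
section

/-!
# Row 187, PLAN S, block (C-c): the recursion (R)

`Pop (Z (iota x)) = iota (Mop x)`: the column insertion on words is the operator `Spec.Mop` on
pattern functions.
-/

set_option autoImplicit false

namespace Crest.Agent.R187.SN.Iota

open Crest.Agent.R187.SN Crest.Agent.R187.SN.Spec Finset
open Crest.Agent.R187.SN.Ins (Pop)

variable {K : Type*} [Field K]

/-! ### linearity -/

lemma iota_lsum {ι : Type*} (s : Finset ι) (a b : ℕ) (lam : Sh) (c : ι → K)
    (X : ι → List Sh → K) (w : List (Fin 6)) :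
    iota K a b lam (fun l => ∑ i ∈ s, c i * X i l) w = ∑ i ∈ s, c i * iota K a b lam (X i) w := by
  induction a generalizing lam X w with
  | zero =>
    simp only [iota]
    split_ifs
    · rfl
    · simp
  | succ a ih =>
    simp only [iota]
    split_ifs
    · rw [ih, mul_sum]
      apply sum_congr rfl
      intro i _
      ring
    · simp

lemma iota_z (a b : ℕ) (lam : Sh) (w : List (Fin 6)) :
    iota K a b lam (fun _ => 0) w = 0 := by
  have h := iota_lsum (K := K) (∅ : Finset ℕ) a b lam (fun _ => 0) (fun _ _ => 0) w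
  simpa using h

lemma iota_ne {a b : ℕ} {lam : Sh} {x : List Sh → K} {w : List (Fin 6)}
    (h : iota K a b lam x w ≠ 0) : Lat 0 w ∧ w.length = a * b ∧ sh 0 w = lam :=
  iota_supp a b lam x w h

/-! ### locality of `Pop` -/

lemma Pop_congr {a b : ℕ} {f g : List (Fin 6) → K} {w : List (Fin 6)}
    (h : ∀ u : List (Fin 6), u.Perm w → f u = g u) : Pop K 6 b a f w = Pop K 6 b a g w := by
  induction a generalizing f g with
  | zero => exact h w (List.Perm.refl _)
  | succ a ih =>
    simp only [Pop, LinearMap.comp_apply]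
    apply ih
    intro u hu
    apply Loc.bs_congr
    intro v hv
    apply Loc.sy_congr
    intro z hz
    exact h z (hz.trans (hv.trans hu))

lemma bs_append_left (κ : Fin 6 → ℕ) (i m q : ℕ) (f : List (Fin 6) → K) (x y : List (Fin 6))
    (h : i + m + q ≤ x.length) : Strip.bs κ i m q f (x ++ y) =
      Strip.bs κ i m q (fun u => f (u ++ y)) x := by
  induction q generalizing i x f with
  | zero => rfl
  | succ q ih =>
    simp only [Strip.bs, LinearMap.comp_apply]
    rw [ih (i + 1) _ x (by omega)]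
    apply Loc.bs_congr
    intro u hu
    exact Loc.cyc_append_left κ i m f u y (by rw [hu.length_eq]; omega)

lemma Pop_append_left (a b : ℕ) (f : List (Fin 6) → K) (x y : List (Fin 6))
    (h : a * (b + 1) ≤ x.length) :
    Pop K 6 b a f (x ++ y) = Pop K 6 b a (fun u => f (u ++ y)) x := by
  induction a generalizing f with
  | zero => rfl
  | succ a ih =>
    simp only [Pop, LinearMap.comp_apply]
    have h1 : (a + 1) * (b + 1) = a * b + a + (b + 1) := by ring
    have h2 : a * (b + 1) = a * b + a := by ring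
    rw [ih _ (by omega)]
    apply Pop_congr
    intro u hu
    rw [bs_append_left 0 (a * b) (b + 1) a _ u y (by rw [hu.length_eq]; omega)]
    apply Loc.bs_congr
    intro v hv
    exact Loc.sy_append_left 0 (a * b) b f v y (by rw [hv.length_eq, hu.length_eq]; omega)

lemma Pop_sum {ι : Type*} (s : Finset ι) (a b : ℕ) (c : ι → K)
    (X : ι → List (Fin 6) → K) (w : List (Fin 6)) :
    Pop K 6 b a (fun w => ∑ i ∈ s, c i * X i w) w = ∑ i ∈ s, c i * Pop K 6 b a (X i) w := by
  have e : (fun w => ∑ i ∈ s, c i * X i w) = ∑ i ∈ s, c i • X i := by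
    funext w
    rw [Finset.sum_apply]
    rfl
  rw [e, map_sum, Finset.sum_apply]
  apply sum_congr rfl
  intro i _
  rw [map_smul]
  rfl

/-! ### the coefficients -/

lemma Cw_eq_PB (κ b c : Fin 6 → ℕ) (y : List (Fin 6)) :
    Loc.Cw K κ b c y = Gauge.PB K y κ b c := by
  induction y generalizing κ b with
  | nil => rfl
  | cons j v ih =>
    simp only [Loc.Cw, Gauge.PB]
    apply sum_congr rfl
    intro k _
    rw [ih]

lemma FL_eq (κ' κ lam : Fin 6 → ℕ) (y : List (Fin 6)) :
    Loc.FL K κ' κ lam y = Gauge.FL K y κ' κ lam := by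
  unfold Loc.FL Gauge.FL
  apply sum_congr rfl
  intro k _
  rw [Cw_eq_PB]

lemma HS_iff {κ lam : Sh} {m : ℕ} :
    HS κ lam m ↔ Ins.Hz κ lam ∧ ∑ i, lam i = ∑ i, κ i + m := by
  unfold HS Ins.Hz
  rw [and_assoc]

lemma Hz_IL {κ lam : Sh} (h : Ins.Hz κ lam) : Gauge.IL κ lam := h

/-! ### the first step of the insertion -/

/-- slice of `Z (iota x)` -/
lemma Zf_slice (a b : ℕ) (κ lam : Sh) (x : List Sh → K) (w1 v : List (Fin 6))
    (h1 : w1.length = a * b) :
    Zf K ((a + 1) * b) (a + 1) lam (iota K (a + 1) b κ x) (w1 ++ v) =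
      (if HS (sh 0 w1) κ b then Gauge.G K κ (sh 0 w1) *
          iota K a b (sh 0 w1) (fun l => x (sh 0 w1 :: l)) w1 else 0) *
        Strip.ind2 K (sh 0 w1) b κ (a + 1) lam v := by
  classical
  have e1 : (w1 ++ v).take ((a + 1) * b) = w1 ++ v.take b := by
    rw [List.take_append, h1, List.take_of_length_le (by rw [h1, Nat.add_one_mul]; omega)]
    congr 2
    rw [Nat.add_one_mul]
    omega
  have e2 : (w1 ++ v.take b).take (a * b) = w1 := List.take_left' h1
  have e3 : (a + 1) * b = a * b + b := Nat.add_one_mul a b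
  have e4 : (a + 1) * b + (a + 1) = a * b + (b + (a + 1)) := by ring
  set c : K := Gauge.G K κ (sh 0 w1) * iota K a b (sh 0 w1) (fun l => x (sh 0 w1 :: l)) w1
    with hc
  unfold Zf
  rw [e1]
  simp only [iota]
  rw [e2, ← hc]
  by_cases hH : HS (sh 0 w1) κ b
  swap
  · rw [if_neg hH, zero_mul]
    split_ifs with h2 h3
    · exact absurd h3.2.2.2 hH
    · rfl
    · rfl
  rw [if_pos hH]
  by_cases hc0 : c = 0
  · rw [hc0, zero_mul]
    split_ifs <;> rfl
  have hL : Lat 0 w1 := (iota_ne (right_ne_zero_of_mul (hc ▸ hc0))).1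
  unfold Strip.ind2
  by_cases hv : Lat (sh 0 w1) v ∧ v.length = b + (a + 1) ∧ sh (sh 0 w1) (v.take b) = κ ∧
      sh (sh 0 w1) v = lam
  · rw [if_pos hv, mul_one]
    obtain ⟨hv1, hv2, hv3, hv4⟩ := hv
    have hv5 : Lat (sh 0 w1) (v.take b) := by
      have := hv1
      rw [← List.take_append_drop b v, lat_append] at this
      exact this.1
    rw [if_pos, if_pos]
    · refine ⟨(lat_append _ _ _).2 ⟨hL, hv5⟩, ?_, ?_, hH⟩
      · rw [List.length_append, h1, List.length_take, hv2, e3]
        omega
      · rw [sh_append, hv3]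
    · refine ⟨(lat_append _ _ _).2 ⟨hL, hv1⟩, ?_, ?_⟩
      · rw [List.length_append, h1, hv2, e4]
      · rw [sh_append, hv4]
  · rw [if_neg hv, mul_zero]
    split_ifs with h2 h3
    · exfalso
      apply hv
      obtain ⟨h4, h5, h6⟩ := h2
      rw [List.length_append, h1, e4] at h5
      rw [lat_append] at h4
      rw [sh_append] at h6
      refine ⟨h4.2, by omega, ?_, h6⟩
      rw [← sh_append]
      exact h3.2.2.1
    · rfl
    · rfl

lemma Hz_of_HS {κ lam : Sh} {m : ℕ} (h : HS κ lam m) : Ins.Hz κ lam := (HS_iff.1 h).1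

lemma mem_below {κ lam : Sh} : κ ∈ below lam ↔ ∀ i, κ i ≤ lam i := by
  unfold below
  rw [Fintype.mem_piFinset]
  simp only [mem_range, Nat.lt_succ_iff]

lemma le_sum (κ : Sh) (i : Fin 6) : κ i ≤ ∑ i, κ i :=
  single_le_sum (f := κ) (fun _ _ => Nat.zero_le _) (mem_univ i)

open Classical in
/-- the values after the first step -/
lemma step_val {B : ℕ} (hK : HK K B) (a b : ℕ) (hB : (a + 1) * (b + 1) + 6 ≤ B) (κ lam : Sh)
    (hκ : HS κ lam (a + 1)) (x : List Sh → K) (hx : VC K (a + 1) b κ x)
    (u y : List (Fin 6)) (hu : u.length = a * (b + 1)) (hy : y.length = b + 1) :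
    Strip.bs (0 : Fin 6 → ℕ) (a * b) (b + 1) a
        (Strip.sy 0 (a * b) b (Zf K ((a + 1) * b) (a + 1) lam (iota K (a + 1) b κ x))) (u ++ y) =
      (if Lat (sh 0 u) y ∧ sh (sh 0 u) y = lam ∧ HS (sh 0 u) lam (b + 1) then
        Gauge.G K lam (sh 0 u) else 0) *
      ∑ κ' ∈ below (sh 0 u), (if HS κ' (sh 0 u) a then Fc K κ κ' lam (sh 0 u) else 0) *
        Zf K (a * b) a (sh 0 u) (iota K a b κ' (fun l => x (κ' :: l))) u := by
  have e4 : (a + 1) * (b + 1) = a * b + (b + 1 + a) := by ring
  have e5 : a * (b + 1) = a * b + a := by ring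
  obtain ⟨w1, js, rfl, h1⟩ : ∃ w1 js : List (Fin 6), u = w1 ++ js ∧ w1.length = a * b :=
    ⟨u.take (a * b), u.drop (a * b), (List.take_append_drop _ _).symm, by
      rw [List.length_take]; omega⟩
  have h2 : js.length = a := by
    rw [List.length_append] at hu
    omega
  set κ' : Sh := sh 0 w1 with hκ'
  have hlam' : sh 0 (w1 ++ js) = sh κ' js := by rw [sh_append]
  set I : K := iota K a b κ' (fun l => x (κ' :: l)) w1 with hI
  -- left-hand side
  have hL : Strip.bs (0 : Fin 6 → ℕ) (a * b) (b + 1) a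
        (Strip.sy 0 (a * b) b (Zf K ((a + 1) * b) (a + 1) lam (iota K (a + 1) b κ x))) ((w1 ++ js) ++ y) =
      (if HS κ' κ b then Gauge.G K κ κ' * I else 0) * Loc.LV K κ' b κ a lam (js ++ y) := by
    have e6 : a * b = w1.length + 0 := by omega
    rw [List.append_assoc]
    conv_lhs => rw [e6]
    rw [Loc.bs_append_right]
    have e7 : (fun v => Strip.sy (0 : Fin 6 → ℕ) (w1.length + 0) b
        (Zf K ((a + 1) * b) (a + 1) lam (iota K (a + 1) b κ x)) (w1 ++ v)) =
        (if HS κ' κ b then Gauge.G K κ κ' * I else 0) •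
          Strip.sy κ' 0 b (Strip.ind2 K κ' b κ (a + 1) lam) := by
      rw [← map_smul]
      funext v
      rw [Loc.sy_append_right]
      apply congrFun
      apply congrArg
      funext v
      rw [Zf_slice a b κ lam x w1 v h1]
      rfl
    rw [e7, map_smul]
    rfl
  rw [hL, hlam']
  -- the sum
  have hsum : ∑ κ'' ∈ below (sh κ' js), (if HS κ'' (sh κ' js) a then
        Fc K κ κ'' lam (sh κ' js) else 0) *
        Zf K (a * b) a (sh κ' js) (iota K a b κ'' (fun l => x (κ'' :: l))) (w1 ++ js) =
      (if HS κ' (sh κ' js) a then Fc K κ κ' lam (sh κ' js) else 0) *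
        (if Lat 0 (w1 ++ js) then I else 0) := by
    have e8 : (w1 ++ js).take (a * b) = w1 := List.take_left' h1
    rw [sum_eq_single κ']
    · congr 1
      unfold Zf
      rw [e8]
      by_cases h : Lat 0 (w1 ++ js)
      · rw [if_pos h, if_pos ⟨h, hu, hlam'⟩]
      · rw [if_neg h, if_neg (fun h' => h h'.1)]
    · intro κ'' _ hne
      unfold Zf
      rw [e8]
      have : iota K a b κ'' (fun l => x (κ'' :: l)) w1 = 0 := by
        by_contra h
        exact hne (iota_ne h).2.2.symm
      rw [this]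
      simp
    · intro h
      exact absurd (mem_below.2 (Ins.le_sh κ' js)) h
  rw [hsum]
  by_cases hI0 : I = 0
  · rw [hI0]
    simp
  have hHS : HS κ' κ b := by
    by_contra h
    apply hI0
    have := (hx.2 κ').2 h
    rw [hI]
    have e9 : (fun l => x (κ' :: l)) = fun _ => 0 := funext this
    rw [e9, iota_z]
  have hLat : Lat 0 w1 := (iota_ne hI0).1
  rw [if_pos hHS]
  have hsκ' : ∑ i, κ' i = a * b := by
    rw [hκ', Ins.sum_sh, h1]
    simp
  have hslam : ∑ i, lam i = (a + 1) * (b + 1) := by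
    have h3 := (HS_iff.1 hHS).2
    have h4 := (HS_iff.1 hκ).2
    rw [h4, h3, hsκ', e4]
    omega
  have hBd : Bd B κ' (b + 1 + a) := by
    intro i
    have := le_sum κ' i
    omega
  have hBlam : ∀ i, lam i + 6 ≤ B := by
    intro i
    have := le_sum lam i
    omega
  rw [Loc.local_L hK hBd (Loc.Hor_of_Hz (Hz_of_HS hHS)) (Loc.Hor_of_Hz (Hz_of_HS hκ)) js y h2,
    FL_eq, sh_append]
  by_cases hz : Ins.Hz κ' (sh κ' js)
  swap
  · rw [if_neg (fun h => hz h.2.2.1), if_neg (fun h => hz (Hz_of_HS h))]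
    simp
  have hHS' : HS κ' (sh κ' js) a := HS_iff.2 ⟨hz, by rw [Ins.sum_sh, h2]⟩
  have hLat' : Lat 0 (w1 ++ js) := (lat_append _ _ _).2 ⟨hLat, hz.lat rfl⟩
  rw [if_pos hHS', if_pos hLat']
  by_cases hz2 : sh (sh κ' js) y = lam ∧ Ins.Hz (sh κ' js) lam
  swap
  · rw [if_neg (fun h => hz2 ⟨h.2.1, h.2.2.2⟩), if_neg (fun h => hz2 ⟨h.2.1, Hz_of_HS h.2.2⟩)]
    simp
  have hHS2 : HS (sh κ' js) lam (b + 1) :=
    HS_iff.2 ⟨hz2.2, by rw [← hy, ← Ins.sum_sh, hz2.1]⟩
  rw [if_pos ⟨hy, hz2.1, hz, hz2.2⟩, if_pos ⟨hz2.2.lat hz2.1, hz2.1, hHS2⟩]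
  have key := Gauge.FL_Fc hK hBlam js (Hz_IL (Hz_of_HS hHS)) (hz.lat rfl) (Hz_IL hz2.2)
    (Hz_IL (Hz_of_HS hκ))
  linear_combination I * key

/-! ### the recursion -/

lemma Zf_mem (a b : ℕ) (lam : Sh) (f : List (Fin 6) → K) :
    Zf K (a * b) a lam f ∈ V K (0 : Sh) (a * (b + 1)) := by
  intro w hw
  unfold Zf
  rw [if_neg (fun h => hw ⟨h.1, h.2.1⟩)]

lemma Pop_mem (a b : ℕ) {N : ℕ} {f : List (Fin 6) → K} (hf : f ∈ V K (0 : Sh) N) :
    Pop K 6 b a f ∈ V K (0 : Sh) N := by
  induction a generalizing f with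
  | zero => exact hf
  | succ a ih =>
    simp only [Pop, LinearMap.comp_apply]
    exact ih (Strip.bs_mem _ _ _ (Strip.sy_mem _ _ hf))

/-- **(R)** -/
theorem rec_iota {B : ℕ} (hK : HK K B) (a b : ℕ) (hB : a * (b + 1) + 6 ≤ B) (κ lam : Sh)
    (hκ : HS κ lam a) (x : List Sh → K) (hx : VC K a b κ x) :
    Pop K 6 b a (Zf K (a * b) a lam (iota K a b κ x)) =
      iota K a (b + 1) lam (Mop K (b + 1) a κ lam x) := by
  classical
  induction a generalizing κ lam x with
  | zero =>
    have hkl : κ = lam := by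
      funext i
      have h1 := (Hz_of_HS hκ).1
      have h2 := (HS_iff.1 hκ).2
      by_contra hne
      have h3 : κ i < lam i := lt_of_le_of_ne (h1 i) hne
      have : ∑ i, κ i < ∑ i, lam i := sum_lt_sum (fun i _ => h1 i) ⟨i, mem_univ i, h3⟩
      omega
    subst hkl
    funext w
    simp only [Pop, LinearMap.id_apply, Mop, Zf, iota]
    by_cases hw : w = []
    · subst hw
      by_cases h0 : κ = 0
      · subst h0
        rw [if_pos, if_pos, if_pos]
        · exact ⟨rfl, rfl⟩
        · simp
        · refine ⟨?_, by simp, rfl⟩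
          rw [lat_nil]
          exact fun _ _ _ => le_rfl
      · rw [if_neg, if_neg (fun h => h0 h.2)]
        rintro ⟨-, -, h⟩
        exact h0 h.symm
    · rw [if_neg, if_neg (fun h => hw h.1)]
      rintro ⟨-, h, -⟩
      apply hw
      apply List.length_eq_zero_iff.1
      rw [h, zero_mul]
  | succ a ih =>
    have e5 : (a + 1) * (b + 1) = a * (b + 1) + (b + 1) := by ring
    have hB' : a * (b + 1) + 6 ≤ B := by omega
    funext w
    by_cases hw : w.length = (a + 1) * (b + 1)
    swap
    · rw [Pop_mem (a + 1) b (Zf_mem (a + 1) b lam _) w (fun h => hw h.2)]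
      by_contra h
      exact hw (iota_ne (Ne.symm h)).2.1
    obtain ⟨u, y, rfl, hu⟩ : ∃ u y : List (Fin 6), w = u ++ y ∧ u.length = a * (b + 1) :=
      ⟨w.take (a * (b + 1)), w.drop (a * (b + 1)), (List.take_append_drop _ _).symm, by
        rw [List.length_take]; omega⟩
    have hy : y.length = b + 1 := by
      rw [List.length_append] at hw
      omega
    have e6 : (u ++ y).take (a * (b + 1)) = u := List.take_left' hu
    set lam' : Sh := sh 0 u with hlam'
    set c : K := if Lat lam' y ∧ sh lam' y = lam ∧ HS lam' lam (b + 1) then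
        Gauge.G K lam lam' else 0 with hc
    -- left-hand side
    have hL : Pop K 6 b (a + 1) (Zf K ((a + 1) * b) (a + 1) lam (iota K (a + 1) b κ x)) (u ++ y) =
        ∑ κ' ∈ below lam', (c * if HS κ' lam' a then Fc K κ κ' lam lam' else 0) *
          iota K a (b + 1) lam' (Mop K (b + 1) a κ' lam' (fun l => x (κ' :: l))) u := by
      have e7 : Pop K 6 b (a + 1) (Zf K ((a + 1) * b) (a + 1) lam (iota K (a + 1) b κ x)) (u ++ y) =
          Pop K 6 b a (fun u => ∑ κ' ∈ below lam',
            (c * if HS κ' lam' a then Fc K κ κ' lam lam' else 0) *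
              Zf K (a * b) a lam' (iota K a b κ' (fun l => x (κ' :: l))) u) u := by
        conv_lhs => simp only [Pop, LinearMap.comp_apply]
        rw [Pop_append_left a b _ u y hu.ge]
        apply Pop_congr
        intro v hv
        have hs : sh 0 v = lam' := Loc.sh_perm hv
        rw [step_val hK a b hB κ lam hκ x hx v y (by rw [hv.length_eq, hu]) hy, hs, mul_sum]
        apply sum_congr rfl
        intro κ' _
        rw [hc]
        ring
      rw [e7, Pop_sum]
      apply sum_congr rfl
      intro κ' _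
      by_cases hκ' : HS κ' lam' a
      · rw [ih hB' κ' lam' hκ' _ ((hx.2 κ').1)]
      · rw [if_neg hκ', mul_zero, zero_mul, zero_mul]
    rw [hL]
    by_cases hA : Lat 0 u
    swap
    · have h1 : iota K (a + 1) (b + 1) lam (Mop K (b + 1) (a + 1) κ lam x) (u ++ y) = 0 := by
        by_contra h
        have := (iota_ne h).1
        rw [lat_append] at this
        exact hA this.1
      rw [h1]
      apply sum_eq_zero
      intro κ' _
      have h2 : iota K a (b + 1) lam' (Mop K (b + 1) a κ' lam' (fun l => x (κ' :: l))) u = 0 := by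
        by_contra h
        exact hA (iota_ne h).1
      rw [h2, mul_zero]
    conv_rhs => simp only [iota]
    rw [e6, ← hlam']
    by_cases hC : Lat lam' y ∧ sh lam' y = lam ∧ HS lam' lam (b + 1)
    swap
    · have hc0 : c = 0 := by rw [hc, if_neg hC]
      rw [if_neg]
      · rw [hc0]
        simp
      · rintro ⟨h1, h2, h3, h4⟩
        rw [lat_append] at h1
        rw [sh_append] at h3
        exact hC ⟨h1.2, h3, h4⟩
    have hc1 : c = Gauge.G K lam lam' := by rw [hc, if_pos hC]
    rw [if_pos]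
    swap
    · refine ⟨(lat_append _ _ _).2 ⟨hA, hC.1⟩, hw, ?_, hC.2.2⟩
      rw [sh_append]
      exact hC.2.1
    have e8 : (fun l => Mop K (b + 1) (a + 1) κ lam x (lam' :: l)) =
        fun l => ∑ κ' ∈ below lam', (if HS κ' lam' a then Fc K κ κ' lam lam' else 0) *
          Mop K (b + 1) a κ' lam' (fun l => x (κ' :: l)) l := by
      funext l
      simp only [Mop]
      rw [if_pos hC.2.2]
      apply sum_congr rfl
      intro κ' _
      split_ifs
      · rfl
      · rw [zero_mul]
    rw [e8, iota_lsum, mul_sum, hc1]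
    apply sum_congr rfl
    intro κ' _
    ring

end Crest.Agent.R187.SN.Iota
end

-- ▼ part R187/SN/TargetC2

/-!
# Row 187, PLAN S, block (C): `TargetC` proved
-/

set_option autoImplicit false

namespace Crest.Agent.R187.SN.Iota

open Crest.Agent.R187.SN

theorem rstmt (K : Type*) [Field K] : RStmt K := by
  intro B hK a b κ lam hB _ _ hs x hx
  have h := hB 0
  simp only [Pi.zero_apply, zero_add] at h
  exact rec_iota hK a b (by omega) κ lam hs x hx

/-- **`TargetC`** over every field with `6! ≠ 0` -/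
theorem targetC (K : Type*) [Field K] (h6 : ((6).factorial : K) ≠ 0) : Assemble.TargetC K :=
  targetC_of_R (rstmt K) h6

/-- **`TargetC`** over `ZMod p`, `p > 6` prime -/
theorem targetC_zmod (p : ℕ) [hp : Fact p.Prime] (h : 48 < p) : Assemble.TargetC (ZMod p) := by
  apply targetC
  rw [Ne, ZMod.natCast_eq_zero_iff]
  intro h1
  have h2 := (hp.out.dvd_factorial).1 h1
  omega

end Crest.Agent.R187.SN.Iota
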