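import Crest.Agent.R187.SN.TD.WO7_Mg
import Crest.Agent.R187.SN.TargetC2
import Crest.Agent.R187.SN.TD.T_0
import Crest.Agent.R187.SN.TD.T_1
import Crest.Agent.R187.SN.TD.T_2
import Crest.Agent.R187.SN.TD.T_3

/-!
# Row 187, PLAN S: all rank bounds, and `T 6 7 ∈ D 6 6 1 ^ 7`
-/

set_option autoImplicit false
set_option Elab.async false

namespace Crest.Agent.R187.SN.Top

theorem allH67 : AllH 127 tab67 :=
  (allH_append (allH_append (allH_append (allH_append (allH_append (allH_append (allH_append (allH_append (allH_append (allH_append (allH_append (allH_append (allH_append (allH_append (allH_append (allH_append (allH_append (allH_append (allH_append (allH_append (allH_append (allH_append (allH_append (allH_append (allH_append (allH_append (allH_append (allH_append (allH_append (allH_append (allH_append (allH_append (allH_append (allH_append (allH_append (allH_append (allH_append (allH_append (allH_append H_0 H_1) H_2) H_3) H_4) H_5) H_6) H_7) H_8) H_9) H_10) H_11) H_12) H_13) H_14) H_15) H_16) H_17) H_18) H_19) H_20) H_21) H_22) H_23) H_24) H_25) H_26) H_27) H_28) H_29) H_30) H_31) H_32) H_33) H_34)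 H_35) H_36) H_37) H_38) H_39)

/-- **the membership which gives the sixth case of Foulkes' conjecture** -/
theorem P67 : Crest.Agent.R187.T 6 7 ∈ Crest.Agent.R187.D 6 6 1 ^ 7 :=
  P67_of_chunks 127 (by norm_num) (Iota.targetC_zmod 127 (by norm_num)) allH67

end Crest.Agent.R187.SN.Top
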