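import Crest.Agent.R187.SN.Spec

/-!
# Row 187, PLAN S, block E2 (theory): frames defined from tables, images, relations

`Tab K` : multiplicities `m a b λ` and matrices `V a b λ λ' i j`.  `vec T b a λ i` is the frame
vector number `i` of level `(a, b)`, shape `λ`, defined by recursion on `a` from the `V`-tables.
`RelAll T M a b` : the relations `Mop (b+1) a κ λ (vec b a κ l) = ∑ j, M κ λ l j • vec (b+1) a λ j`.
`img` : coordinates of `Mop (b+1) (a+1) κ λ x` from those of `x` (theorem `mop_img`).
`relAll_succ` : the matrix identities `img = M * V` give the relations of level `a+1`.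
-/

set_option autoImplicit false

namespace Crest.Agent.R187.SN.Img

open Crest.Agent.R187.SN Crest.Agent.R187.SN.Spec

variable {K : Type*} [Field K]

/-! ### linearity of `Mop` -/

theorem Mop_add (b : ℕ) : ∀ (a : ℕ) (κ lam : Sh) (x y : List Sh → K),
    Mop K b a κ lam (fun l => x l + y l) = fun l => Mop K b a κ lam x l + Mop K b a κ lam y l := by
  intro a
  induction a with
  | zero => intro κ lam x y; rfl
  | succ a ih =>
    intro κ lam x y
    funext l
    cases l with
    | nil => simp [Mop]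
    | cons lam' l' =>
      simp only [Mop]
      split_ifs with h
      · rw [← Finset.sum_add_distrib]
        refine Finset.sum_congr rfl (fun κ' _ => ?_)
        split_ifs
        · rw [ih, mul_add]
        · rw [add_zero]
      · rw [add_zero]

theorem Mop_smul (b : ℕ) (c : K) : ∀ (a : ℕ) (κ lam : Sh) (x : List Sh → K),
    Mop K b a κ lam (fun l => c * x l) = fun l => c * Mop K b a κ lam x l := by
  intro a
  induction a with
  | zero => intro κ lam x; rfl
  | succ a ih =>
    intro κ lam x
    funext l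
    cases l with
    | nil => simp [Mop]
    | cons lam' l' =>
      simp only [Mop]
      split_ifs with h
      · rw [Finset.mul_sum]
        refine Finset.sum_congr rfl (fun κ' _ => ?_)
        split_ifs
        · rw [ih]; ring
        · rw [mul_zero]
      · rw [mul_zero]

theorem Mop_zero (b : ℕ) (a : ℕ) (κ lam : Sh) :
    Mop K b a κ lam (fun _ => 0) = fun _ => 0 := by
  have h := Mop_smul (K := K) b 0 a κ lam (fun _ => 0)
  simpa using h

theorem Mop_sum (b : ℕ) (a : ℕ) (κ lam : Sh) {ι : Type*} (s : Finset ι) (c : ι → K)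
    (x : ι → List Sh → K) :
    Mop K b a κ lam (fun l => ∑ i ∈ s, c i * x i l)
      = fun l => ∑ i ∈ s, c i * Mop K b a κ lam (x i) l := by
  classical
  induction s using Finset.induction_on with
  | empty => simpa using Mop_zero b a κ lam
  | insert i s hi ih =>
    have h1 : (fun l => ∑ j ∈ insert i s, c j * x j l)
        = fun l => (fun l => c i * x i l) l + (fun l => ∑ j ∈ s, c j * x j l) l := by
      funext l; rw [Finset.sum_insert hi]
    rw [h1, Mop_add, Mop_smul, ih]
    funext l
    rw [Finset.sum_insert hi]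

/-! ### frames from tables -/

variable (K) in
/-- tables: `m a b λ` = size of the frame, `V a b λ λ' i j` = coordinates -/
structure Tab where
  /-- number of frame vectors at level `(a, b)`, shape `λ` -/
  m : ℕ → ℕ → Sh → ℕ
  /-- coordinates at level `(a, b)` -/
  V : ℕ → ℕ → Sh → Sh → ℕ → ℕ → K

/-- frame vector number `i` of level `(a, b)` and shape `λ` -/
def vec (T : Tab K) (b : ℕ) : ℕ → Sh → ℕ → List Sh → K
  | 0, _, _ => fun l => if l = [] then 1 else 0
  | a + 1, lam, i => fun l =>
      match l with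
      | [] => 0
      | lam' :: l' => ∑ j ∈ Finset.range (T.m a b lam'),
          T.V (a + 1) b lam lam' i j * vec T b a lam' j l'


theorem vec_cons (T : Tab K) (b a : ℕ) (lam : Sh) (i : ℕ) (lam' : Sh) (l' : List Sh) :
    vec T b (a + 1) lam i (lam' :: l') = ∑ j ∈ Finset.range (T.m a b lam'),
      T.V (a + 1) b lam lam' i j * vec T b a lam' j l' := rfl

/-- `x` (level `a+1`) has the coordinates `X κ' l` in the frames of level `(a, b)` -/
def Coord (T : Tab K) (a b : ℕ) (X : Sh → ℕ → K) (x : List Sh → K) : Prop :=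
  x [] = 0 ∧ ∀ κ' l', x (κ' :: l') = ∑ l ∈ Finset.range (T.m a b κ'), X κ' l * vec T b a κ' l l'

theorem coord_vec (T : Tab K) (a b : ℕ) (lam : Sh) (i : ℕ) :
    Coord T a b (fun κ' l => T.V (a + 1) b lam κ' i l) (vec T b (a + 1) lam i) :=
  ⟨rfl, fun _ _ => rfl⟩

/-- the relations of level `a` from `b` to `b + 1` columns -/
def RelAll (T : Tab K) (M : Sh → Sh → ℕ → ℕ → K) (a b : ℕ) : Prop :=
  ∀ κ lam, HS κ lam a → ∀ l < T.m a b κ,
    Mop K (b + 1) a κ lam (vec T b a κ l)
      = fun p => ∑ j ∈ Finset.range (T.m a (b + 1) lam), M κ lam l j * vec T (b + 1) a lam j p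

/-- the coordinates of the image: row vector `X` (coordinates of `x`), column `j` of `λ'` -/
def img (T : Tab K) (M : Sh → Sh → ℕ → ℕ → K) (a b : ℕ) (κ lam lam' : Sh) (X : Sh → ℕ → K)
    (j : ℕ) : K :=
  ∑ κ' ∈ below lam', if HS κ' lam' a then
    Fc K κ κ' lam lam' * ∑ l ∈ Finset.range (T.m a b κ'), X κ' l * M κ' lam' l j else 0

theorem mop_img {T : Tab K} {M : Sh → Sh → ℕ → ℕ → K} {a b : ℕ} (hM : RelAll T M a b)
    {X : Sh → ℕ → K} {x : List Sh → K} (hx : Coord T a b X x) (κ lam lam' : Sh) (l' : List Sh) :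
    Mop K (b + 1) (a + 1) κ lam x (lam' :: l')
      = if HS lam' lam (b + 1) then ∑ j ∈ Finset.range (T.m a (b + 1) lam'),
          img T M a b κ lam lam' X j * vec T (b + 1) a lam' j l' else 0 := by
  simp only [Mop]
  split_ifs with h
  · have h1 : ∀ κ' ∈ below lam', (if HS κ' lam' a then Fc K κ κ' lam lam' *
        Mop K (b + 1) a κ' lam' (fun m => x (κ' :: m)) l' else 0)
        = ∑ j ∈ Finset.range (T.m a (b + 1) lam'), (if HS κ' lam' a then Fc K κ κ' lam lam' *
          ∑ l ∈ Finset.range (T.m a b κ'), X κ' l * M κ' lam' l j else 0)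
            * vec T (b + 1) a lam' j l' := by
      intro κ' _
      split_ifs with h2
      · have h3 : (fun m => x (κ' :: m)) = fun m => ∑ l ∈ Finset.range (T.m a b κ'),
            X κ' l * vec T b a κ' l m := funext (fun m => hx.2 κ' m)
        rw [h3, Mop_sum]
        simp only
        have h4 : ∀ l ∈ Finset.range (T.m a b κ'),
            X κ' l * Mop K (b + 1) a κ' lam' (vec T b a κ' l) l'
            = ∑ j ∈ Finset.range (T.m a (b + 1) lam'),
              X κ' l * M κ' lam' l j * vec T (b + 1) a lam' j l' := by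
          intro l hl
          rw [hM κ' lam' h2 l (Finset.mem_range.1 hl), Finset.mul_sum]
          exact Finset.sum_congr rfl (fun j _ => by ring)
        rw [Finset.sum_congr rfl h4, Finset.sum_comm, Finset.mul_sum]
        refine Finset.sum_congr rfl (fun j _ => ?_)
        rw [← Finset.sum_mul]; ring
      · simp
    rw [Finset.sum_congr rfl h1, Finset.sum_comm]
    refine Finset.sum_congr rfl (fun j _ => ?_)
    rw [img, Finset.sum_mul]
  · rfl

/-- images again have coordinates -/
theorem coord_mop {T : Tab K} {M : Sh → Sh → ℕ → ℕ → K} {a b : ℕ} (hM : RelAll T M a b)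
    {X : Sh → ℕ → K} {x : List Sh → K} (hx : Coord T a b X x) (κ lam : Sh)
    {Y : Sh → ℕ → K} (hY : ∀ lam', HS lam' lam (b + 1) → ∀ j < T.m a (b + 1) lam',
      Y lam' j = img T M a b κ lam lam' X j)
    (hY0 : ∀ lam', ¬ HS lam' lam (b + 1) → ∀ j < T.m a (b + 1) lam', Y lam' j = 0) :
    Coord T a (b + 1) Y (Mop K (b + 1) (a + 1) κ lam x) := by
  refine ⟨by simp [Mop], fun lam' l' => ?_⟩
  rw [mop_img hM hx]
  split_ifs with h
  · exact Finset.sum_congr rfl (fun j hj => by rw [hY lam' h j (Finset.mem_range.1 hj)])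
  · symm
    refine Finset.sum_eq_zero (fun j hj => ?_)
    rw [hY0 lam' h j (Finset.mem_range.1 hj), zero_mul]

/-- two vectors with the same coordinates are equal -/
theorem Coord.ext {T : Tab K} {a b : ℕ} {X Y : Sh → ℕ → K} {x y : List Sh → K}
    (hx : Coord T a b X x) (hy : Coord T a b Y y)
    (h : ∀ κ', ∀ l < T.m a b κ', X κ' l = Y κ' l) : x = y := by
  funext p
  cases p with
  | nil => rw [hx.1, hy.1]
  | cons κ' l' =>
    rw [hx.2, hy.2]
    exact Finset.sum_congr rfl (fun l hl => by rw [h κ' l (Finset.mem_range.1 hl)])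

theorem Coord.sum {T : Tab K} {a b : ℕ} {ι : Type*} (s : Finset ι) (c : ι → K)
    {X : ι → Sh → ℕ → K} {x : ι → List Sh → K} (hx : ∀ i ∈ s, Coord T a b (X i) (x i)) :
    Coord T a b (fun κ' l => ∑ i ∈ s, c i * X i κ' l) (fun p => ∑ i ∈ s, c i * x i p) := by
  refine ⟨?_, fun κ' l' => ?_⟩
  · refine Finset.sum_eq_zero (fun i hi => ?_)
    rw [(hx i hi).1, mul_zero]
  · have h1 : ∀ i ∈ s, c i * x i (κ' :: l')
        = ∑ l ∈ Finset.range (T.m a b κ'), c i * X i κ' l * vec T b a κ' l l' := by
      intro i hi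
      rw [(hx i hi).2, Finset.mul_sum]
      exact Finset.sum_congr rfl (fun l _ => by ring)
    simp only
    rw [Finset.sum_congr rfl h1, Finset.sum_comm]
    refine Finset.sum_congr rfl (fun l _ => ?_)
    rw [Finset.sum_mul]

/-- the frame tables vanish off horizontal strips -/
def VSupp (T : Tab K) (a b : ℕ) : Prop :=
  ∀ lam lam', ¬ HS lam' lam b → ∀ i < T.m (a + 1) b lam, ∀ j < T.m a b lam',
    T.V (a + 1) b lam lam' i j = 0

/-- matrix identities at level `a + 1` give the relations of level `a + 1` -/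
theorem relAll_succ {T : Tab K} {M N : Sh → Sh → ℕ → ℕ → K} {a b : ℕ} (hM : RelAll T M a b)
    (hV : VSupp T a (b + 1))
    (h : ∀ κ lam, HS κ lam (a + 1) → ∀ lam', HS lam' lam (b + 1) → ∀ i < T.m (a + 1) b κ,
      ∀ j < T.m a (b + 1) lam', img T M a b κ lam lam' (fun κ' l => T.V (a + 1) b κ κ' i l) j
        = ∑ q ∈ Finset.range (T.m (a + 1) (b + 1) lam),
          N κ lam i q * T.V (a + 1) (b + 1) lam lam' q j) :
    RelAll T N (a + 1) b := by
  intro κ lam hκ i hi
  have h1 : Coord T a (b + 1)
      (fun κ' l => ∑ q ∈ Finset.range (T.m (a + 1) (b + 1) lam),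
        N κ lam i q * T.V (a + 1) (b + 1) lam κ' q l)
      (Mop K (b + 1) (a + 1) κ lam (vec T b (a + 1) κ i)) := by
    refine coord_mop hM (coord_vec T a b κ i) κ lam (fun lam' hl j hj => ?_)
      (fun lam' hl j hj => ?_)
    · exact (h κ lam hκ lam' hl i hi j hj).symm
    · refine Finset.sum_eq_zero (fun q hq => ?_)
      rw [hV lam lam' hl q (Finset.mem_range.1 hq) j hj, mul_zero]
  have h2 : Coord T a (b + 1)
      (fun κ' l => ∑ q ∈ Finset.range (T.m (a + 1) (b + 1) lam),
        N κ lam i q * T.V (a + 1) (b + 1) lam κ' q l)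
      (fun p => ∑ q ∈ Finset.range (T.m (a + 1) (b + 1) lam),
        N κ lam i q * vec T (b + 1) (a + 1) lam q p) :=
    Coord.sum _ _ (fun q _ => coord_vec T a (b + 1) lam q)
  exact h1.ext h2 (fun _ _ _ => rfl)

/-- level `0` -/
theorem relAll_zero {T : Tab K} {M : Sh → Sh → ℕ → ℕ → K} {b : ℕ}
    (h0 : ∀ lam, T.m 0 b lam = if lam = 0 then 1 else 0)
    (h1 : ∀ lam, T.m 0 (b + 1) lam = if lam = 0 then 1 else 0)
    (hM : M 0 0 0 0 = 1) : RelAll T M 0 b := by
  intro κ lam hκ l hl
  have hκ0 : κ = 0 := by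
    by_contra hne
    rw [h0, if_neg hne] at hl
    omega
  subst hκ0
  have hl0 : l = 0 := by rw [h0, if_pos rfl] at hl; omega
  subst hl0
  have hlam : lam = 0 := by
    obtain ⟨h2, _, h4⟩ := hκ
    simp only [Pi.zero_apply, Finset.sum_const_zero, add_zero] at h4
    funext i
    exact (Finset.sum_eq_zero_iff.1 h4 i (Finset.mem_univ i))
  subst hlam
  funext p
  rw [h1, if_pos rfl, Finset.sum_range_one, hM, one_mul]
  rfl

end Crest.Agent.R187.SN.Img
private theorem rz_b50ac89bfa : type_of% @_root_.Crest.Agent.R187.SN.Img.vec.eq_def := @_root_.Crest.Agent.R187.SN.Img.vec.eq_def -- L94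
private theorem rz_a3544d73af : type_of% @_root_.Crest.Agent.R187.SN.Img.vec.eq_1 := @_root_.Crest.Agent.R187.SN.Img.vec.eq_1 -- L94
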