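import Crest.Agent.R187.SN.Kern
import Crest.Agent.R187.SN.PivK
import Crest.Agent.R187.SN.Count2
import Crest.Agent.R187.SN.TD.Base

-- ▼ part R187/SN/Tr
section

/-!
# Row 187: kernel check that one packed matrix is the transpose of another one
-/

set_option autoImplicit false

namespace Crest.Agent.R187.SN.Tr

open Crest.Agent.R187.SN.Kern

/-- conjunction that does not evaluate the second argument if the first is `false` -/
def andb (a b : Bool) : Bool := Bool.rec (motive := fun _ => Bool) false b a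

lemma andb_eq {a b : Bool} : andb a b = true ↔ a = true ∧ b = true := by
  cases a <;> cases b <;> simp [andb]

/-- compare row `i` (given shifted: `x` starts at `(i, 0)`, `y` at `(0, i)`) for `c` columns;
`wx` = bits of a slot of `x`, `wy` = bits of a row of `y` -/
def trRow (mx my wx wy : ℕ) (c : ℕ) : ℕ → ℕ → Bool :=
  Nat.rec (motive := fun _ => ℕ → ℕ → Bool) (fun _ _ => true)
    (fun _ ih x y => andb (Nat.beq (Nat.land x mx) (Nat.land y my))
      (ih (Nat.shiftRight x wx) (Nat.shiftRight y wy))) c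

/-- all rows; `rx` = bits of a row of `x`, `ry` = bits of a slot of `y` -/
def trAll (mx my wx wy rx ry c : ℕ) (r : ℕ) : ℕ → ℕ → Bool :=
  Nat.rec (motive := fun _ => ℕ → ℕ → Bool) (fun _ _ => true)
    (fun _ ih x y => andb (trRow mx my wx wy c x y)
      (ih (Nat.shiftRight x rx) (Nat.shiftRight y ry))) r

/-- `x` is `r × c` with slots of `Wx` bits and stride `Sx`, `y` is `c × r` with slots of `Wy` bits
and stride `Sy` -/
def trChk (Wx Sx Wy Sy r c x y : ℕ) : Bool :=
  trAll (Nat.sub (Nat.pow 2 Wx) 1) (Nat.sub (Nat.pow 2 Wy) 1) Wx (Nat.mul Wy Sy) (Nat.mul Wx Sx) Wy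
    c r x y

lemma trRow_sound (Wx Wy Sy : ℕ) (c : ℕ) : ∀ (x y : ℕ),
    trRow (2 ^ Wx - 1) (2 ^ Wy - 1) Wx (Nat.mul Wy Sy) c x y = true →
    ∀ j < c, slot Wx x j = slot Wy y (Sy * j) := by
  induction c with
  | zero => intro x y _ j hj; omega
  | succ c ih =>
    intro x y h j hj
    have h1 : trRow (2 ^ Wx - 1) (2 ^ Wy - 1) Wx (Nat.mul Wy Sy) (c + 1) x y
      = andb (Nat.beq (Nat.land x (2 ^ Wx - 1)) (Nat.land y (2 ^ Wy - 1)))
        (trRow (2 ^ Wx - 1) (2 ^ Wy - 1) Wx (Nat.mul Wy Sy) c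
          (Nat.shiftRight x Wx) (Nat.shiftRight y (Nat.mul Wy Sy))) := rfl
    rw [h1, andb_eq] at h
    obtain ⟨h2, h3⟩ := h
    rcases j with _ | j
    · have h4 : Nat.land x (2 ^ Wx - 1) = Nat.land y (2 ^ Wy - 1) := Nat.eq_of_beq_eq_true h2
      have h5 : ∀ W z : ℕ, slot W z 0 = Nat.land z (2 ^ W - 1) := by
        intro W z
        rw [slot_def, pow_zero, Nat.div_one]
        exact (Nat.and_two_pow_sub_one_eq_mod _ _).symm
      rw [mul_zero, h5, h5, h4]
    · have h4 := ih _ _ h3 j (by omega)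
      have h5 := slot_shr (W := Wx) x 1 j
      have h6 := slot_shr (W := Wy) y Sy (Sy * j)
      have h7 : Nat.mul Wx 1 = Wx := Nat.mul_one Wx
      rw [h7] at h5
      rw [h5, h6] at h4
      have h8 : Sy * (j + 1) = Sy + Sy * j := by ring
      rw [h8, ← h4, add_comm]

lemma trAll_sound (Wx Sx Wy Sy c : ℕ) (r : ℕ) : ∀ (x y : ℕ),
    trAll (2 ^ Wx - 1) (2 ^ Wy - 1) Wx (Nat.mul Wy Sy) (Nat.mul Wx Sx) Wy c r x y = true →
    ∀ i < r, ∀ j < c, slot Wx x (Sx * i + j) = slot Wy y (Sy * j + i) := by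
  induction r with
  | zero => intro x y _ i hi; omega
  | succ r ih =>
    intro x y h i hi j hj
    have h1 : trAll (2 ^ Wx - 1) (2 ^ Wy - 1) Wx (Nat.mul Wy Sy) (Nat.mul Wx Sx) Wy c (r + 1) x y
      = andb (trRow (2 ^ Wx - 1) (2 ^ Wy - 1) Wx (Nat.mul Wy Sy) c x y)
        (trAll (2 ^ Wx - 1) (2 ^ Wy - 1) Wx (Nat.mul Wy Sy) (Nat.mul Wx Sx) Wy c r
          (Nat.shiftRight x (Nat.mul Wx Sx)) (Nat.shiftRight y Wy)) := rfl
    rw [h1, andb_eq] at h
    obtain ⟨h2, h3⟩ := h
    rcases i with _ | i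
    · have h4 := trRow_sound Wx Wy Sy c x y h2 j hj
      rw [mul_zero, zero_add, add_zero]; exact h4
    · have h4 := ih _ _ h3 i (by omega) j hj
      have h5 := slot_shr (W := Wx) x Sx (Sx * i + j)
      have h6 := slot_shr (W := Wy) y 1 (Sy * j + i)
      have h7 : Nat.mul Wy 1 = Wy := Nat.mul_one Wy
      rw [h7] at h6
      rw [h5, h6] at h4
      have h8 : Sx * (i + 1) + j = Sx + (Sx * i + j) := by ring
      have h9 : Sy * j + (i + 1) = 1 + (Sy * j + i) := by ring
      rw [h8, h9, h4]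

theorem trChk_sound {Wx Sx Wy Sy r c x y : ℕ} (h : trChk Wx Sx Wy Sy r c x y = true) :
    ∀ i < r, ∀ j < c, slot Wx x (Sx * i + j) = slot Wy y (Sy * j + i) :=
  trAll_sound Wx Sx Wy Sy c r x y h

end Crest.Agent.R187.SN.Tr
end

-- ▼ part R187/SN/WChk

/-!
# Row 187, PLAN S, blocks E3/E4: kernel check of the `W` tables against the relation tables
-/

set_option autoImplicit false

namespace Crest.Agent.R187.SN.WChk

open Crest.Agent.R187.SN Crest.Agent.R187.SN.Spec Crest.Agent.R187.SN.Kern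
open Crest.Agent.R187.SN.KKey Crest.Agent.R187.SN.KD Crest.Agent.R187.SN.Top
open Crest.Agent.R187.SN.PivK
open Crest.Agent.R187.SN.Tr (trChk trChk_sound)

/-! ### keys: base 64 to base 128 -/

/-- digit `r` (from the right) -/
def d64 (k r : ℕ) : ℕ := Nat.mod (Nat.shiftRight k (Nat.mul 6 r)) 64

/-- base 64 key ↦ base 128 key -/
def cv (k : ℕ) : ℕ :=
  Nat.add (d64 k 0) (Nat.mul 128 (Nat.add (d64 k 1) (Nat.mul 128 (Nat.add (d64 k 2)
    (Nat.mul 128 (Nat.add (d64 k 3) (Nat.mul 128 (Nat.add (d64 k 4) (Nat.mul 128 (d64 k 5))))))))))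

lemma d64_eq (k r : ℕ) : d64 k r = k / 64 ^ r % 64 := by
  show k >>> (6 * r) % 64 = _
  rw [Nat.shiftRight_eq_div_pow, pow_mul]
  norm_num

lemma shp_lt (k : ℕ) (i : Fin 6) : shp k i < 64 := Nat.mod_lt _ (by norm_num)

lemma cv_eq (k : ℕ) : cv k = ky (shp k) := by
  rw [ky_eq]
  show d64 k 0 + 128 * (d64 k 1 + 128 * (d64 k 2 + 128 * (d64 k 3 + 128 * (d64 k 4 +
    128 * d64 k 5)))) = _
  simp only [d64_eq]
  rfl

lemma sh7_cv (k : ℕ) : sh7 (cv k) = shp k := by
  rw [cv_eq, sh7_ky (fun i => (shp_lt k i).trans (by norm_num))]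

/-! ### lookups -/

/-- multiplicity of the shape with key `k` in an index list -/
noncomputable def lkM (k : ℕ) (L : List IE) : ℕ :=
  List.rec (motive := fun _ => ℕ) 0
    (fun e _ ih => Bool.rec (motive := fun _ => ℕ) ih (IE.m e) (Nat.beq (IE.key e) k)) L

lemma lkM_cons (k : ℕ) (e : IE) (L : List IE) :
    lkM k (e :: L) = Bool.rec (motive := fun _ => ℕ) (lkM k L) e.m (Nat.beq e.key k) := rfl

lemma lkM_cons_ne {k : ℕ} {e : IE} (L : List IE) (h : e.key ≠ k) : lkM k (e :: L) = lkM k L := by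
  rw [lkM_cons]
  cases h2 : Nat.beq e.key k with
  | false => rfl
  | true => exact absurd (Nat.eq_of_beq_eq_true h2) h

/-- drop the entries with larger keys -/
noncomputable def dropW (k : ℕ) (L : List IE) : List IE :=
  List.rec (motive := fun _ => List IE) []
    (fun e t ih => Bool.rec (motive := fun _ => List IE) (List.cons e t) ih
      (Nat.ble (Nat.succ k) (IE.key e))) L

lemma lkM_dropW {k k' : ℕ} (h : k' ≤ k) (L : List IE) : lkM k' (dropW k L) = lkM k' L := by
  induction L with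
  | nil => rfl
  | cons e L ih =>
    have h1 : dropW k (e :: L) = Bool.rec (motive := fun _ => List IE) (e :: L) (dropW k L)
      (Nat.ble (Nat.succ k) e.key) := rfl
    rw [h1]
    cases h2 : Nat.ble (Nat.succ k) e.key with
    | false => rfl
    | true =>
      have h3 : k + 1 ≤ e.key := Nat.le_of_ble_eq_true h2
      show lkM k' (dropW k L) = _
      rw [ih, lkM_cons_ne L (by omega)]

/-- evaluate the list first -/
noncomputable def forceL (L : List IE) (f : List IE → Bool) : Bool :=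
  List.rec (motive := fun _ => Bool) (f []) (fun e t _ => f (e :: t)) L

lemma forceL_eq (L : List IE) (f : List IE → Bool) : forceL L f = f L := by cases L <;> rfl

/-! ### the check -/

/-- property of all entries -/
def AllW (P : ℕ → ℕ → ℕ → ℕ → Prop) : WE → Prop
  | .nil => True
  | .cons key cs K x t => P key cs K x ∧ AllW P t








end Crest.Agent.R187.SN.WChk
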