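import Crest.Agent.R187.SN.FwdDef
import Crest.Agent.R187.SN.WChk
import Crest.Agent.R187.SN.KRel
import Crest.Agent.R187.SN.Block

-- ▼ part R187/SN/Fwd
section

/-!
# Row 187, PLAN S, block E3 (level `a = 6`): soundness of the forward step
-/

set_option autoImplicit false

namespace Crest.Agent.R187.SN.Fwd

open Crest.Agent.R187.SN Crest.Agent.R187.SN.Spec Crest.Agent.R187.SN.Img
open Crest.Agent.R187.SN.Top Crest.Agent.R187.SN.Kern

/-! ### evaluation helpers -/

theorem force_eq {α : Type} (n : ℕ) (f : ℕ → α) : force n f = f n := by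
  cases n <;> rfl

theorem buildF_eq {α : Type} (Q : List (ℕ × ℕ)) : ∀ c : List (ℕ × ℕ) → α,
    buildF Q c = c (buildQ Q) := by
  induction Q with
  | nil => intro c; rfl
  | cons e Q ih =>
    intro c
    have h : buildF (e :: Q) c
      = force (mkT e.2) (fun T => buildF Q (fun L => c ((e.1, T) :: L))) := rfl
    rw [h, force_eq, ih]
    rfl

/-! ### lists of entries -/

/-- block with key `k` -/
noncomputable def vk (e : VE) (k : ℕ) : ℕ :=
  VE.rec (motive := fun _ => ℕ) 0 (fun key x _ ih => if key = k then x else ih) e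

theorem vk_nil (k : ℕ) : vk VE.nil k = 0 := rfl
theorem vk_cons (key x : ℕ) (t : VE) (k : ℕ) :
    vk (VE.cons key x t) k = if key = k then x else vk t k := rfl
theorem vx_cons (key x : ℕ) (t : VE) (κ' : Sh) :
    vx (VE.cons key x t) κ' = if shp key = κ' then x else vx t κ' := rfl
theorem vkeys_nil : vkeys VE.nil = [] := rfl
theorem vkeys_cons (key x : ℕ) (t : VE) : vkeys (VE.cons key x t) = key :: vkeys t := rfl
theorem wkeys_nil : wkeys WE.nil = [] := rfl
theorem wkeys_cons (key cs K x : ℕ) (t : WE) : wkeys (WE.cons key cs K x t) = key :: wkeys t := rfl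
theorem allV_cons {P : ℕ → ℕ → Prop} {key x : ℕ} {t : VE} :
    AllV P (VE.cons key x t) ↔ P key x ∧ AllV P t := Iff.rfl
theorem allW_cons {P : ℕ → ℕ → ℕ → ℕ → Prop} {key cs K x : ℕ} {t : WE} :
    AllW P (WE.cons key cs K x t) ↔ P key cs K x ∧ AllW P t := Iff.rfl

theorem vk_of_not_mem {e : VE} {k : ℕ} (h : k ∉ vkeys e) : vk e k = 0 := by
  induction e with
  | nil => rfl
  | cons key x t ih =>
    rw [vkeys_cons, List.mem_cons, not_or] at h
    rw [vk_cons, if_neg (fun h2 => h.1 h2.symm), ih h.2]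

theorem vx_of_not {e : VE} {κ' : Sh} (h : ∀ k ∈ vkeys e, shp k ≠ κ') : vx e κ' = 0 := by
  induction e with
  | nil => rfl
  | cons key x t ih =>
    rw [vx_cons, if_neg (h key (by rw [vkeys_cons]; exact List.mem_cons_self ..)),
      ih (fun k hk => h k (by rw [vkeys_cons]; exact List.mem_cons_of_mem _ hk))]

theorem vk_eq_vx {e : VE} (hlt : ∀ k ∈ vkeys e, k < 68719476736) {k : ℕ}
    (hk : k < 68719476736) : vx e (shp k) = vk e k := by
  induction e with
  | nil => rfl
  | cons key x t ih =>
    have h1 : key < 68719476736 := hlt key (by rw [vkeys_cons]; exact List.mem_cons_self ..)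
    have h2 := ih (fun k' hk' => hlt k' (by rw [vkeys_cons]; exact List.mem_cons_of_mem _ hk'))
    rw [vx_cons, vk_cons, h2]
    by_cases h3 : key = k
    · rw [if_pos h3, if_pos (by rw [h3])]
    · rw [if_neg h3, if_neg (fun h4 => h3 (shp_inj' h1 hk h4))]

theorem vk_slots {e : VE} (h : AllV (fun _ x => ∀ n, slot 24 x n < 2 ^ 7) e) (k n : ℕ) :
    slot 24 (vk e k) n < 2 ^ 7 := by
  induction e with
  | nil => rw [vk_nil, slot_zero]; norm_num
  | cons key x t ih =>
    rw [allV_cons] at h
    rw [vk_cons]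
    split_ifs
    · exact h.1 n
    · exact ih h.2

/-! ### dropping -/

theorem vdrop_nil (k : ℕ) : vdrop k VE.nil = VE.nil := rfl

theorem vdrop_cons (k key x : ℕ) (t : VE) :
    vdrop k (VE.cons key x t) = if k < key then vdrop k t else VE.cons key x t := by
  have h : vdrop k (VE.cons key x t) = Bool.rec (motive := fun _ => VE) (VE.cons key x t)
    (vdrop k t) (Nat.ble (Nat.succ k) key) := rfl
  rw [h]
  by_cases h1 : k < key
  · rw [if_pos h1]
    have h2 : Nat.ble (Nat.succ k) key = true := by rw [Nat.ble_eq]; exact h1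
    rw [h2]
  · rw [if_neg h1]
    have h2 : Nat.ble (Nat.succ k) key = false := by
      rw [Bool.eq_false_iff]; intro h3; rw [Nat.ble_eq] at h3; exact h1 h3
    rw [h2]

theorem vdrop_spec (k : ℕ) (e : VE) (hs : (vkeys e).Pairwise (fun x y => y < x))
    (hx : AllV (fun _ x => ∀ n, slot 24 x n < 2 ^ 7) e) :
    (vkeys (vdrop k e)).Pairwise (fun x y => y < x) ∧ (∀ k' ∈ vkeys (vdrop k e), k' ≤ k) ∧
    AllV (fun _ x => ∀ n, slot 24 x n < 2 ^ 7) (vdrop k e) ∧
    ∀ k' ≤ k, vk (vdrop k e) k' = vk e k' := by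
  induction e with
  | nil => exact ⟨hs, by simp [vdrop_nil, vkeys_nil], hx, fun _ _ => rfl⟩
  | cons key x t ih =>
    rw [vkeys_cons, List.pairwise_cons] at hs
    rw [allV_cons] at hx
    rw [vdrop_cons]
    split_ifs with h
    · obtain ⟨h1, h2, h3, h4⟩ := ih hs.2 hx.2
      refine ⟨h1, h2, h3, fun k' hk' => ?_⟩
      rw [h4 k' hk', vk_cons, if_neg (by omega)]
    · refine ⟨?_, ?_, ?_, fun _ _ => rfl⟩
      · rw [vkeys_cons, List.pairwise_cons]; exact hs
      · intro k' hk'
        rw [vkeys_cons, List.mem_cons] at hk'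
        rcases hk' with rfl | h5
        · omega
        · have := hs.1 k' h5; omega
      · exact hx

/-! ### the merged sum -/

/-- sum over the entries of a `W` table -/
noncomputable def wsum (g : ℕ → ℕ → ℕ → ℕ → ZMod 127) (we : WE) : ZMod 127 :=
  WE.rec (motive := fun _ => ZMod 127) 0 (fun key cs K x _ ih => g key cs K x + ih) we

theorem wsum_cons (g : ℕ → ℕ → ℕ → ℕ → ZMod 127) (key cs K x : ℕ) (t : WE) :
    wsum g (WE.cons key cs K x t) = g key cs K x + wsum g t := rfl

theorem wsum_congr {g g' : ℕ → ℕ → ℕ → ℕ → ZMod 127} {we : WE} {P : ℕ → ℕ → ℕ → ℕ → Prop}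
    (hP : AllW P we)
    (h : ∀ key cs K x, key ∈ wkeys we → P key cs K x → g key cs K x = g' key cs K x) :
    wsum g we = wsum g' we := by
  induction we with
  | nil => rfl
  | cons key cs K x t ih =>
    rw [allW_cons] at hP
    rw [wsum_cons, wsum_cons, h key cs K x (by rw [wkeys_cons]; exact List.mem_cons_self ..) hP.1,
      ih hP.2 (fun key' cs' K' x' hk => h key' cs' K' x'
        (by rw [wkeys_cons]; exact List.mem_cons_of_mem _ hk))]

theorem wsum_keys {f : Sh → ZMod 127} {we : WE} :
    wsum (fun key _ _ _ => f (shp key)) we = ((wkeys we).map (fun k => f (shp k))).sum := by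
  induction we with
  | nil => rfl
  | cons key cs K x t ih => rw [wsum_cons, wkeys_cons, List.map_cons, List.sum_cons, ih]

theorem allW_mono {P P' : ℕ → ℕ → ℕ → ℕ → Prop} {we : WE} (h : AllW P we)
    (hP : ∀ key cs K x, P key cs K x → P' key cs K x) : AllW P' we := by
  induction we with
  | nil => trivial
  | cons key cs K x t ih =>
    rw [allW_cons] at h ⊢
    exact ⟨hP _ _ _ _ h.1, ih h.2⟩

/-- the value of the merged list -/
noncomputable def gv (Q : List (ℕ × ℕ)) (ve : VE) (i j : ℕ) (key cs K x : ℕ) : ZMod 127 :=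
  (fq5 Q cs : ZMod 127) * ∑ l ∈ Finset.range K,
    ((slot 24 (vk ve key) (33 * i + l) : ℕ) : ZMod 127) * ((slot 24 x (33 * l + j) : ℕ) : ZMod 127)

theorem terms_nil (Q : List (ℕ × ℕ)) (t n : ℕ) (ve : VE) : terms Q t n WE.nil ve = [] := rfl

theorem terms_cons (Q : List (ℕ × ℕ)) (t n key cs K x : ℕ) (we : WE) (ve : VE) :
    terms Q t n (WE.cons key cs K x we) ve =
      VE.rec (motive := fun _ => List (ℕ × ℕ)) []
        (fun key' x' t' _ => Bool.rec (motive := fun _ => List (ℕ × ℕ))
          (terms Q t n we (VE.cons key' x' t'))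
          ((fq5 Q cs, mul 24 7 33 t n x' x K) :: terms Q t n we t') (Nat.beq key' key))
        (vdrop key ve) := rfl

/-- the entries of the merged list are reduced -/
theorem terms_good (Q : List (ℕ × ℕ)) (t n : ℕ) (hn : n ≤ 33) (we : WE) : ∀ ve : VE,
    (∀ p ∈ terms Q t n we ve, p.1 < 2 ^ 7 ∧ ∀ m, slot 24 p.2 m < 2 ^ 7) ∧
    (terms Q t n we ve).length ≤ (wkeys we).length := by
  induction we with
  | nil => intro ve; simp [terms_nil]
  | cons key cs K x we ih =>
    intro ve
    rw [terms_cons, wkeys_cons, List.length_cons]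
    cases hd : vdrop key ve with
    | nil => simp
    | cons key' x' t' =>
      simp only
      cases hb : Nat.beq key' key with
      | false =>
        simp only
        obtain ⟨h1, h2⟩ := ih (VE.cons key' x' t')
        exact ⟨h1, by omega⟩
      | true =>
        simp only
        obtain ⟨h1, h2⟩ := ih t'
        refine ⟨?_, by rw [List.length_cons]; omega⟩
        intro p hp
        rcases List.mem_cons.1 hp with rfl | hp
        · exact ⟨(fq5_lt _ _).trans (by norm_num),
            fun m => (good_mul par127 (by norm_num) hn _ _ _ m).1⟩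
        · exact h1 p hp

theorem terms_sum (Q : List (ℕ × ℕ)) (t n : ℕ) (hn : n ≤ 33) (i : Fin t) (j : Fin n) (we : WE)
    (hwe : (wkeys we).Pairwise (fun x y => y < x))
    (hw : AllW (fun _ _ K x => K ≤ 33 ∧ ∀ n, slot 24 x n < 2 ^ 7) we) : ∀ ve : VE,
    (vkeys ve).Pairwise (fun x y => y < x) → AllV (fun _ x => ∀ n, slot 24 x n < 2 ^ 7) ve →
    ((terms Q t n we ve).map (fun p => (p.1 : ZMod 127) * mat 127 24 33 t n p.2 i j)).sum
      = wsum (gv Q ve i j) we := by
  induction we with
  | nil => intro ve _ _; rfl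
  | cons key cs K x we ih =>
    intro ve hve hvx
    rw [wkeys_cons, List.pairwise_cons] at hwe
    rw [allW_cons] at hw
    obtain ⟨d1, d2, d3, d4⟩ := vdrop_spec key ve hve hvx
    rw [terms_cons, wsum_cons]
    have hcongr : ∀ ve' : VE, (∀ k ∈ wkeys we, vk ve' k = vk ve k) →
        wsum (gv Q ve' i j) we = wsum (gv Q ve i j) we := by
      intro ve' h
      refine wsum_congr (P := fun _ _ _ _ => True) (allW_mono hw.2 (fun _ _ _ _ _ => trivial)) ?_
      intro key' cs' K' x' hk _
      unfold gv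
      rw [h key' hk]
    cases hd : vdrop key ve with
    | nil =>
      rw [hd] at d4
      simp only [List.map_nil, List.sum_nil]
      have h1 : gv Q ve i j key cs K x = 0 := by
        unfold gv
        rw [← d4 key le_rfl]
        simp [vk_nil]
      have h2 : wsum (gv Q ve i j) we = 0 := by
        rw [← hcongr VE.nil (fun k hk => d4 k (hwe.1 k hk).le)]
        have h3 : ∀ we' : WE, wsum (gv Q VE.nil i j) we' = 0 := by
          intro we'
          induction we' with
          | nil => rfl
          | cons a b c d e ih2 => rw [wsum_cons, ih2]; unfold gv; simp [vk_nil]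
        exact h3 we
      rw [h1, h2, add_zero]
    | cons key' x' t' =>
      rw [hd] at d1 d2 d3 d4
      rw [vkeys_cons, List.pairwise_cons] at d1
      rw [allV_cons] at d3
      have hk' : key' ≤ key := d2 key' (by rw [vkeys_cons]; exact List.mem_cons_self ..)
      simp only
      cases hb : Nat.beq key' key with
      | false =>
        simp only
        have hne : key' ≠ key := by
          intro h
          rw [h, Nat.beq_refl] at hb
          exact absurd hb (by simp)
        have h1 : gv Q ve i j key cs K x = 0 := by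
          unfold gv
          rw [← d4 key le_rfl, vk_of_not_mem]
          · simp
          · rw [vkeys_cons, List.mem_cons, not_or]
            refine ⟨fun h => hne h.symm, fun h => ?_⟩
            have := d1.1 key h
            omega
        rw [ih hwe.2 hw.2 (VE.cons key' x' t') (by rw [vkeys_cons, List.pairwise_cons]; exact d1)
          (by rw [allV_cons]; exact d3), h1, zero_add,
          hcongr _ (fun k hk => d4 k (hwe.1 k hk).le)]
      | true =>
        simp only
        have he : key' = key := Nat.eq_of_beq_eq_true hb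
        rw [List.map_cons, List.sum_cons, ih hwe.2 hw.2 t' d1.2 d3.2,
          hcongr t' (fun k hk => ?_)]
        · congr 1
          have h1 : vk ve key = x' := by rw [← d4 key le_rfl, vk_cons, if_pos he]
          have hmul : (mat 127 24 33 t n (mul 24 7 33 t n x' x K)) i j
              = (mat 127 24 33 t K x' * mat 127 24 33 K n x) i j := by
            rw [mat_mul par127 (by norm_num) hn (by have := hw.1.1; omega) d3.1 hw.1.2]
          unfold gv
          rw [h1]
          show (fq5 Q cs : ZMod 127) * _ = _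
          rw [hmul, Matrix.mul_apply]
          congr 1
          rw [← Fin.sum_univ_eq_sum_range (fun l =>
            ((slot 24 x' (33 * (i : ℕ) + l) : ℕ) : ZMod 127)
              * ((slot 24 x (33 * l + (j : ℕ)) : ℕ) : ZMod 127))]
          rfl
        · have h1 := hwe.1 k hk
          rw [← d4 k h1.le, vk_cons, if_neg (by omega)]

/-- sums over a finite set = sums over a list of keys -/
theorem sum_keys (S : Finset Sh) (L : List ℕ) (hs : L.Pairwise (fun x y => y < x))
    (hlt : ∀ k ∈ L, k < 68719476736) (f : Sh → ZMod 127) (hmem : ∀ k ∈ L, shp k ∈ S)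
    (h0 : ∀ s ∈ S, (∀ k ∈ L, shp k ≠ s) → f s = 0) :
    ∑ s ∈ S, f s = (L.map (fun k => f (shp k))).sum := by
  classical
  have hnd0 : L.Nodup := hs.imp (fun h => (ne_of_lt h).symm)
  have hnd : (L.map shp).Nodup :=
    hnd0.map_on (fun x hx y hy h => shp_inj' (hlt x hx) (hlt y hy) h)
  have h1 : (L.map (fun k => f (shp k))).sum = ((L.map shp).map f).sum := by
    rw [List.map_map]; rfl
  rw [h1, ← List.sum_toFinset f hnd]
  refine (Finset.sum_subset ?_ ?_).symm
  · intro s hs
    rw [List.mem_toFinset, List.mem_map] at hs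
    obtain ⟨k, hk, rfl⟩ := hs
    exact hmem k hk
  · intro s hs hn
    refine h0 s hs (fun k hk h => hn ?_)
    rw [List.mem_toFinset, List.mem_map]
    exact ⟨k, hk, h⟩

/-- **one block** -/
theorem block_eq {T : Tab (ZMod 127)} {M : Sh → Sh → ℕ → ℕ → ZMod 127} {b : ℕ} {kk kl : ℕ}
    {Q : List (ℕ × ℕ)} (hq : quadChk kk kl 6 Q = true) {w : WT} (hw : WtOk T M b w) {ve : VE}
    (hv : VtOk ve) {t i j : ℕ} (hi : i < t) (hj : j < w.n) :
    ((slot 24 (block (buildQ Q) t w ve) (33 * i + j) : ℕ) : ZMod 127)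
      = img T M 5 b (shp kk) (shp kl) (shp w.key)
        (fun κ' l => ((slot 24 (vx ve κ') (33 * i + l) : ℕ) : ZMod 127)) j := by
  have hw1 : AllW (fun _ _ K x => K ≤ 33 ∧ ∀ n, slot 24 x n < 2 ^ 7) w.ent :=
    allW_mono hw.ent (fun _ _ _ _ h => ⟨h.2.2.2.2.1, h.2.2.2.2.2.1⟩)
  obtain ⟨g1, g2⟩ := terms_good (buildQ Q) t w.n hw.n_le w.ent ve
  have hlen : (terms (buildQ Q) t w.n w.ent ve).length * 2 ^ (2 * 7) ≤ 2 ^ 24 := by
    have := hw.len
    norm_num
    omega
  have h1 := congrFun (congrFun (mat_lin (p := 127) (W := 24) (k := 7) (S := 33) (r := t)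
    (c := w.n) par127 (by norm_num) hw.n_le (terms (buildQ Q) t w.n w.ent ve) g1 hlen) ⟨i, hi⟩)
    ⟨j, hj⟩
  have h2 : ((slot 24 (block (buildQ Q) t w ve) (33 * i + j) : ℕ) : ZMod 127)
      = ((terms (buildQ Q) t w.n w.ent ve).map
        (fun p => (p.1 : ZMod 127) * mat 127 24 33 t w.n p.2 ⟨i, hi⟩ ⟨j, hj⟩)).sum := by
    refine Eq.trans h1 ?_
    generalize terms (buildQ Q) t w.n w.ent ve = L
    induction L with
    | nil => rfl
    | cons p L ih =>
      rw [List.map_cons, List.sum_cons, List.map_cons, List.sum_cons, ← ih]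
      rfl
  rw [h2, terms_sum _ _ _ hw.n_le _ _ _ hw.sorted hw1 ve hv.sorted hv.slots]
  set f : Sh → ZMod 127 := fun κ' => if HS κ' (shp w.key) 5 then
    Fc (ZMod 127) (shp kk) κ' (shp kl) (shp w.key) * ∑ l ∈ Finset.range (T.m 5 b κ'),
      ((slot 24 (vx ve κ') (33 * i + l) : ℕ) : ZMod 127) * M κ' (shp w.key) l j else 0 with hf
  have h3 : wsum (gv (buildQ Q) ve i j) w.ent = wsum (fun key _ _ _ => f (shp key)) w.ent := by
    refine wsum_congr hw.ent ?_
    intro key cs K x _ h
    obtain ⟨a1, a2, a3, a4, _, _, a7⟩ := h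
    rw [hf]
    simp only
    rw [if_pos a2]
    unfold gv
    rw [a3, fq5_sound hq key w.key hw.bd a2]
    congr 1
    rw [a4]
    refine Finset.sum_congr rfl (fun l hl => ?_)
    rw [vk_eq_vx hv.lt a1, a7 l (by rw [a4]; exact Finset.mem_range.1 hl) j hj]
  have hkeys : ∀ k ∈ wkeys w.ent, k < 68719476736 ∧ HS (shp k) (shp w.key) 5 := by
    have := hw.ent
    revert this
    generalize w.ent = we
    intro h k hk
    induction we with
    | nil => simp [wkeys_nil] at hk
    | cons key cs K x we ih =>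
      rw [allW_cons] at h
      rw [wkeys_cons, List.mem_cons] at hk
      rcases hk with rfl | hk
      · exact ⟨h.1.1, h.1.2.1⟩
      · exact ih h.2 hk
  rw [h3, wsum_keys]
  unfold img
  rw [sum_keys (below (shp w.key)) (wkeys w.ent) hw.sorted (fun k hk => (hkeys k hk).1) f]
  · intro k hk
    unfold below
    rw [Fintype.mem_piFinset]
    intro c
    rw [Finset.mem_range]
    have := (hkeys k hk).2.1 c
    omega
  · intro s _ hn
    rw [hf]
    simp only
    split_ifs with h4
    · have h5 : T.m 5 b s = 0 := by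
        by_contra hne
        obtain ⟨k, hk, hk2⟩ := hw.compl s h4 hne
        exact hn k hk hk2
      rw [h5, Finset.sum_range_zero, mul_zero]
    · rfl

/-! ### the checks of one record -/

theorem hsChk_complete {k k' m : ℕ} (h : HS (shp k) (shp k') m) : hsChk k k' m = true := by
  obtain ⟨h1, h2, h3⟩ := h
  rw [sum_shp, sum_shp] at h3
  have g0 : shp k 0 = dg0 k := by rw [shp_vals]; rfl
  have g1 : shp k 1 = dg1 k := by rw [shp_vals]; rfl
  have g2 : shp k 2 = dg2 k := by rw [shp_vals]; rfl
  have g3 : shp k 3 = dg3 k := by rw [shp_vals]; rfl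
  have g4 : shp k 4 = dg4 k := by rw [shp_vals]; rfl
  have g5 : shp k 5 = dg5 k := by rw [shp_vals]; rfl
  have k0 : shp k' 0 = dg0 k' := by rw [shp_vals]; rfl
  have k1 : shp k' 1 = dg1 k' := by rw [shp_vals]; rfl
  have k2 : shp k' 2 = dg2 k' := by rw [shp_vals]; rfl
  have k3 : shp k' 3 = dg3 k' := by rw [shp_vals]; rfl
  have k4 : shp k' 4 = dg4 k' := by rw [shp_vals]; rfl
  have k5 : shp k' 5 = dg5 k' := by rw [shp_vals]; rfl
  have a0 := h1 0
  have a1 := h1 1
  have a2 := h1 2
  have a3 := h1 3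
  have a4 := h1 4
  have a5 := h1 5
  have b1 := h2 0 1 (by decide)
  have b2 := h2 1 2 (by decide)
  have b3 := h2 2 3 (by decide)
  have b4 := h2 3 4 (by decide)
  have b5 := h2 4 5 (by decide)
  rw [g0, k0] at a0
  rw [g1, k1] at a1
  rw [g2, k2] at a2
  rw [g3, k3] at a3
  rw [g4, k4] at a4
  rw [g5, k5] at a5
  rw [g0, k1] at b1
  rw [g1, k2] at b2
  rw [g2, k3] at b3
  rw [g3, k4] at b4
  rw [g4, k5] at b5
  unfold hsChk
  simp only [Bool.and_eq_true, Nat.ble_eq, Nat.beq_eq]
  exact ⟨⟨⟨⟨⟨⟨⟨⟨⟨⟨⟨a0, a1⟩, a2⟩, a3⟩, a4⟩, a5⟩, b1⟩, b2⟩, b3⟩, b4⟩, b5⟩, h3⟩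

theorem cmplChk_sound (lam b1 : ℕ) (ks : List ℕ) : ∀ e : VE, cmplChk lam b1 ks e = true →
    vkeys e = ks.filter (fun k => hsChk k lam b1) := by
  induction ks with
  | nil =>
    intro e h
    cases e with
    | nil => rfl
    | cons key x t => exact absurd h (by simp [cmplChk])
  | cons k ks ih =>
    intro e h
    have h1 : cmplChk lam b1 (k :: ks) e = Bool.rec (motive := fun _ => Bool)
      (cmplChk lam b1 ks e) (VE.rec (motive := fun _ => Bool) false
        (fun key _ tl _ => andB (Nat.beq key k) (cmplChk lam b1 ks tl)) e) (hsChk k lam b1) := rfl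
    rw [h1] at h
    rw [List.filter_cons]
    cases hb : hsChk k lam b1 with
    | false =>
      rw [hb] at h
      rw [if_neg (by simp)]
      exact ih e h
    | true =>
      rw [hb] at h
      rw [if_pos rfl]
      cases e with
      | nil => exact absurd h (by simp)
      | cons key x t =>
        have h2 : andB (Nat.beq key k) (cmplChk lam b1 ks t) = true := h
        rw [andB_eq] at h2
        rw [vkeys_cons, ih t h2.2, Nat.eq_of_beq_eq_true h2.1]

theorem slotsChk_sound (n : ℕ) (ws : List WT) (hws : ∀ w ∈ ws, w.n ≤ 33) : ∀ e : VE,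
    slotsChk n ws e = true →
    vkeys e = ws.map WT.key ∧ AllV (fun _ x => ∀ n, slot 24 x n < 2 ^ 7) e := by
  induction ws with
  | nil =>
    intro e h
    cases e with
    | nil => exact ⟨rfl, trivial⟩
    | cons key x t => exact absurd h (by simp [slotsChk])
  | cons w ws ih =>
    intro e h
    cases e with
    | nil => exact absurd h (by simp [slotsChk])
    | cons key x t =>
      have h1 : slotsChk n (w :: ws) (VE.cons key x t) = andB (Nat.beq (WT.key w) key)
        (andB (goodChk 24 7 33 n (WT.n w) x) (slotsChk n ws t)) := rfl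
      rw [h1, andB_eq, andB_eq] at h
      obtain ⟨h2, h3, h4⟩ := h
      obtain ⟨h5, h6⟩ := ih (fun w' hw' => hws w' (List.mem_cons_of_mem _ hw')) t h4
      have h7 := good_of_chk (by norm_num) (by norm_num) (hws w (List.mem_cons_self ..)) h3
      refine ⟨?_, ?_⟩
      · rw [vkeys_cons, List.map_cons, h5, Nat.eq_of_beq_eq_true h2]
      · rw [allV_cons]; exact ⟨fun m => (h7 m).1, h6⟩

theorem blocks_sound (Q : List (ℕ × ℕ)) (t o : ℕ) (ve : VE) (ws : List WT) : ∀ e : VE,
    blocks Q t o ve ws e = true → vkeys e = ws.map WT.key → (vkeys e).Nodup →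
    ∀ w ∈ ws, eqM 24 7 33 t w.n (Kern.sub 24 33 o 0 (vk e w.key)) (block Q t w ve) = true := by
  induction ws with
  | nil => intro e _ _ _ w hw; simp at hw
  | cons w ws ih =>
    intro e h hk hn w' hw'
    cases e with
    | nil => rw [vkeys_nil, List.map_cons] at hk; exact absurd hk (by simp)
    | cons key x tl =>
      have h1 : blocks Q t o ve (w :: ws) (VE.cons key x tl) =
        andB (eqM 24 7 33 t (WT.n w) (Kern.sub 24 33 o 0 x) (block Q t w ve))
          (blocks Q t o ve ws tl) := rfl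
      rw [h1, andB_eq] at h
      rw [vkeys_cons, List.map_cons] at hk
      rw [List.cons.injEq] at hk
      rw [vkeys_cons, List.nodup_cons] at hn
      rcases List.mem_cons.1 hw' with rfl | hw2
      · rw [vk_cons, if_pos hk.1]; exact h.1
      · rw [vk_cons, if_neg]
        · exact ih tl h.2 hk.2 hn.2 w' hw2
        · intro h2
          apply hn.1
          rw [hk.2, h2]
          exact List.mem_map_of_mem hw2

/-- entries of the output table -/
theorem row_eq {T : Tab (ZMod 127)} {M : Sh → Sh → ℕ → ℕ → ZMod 127} {b : ℕ} {kk kl : ℕ}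
    {Q : List (ℕ × ℕ)} (hq : quadChk kk kl 6 Q = true) {w : WT} (hw : WtOk T M b w) {ve : VE}
    (hv : VtOk ve) {t o x : ℕ} (hx : ∀ n, slot 24 x n < 2 ^ 7)
    (h : eqM 24 7 33 t w.n (Kern.sub 24 33 o 0 x) (block (buildQ Q) t w ve) = true)
    {i j : ℕ} (hi : i < t) (hj : j < w.n) :
    ((slot 24 x (33 * (o + i) + j) : ℕ) : ZMod 127)
      = img T M 5 b (shp kk) (shp kl) (shp w.key)
        (fun κ' l => ((slot 24 (vx ve κ') (33 * i + l) : ℕ) : ZMod 127)) j := by
  have h1 := mat_eqM (p := 127) par127 (by norm_num) hw.n_le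
    (fun n => by rw [slot_sub']; exact hx _)
    (good_lin (p := 127) par127 (by norm_num) hw.n_le (terms (buildQ Q) t w.n w.ent ve)) h
  have h2 := congrFun (congrFun h1 ⟨i, hi⟩) ⟨j, hj⟩
  rw [mat_sub] at h2
  rw [← block_eq hq hw hv hi hj]
  refine Eq.trans ?_ h2
  show _ = ((slot 24 x (33 * (o + i) + (0 + j)) : ℕ) : ZMod 127)
  rw [zero_add]

/-- all sources -/
theorem srcs_sound {T : Tab (ZMod 127)} {M : Sh → Sh → ℕ → ℕ → ZMod 127} {b : ℕ}
    (hM : RelAll T M 5 b) {ks : List ℕ} (hks : KsOk T (b + 1) ks) {lam n : ℕ} {ent : VE}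
    {ws : List WT} (hws : ∀ w ∈ ws, WtOk T M b w) (hent : VtOk ent)
    (hk1 : vkeys ent = ks.filter (fun k => hsChk k lam (b + 1)))
    (hk2 : vkeys ent = ws.map WT.key) (src : List FSrc) (hsrc : ∀ s ∈ src, Has6 T b s.tab) :
    ∀ o, srcsChk lam n ent ws src o = true → ∀ r, o ≤ r → r < n →
    ∃ x : List Sh → ZMod 127, x ∈ Spec.D (ZMod 127) 6 (b + 1) (shp lam) ∧
      Coord T 5 (b + 1) (fun κ' l => ((slot 24 (vx ent κ') (33 * r + l) : ℕ) : ZMod 127)) x := by
  have hnd : (vkeys ent).Nodup := hent.sorted.imp (fun h => (ne_of_lt h).symm)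
  induction src with
  | nil =>
    intro o h r h1 h2
    have h3 : o = n := Nat.eq_of_beq_eq_true h
    omega
  | cons s src ih =>
    intro o h r h1 h2
    have h3 : srcsChk lam n ent ws (s :: src) o
      = andB (srcChk lam ent ws s o) (srcsChk lam n ent ws src (Nat.add o (FSrc.t s))) := rfl
    rw [h3, andB_eq] at h
    obtain ⟨h4, h5⟩ := h
    by_cases hr : o + s.t ≤ r
    · exact ih (fun s' hs' => hsrc s' (List.mem_cons_of_mem _ hs')) _ h5 r hr h2
    · unfold srcChk at h4
      rw [andB_eq, andB_eq, buildF_eq, Nat.ble_eq] at h4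
      obtain ⟨h6, h7, h8⟩ := h4
      obtain ⟨hv, x, hx⟩ := hsrc s (List.mem_cons_self ..)
      obtain ⟨hx1, hx2⟩ := hx (r - o) (by omega)
      have h9 := blocks_sound _ _ _ _ _ _ h8 hk2 hnd
      have hHS : HS (shp s.tab.key) (shp lam) 6 := by
        unfold quadChk at h6
        rw [andB_eq, andB_eq] at h6
        exact hsChk_sound h6.2.1
      refine ⟨Mop (ZMod 127) (b + 1) 6 (shp s.tab.key) (shp lam) (x (r - o)),
        Submodule.subset_span ⟨_, hHS, _, hx1, rfl⟩, ?_⟩
      refine coord_mop hM hx2 (shp s.tab.key) (shp lam) (fun lam' hl j hj => ?_)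
        (fun lam' hl j hj => ?_)
      · obtain ⟨k, hk, hk'⟩ := hks.compl lam' (by omega)
        have hmem : k ∈ vkeys ent := by
          rw [hk1, List.mem_filter]
          exact ⟨hk, hsChk_complete (by rw [hk']; exact hl)⟩
        have hmem2 := hmem
        rw [hk2, List.mem_map] at hmem2
        obtain ⟨w, hw, hwk⟩ := hmem2
        have hw' := hws w hw
        have hvk := vk_eq_vx hent.lt (hks.lt k hk)
        rw [hk'] at hvk
        have hj' : j < w.n := by rw [hw'.n_eq, hwk, hk']; exact hj
        have h10 := row_eq h6 hw' hv (fun n => vk_slots hent.slots w.key n) (h9 w hw)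
          (show r - o < s.t by omega) hj'
        rw [hwk, hk'] at h10
        rw [hvk, ← h10]
        congr 3
        omega
      · rw [vx_of_not, slot_zero, Nat.cast_zero]
        intro k hk hk'
        rw [hk1, List.mem_filter] at hk
        exact hl (hk' ▸ hsChk_sound hk.2)

/-- **soundness of the forward step** -/
theorem fwd_sound {T : Tab (ZMod 127)} {M : Sh → Sh → ℕ → ℕ → ZMod 127} {b : ℕ}
    (hM : RelAll T M 5 b) {ks : List ℕ} (hks : KsOk T (b + 1) ks) {f : Fwd}
    (hws : ∀ w ∈ f.ws, WtOk T M b w) (hsrc : ∀ s ∈ f.src, Has6 T b s.tab)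
    (h : fwdChk (b + 1) ks f = true) : Has6 T (b + 1) f.out := by
  unfold fwdChk at h
  rw [andB_eq, andB_eq] at h
  obtain ⟨h1, h2, h3⟩ := h
  have hk1 := cmplChk_sound _ _ _ _ h1
  obtain ⟨hk2, hsl⟩ := slotsChk_sound _ _ (fun w hw => (hws w hw).n_le) _ h2
  have hV : VtOk f.out.ent := by
    refine ⟨?_, ?_, hsl⟩
    · rw [hk1]; exact hks.sorted.filter _
    · intro k hk
      rw [hk1, List.mem_filter] at hk
      exact hks.lt k hk.1
  refine ⟨hV, ?_⟩
  have h4 := srcs_sound hM hks hws hV hk1 hk2 f.src hsrc 0 h3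
  choose! x hx using fun r (hr : r < f.out.n) => h4 r (Nat.zero_le _) hr
  exact ⟨x, fun r hr => hx r hr⟩

end Crest.Agent.R187.SN.Fwd
end

-- ▼ part R187/SN/FwdKs

/-!
# Row 187, PLAN S, block E3: index lists, base case, bridge to `HasV`
-/

set_option autoImplicit false

namespace Crest.Agent.R187.SN.Fwd

open Crest.Agent.R187.SN Crest.Agent.R187.SN.Spec Crest.Agent.R187.SN.Img
open Crest.Agent.R187.SN.Top Crest.Agent.R187.SN.Kern

/-! ### index lists -/

/-- base 64 keys `ks` (strictly decreasing, first `< B`) of the index list `L` (base 128 keys) -/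
noncomputable def ksChk (ks : List ℕ) : ℕ → List KD.IE → Bool :=
  List.rec (motive := fun _ => ℕ → List KD.IE → Bool)
    (fun _ L => List.rec (motive := fun _ => Bool) true (fun _ _ _ => false) L)
    (fun k _ ih B L => andB (Nat.ble (Nat.succ k) B) (List.rec (motive := fun _ => Bool) false
      (fun e L' _ => andB (Nat.beq (WChk.cv k) (KD.IE.key e)) (ih k L')) L)) ks

theorem ksChk_sound (ks : List ℕ) : ∀ (B : ℕ) (L : List KD.IE), ksChk ks B L = true →
    ks.Pairwise (fun x y => y < x) ∧ (∀ k ∈ ks, k < B) ∧ ks.map WChk.cv = L.map KD.IE.key := by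
  induction ks with
  | nil =>
    intro B L h
    cases L with
    | nil => simp
    | cons e L => exact absurd h (by simp [ksChk])
  | cons k ks ih =>
    intro B L h
    cases L with
    | nil =>
      have h1 : ksChk (k :: ks) B [] = andB (Nat.ble (Nat.succ k) B) false := rfl
      rw [h1, andB_eq] at h
      exact absurd h.2 (by simp)
    | cons e L =>
      have h1 : ksChk (k :: ks) B (e :: L) = andB (Nat.ble (Nat.succ k) B)
        (andB (Nat.beq (WChk.cv k) (KD.IE.key e)) (ksChk ks k L)) := rfl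
      rw [h1, andB_eq, andB_eq, Nat.ble_eq] at h
      obtain ⟨h2, h3, h4⟩ := h
      obtain ⟨h5, h6, h7⟩ := ih k L h4
      refine ⟨List.pairwise_cons.2 ⟨h6, h5⟩, ?_, ?_⟩
      · intro k' hk'
        rcases List.mem_cons.1 hk' with rfl | h8
        · exact h2
        · exact (h6 k' h8).trans h2
      · rw [List.map_cons, List.map_cons, h7, Nat.eq_of_beq_eq_true h3]

theorem ksOk_of_chk {T : Tab (ZMod 127)} {b s tot : ℕ} {ks : List ℕ} {L : List KD.IE}
    (hL : KRel.IxOK s tot L) (hT : ∀ lam, T.m 5 b lam = KRel.mOf L lam)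
    (h : ksChk ks 68719476736 L = true) : KsOk T b ks := by
  obtain ⟨h1, h2, h3⟩ := ksChk_sound ks _ L h
  refine ⟨h1, h2, fun κ' hκ => ?_⟩
  rw [hT] at hκ
  obtain ⟨h4, h5, _⟩ := hL.look_pos hκ
  have h6 : (KRel.look L (KRel.kyo κ')).key ∈ ks.map WChk.cv := by
    rw [h3]; exact List.mem_map_of_mem h4
  rw [List.mem_map] at h6
  obtain ⟨k, hk, hk2⟩ := h6
  exact ⟨k, hk, by rw [← WChk.sh7_cv, hk2, h5]⟩

/-! ### base case -/

theorem shp_zero : shp 0 = 0 := by
  funext i
  simp [shp]

theorem vec_zero {T : Tab (ZMod 127)} (h0 : ∀ a ≤ 5, ∀ lam, T.m a 0 lam = if lam = 0 then 1 else 0)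
    (hV : ∀ a < 5, T.V (a + 1) 0 0 0 0 0 = 1) : ∀ a ≤ 5, vec T 0 a 0 0 = x0 (ZMod 127) a := by
  intro a
  induction a with
  | zero =>
    intro _
    funext l
    simp [vec, x0]
  | succ a ih =>
    intro ha
    have ih' := ih (by omega)
    funext l
    cases l with
    | nil => simp [vec, x0]
    | cons lam' l' =>
      rw [vec_cons, h0 a (by omega)]
      by_cases h : lam' = 0
      · subst h
        rw [if_pos rfl, Finset.sum_range_one, hV a (by omega), one_mul, ih']
        unfold x0
        rw [List.replicate_succ]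
        simp
      · rw [if_neg h, Finset.sum_range_zero]
        unfold x0
        rw [if_neg]
        rw [List.replicate_succ]
        intro h2
        rw [List.cons.injEq] at h2
        exact h h2.1

/-- the table of level `(6, 0)` -/
theorem has6_zero {T : Tab (ZMod 127)}
    (h0 : ∀ a ≤ 5, ∀ lam, T.m a 0 lam = if lam = 0 then 1 else 0)
    (hV : ∀ a < 5, T.V (a + 1) 0 0 0 0 0 = 1) :
    Has6 T 0 ⟨0, 1, VE.cons 0 1 VE.nil⟩ := by
  have hs : ∀ n, slot 24 1 n < 2 ^ 7 := by
    intro n
    rcases Nat.eq_zero_or_pos n with rfl | hn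
    · rw [slot_def]; norm_num
    · rw [slot_zero_of_lt]
      · norm_num
      · calc 1 < 2 ^ 24 := by norm_num
          _ ≤ 2 ^ (24 * n) := Nat.pow_le_pow_right (by norm_num) (by omega)
  refine ⟨⟨?_, ?_, ⟨hs, trivial⟩⟩, fun _ => x0 (ZMod 127) 6, ?_⟩
  · simp [vkeys]
  · simp [vkeys]
  · intro r hr
    have hr0 : r = 0 := by
      have h1 : r < 1 := hr
      omega
    subst hr0
    refine ⟨?_, ?_, ?_⟩
    · show x0 (ZMod 127) 6 ∈ Spec.D (ZMod 127) 6 0 (shp 0)
      rw [shp_zero]
      unfold Spec.D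
      rw [if_pos rfl]
      exact Submodule.mem_span_singleton_self _
    · simp [x0]
    · intro κ' l'
      rw [h0 5 le_rfl]
      by_cases h : κ' = 0
      · subst h
        rw [if_pos rfl, Finset.sum_range_one, vec_zero h0 hV 5 le_rfl]
        have h1 : vx (VE.cons 0 1 VE.nil) 0 = 1 := by rw [vx_cons, shp_zero, if_pos rfl]
        show _ = ((slot 24 (vx (VE.cons 0 1 VE.nil) 0) (33 * 0 + 0) : ℕ) : ZMod 127) * _
        rw [h1]
        have h2 : slot 24 1 (33 * 0 + 0) = 1 := by rw [slot_def]; norm_num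
        rw [h2, Nat.cast_one, one_mul]
        unfold x0
        rw [List.replicate_succ]
        simp
      · rw [if_neg h, Finset.sum_range_zero]
        show (if (κ' :: l') = List.replicate 6 0 then (1 : ZMod 127) else 0) = 0
        rw [if_neg]
        rw [List.replicate_succ]
        intro h2
        rw [List.cons.injEq] at h2
        exact h h2.1

/-! ### bridge to helper395's predicate -/



end Crest.Agent.R187.SN.Fwd
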