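import Crest.Agent.R187.SN.Img
import Crest.Agent.R187.SN.Gen
import Crest.Agent.R187.SN.KKey

-- ▼ part R187/SN/Star
section

/-!
# Row 187, PLAN S, block E2: relations from the linear identity (*)

`relAll_star`: if for every source `κ`, every target `λ` and every `λ'` the claimed coordinates
`C μ = ∑ q, N κ μ i q * V μ λ' q j` satisfy the identity (*)
`∑_{μ ≤ λ off row 0} psi λ κ μ * C μ = - ∑_{κ'} pc λ κ' λ' * (X M)`, then `C = img`, hence the
relations of level `a + 1` hold.
-/

set_option autoImplicit false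

namespace Crest.Agent.R187.SN.Img

open Crest.Agent.R187.SN Crest.Agent.R187.SN.Spec Crest.Agent.R187.SN.Gen

variable {K : Type*} [Field K]

/-- `μ` is a horizontal strip over `κ` with `μ i ≤ λ i` for `i ≥ 1` -/
def InBox (κ lam μ : Sh) (n : ℕ) : Prop := HS κ μ n ∧ ∀ i : Fin 6, i ≠ 0 → μ i ≤ lam i

instance (κ lam μ : Sh) (n : ℕ) : Decidable (InBox κ lam μ n) := by
  unfold InBox; infer_instance

lemma sum_erase_lt {κ lam μ : Sh} {n : ℕ} (hlam : HS κ lam n) (hμ : InBox κ lam μ n)
    (hne : μ ≠ lam) :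
    ∑ j ∈ Finset.univ.erase (0 : Fin 6), μ j < ∑ j ∈ Finset.univ.erase (0 : Fin 6), lam j := by
  apply Finset.sum_lt_sum (fun j hj => hμ.2 j (Finset.ne_of_mem_erase hj))
  by_contra hcon
  push Not at hcon
  have h6 : ∀ j ∈ Finset.univ.erase (0 : Fin 6), μ j = lam j := fun j hj =>
    le_antisymm (hμ.2 j (Finset.ne_of_mem_erase hj)) (hcon j hj)
  have h7 : ∑ j, μ j = ∑ j, lam j := by rw [hμ.1.2.2, hlam.2.2]
  have h8 : μ 0 + ∑ j ∈ Finset.univ.erase (0 : Fin 6), μ j = ∑ j, μ j :=
    Finset.add_sum_erase Finset.univ μ (Finset.mem_univ (0 : Fin 6))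
  have h9 : lam 0 + ∑ j ∈ Finset.univ.erase (0 : Fin 6), lam j = ∑ j, lam j :=
    Finset.add_sum_erase Finset.univ lam (Finset.mem_univ (0 : Fin 6))
  have h10 : ∑ j ∈ Finset.univ.erase (0 : Fin 6), μ j
      = ∑ j ∈ Finset.univ.erase (0 : Fin 6), lam j := Finset.sum_congr rfl h6
  apply hne
  funext j
  by_cases hj : j = 0
  · subst hj; omega
  · exact h6 j (by simp [hj])

/-- row `0` of a strip in the box is at least `λ 0` -/
lemma box_zero_ge {κ lam μ : Sh} {n : ℕ} (hlam : HS κ lam n) (hμ : InBox κ lam μ n) :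
    lam 0 ≤ μ 0 := by
  have h7 : ∑ j, μ j = ∑ j, lam j := by rw [hμ.1.2.2, hlam.2.2]
  have h8 : μ 0 + ∑ j ∈ Finset.univ.erase (0 : Fin 6), μ j = ∑ j, μ j :=
    Finset.add_sum_erase Finset.univ μ (Finset.mem_univ (0 : Fin 6))
  have h9 : lam 0 + ∑ j ∈ Finset.univ.erase (0 : Fin 6), lam j = ∑ j, lam j :=
    Finset.add_sum_erase Finset.univ lam (Finset.mem_univ (0 : Fin 6))
  have h10 : ∑ j ∈ Finset.univ.erase (0 : Fin 6), μ j
      ≤ ∑ j ∈ Finset.univ.erase (0 : Fin 6), lam j :=
    Finset.sum_le_sum (fun j hj => hμ.2 j (Finset.ne_of_mem_erase hj))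
  omega

/-- in the box, `λ' / μ`-interlacing can only fail through `μ i < λ' i` -/
lemma HS_of_box {κ lam lam' μ : Sh} {n m : ℕ} (hlam : HS κ lam n) (hlam' : HS lam' lam m)
    (hμ : InBox κ lam μ n) (h : ∀ i : Fin 6, i ≠ 0 → lam' i ≤ μ i) : HS lam' μ m := by
  refine ⟨fun i => ?_, fun i j hij => ?_, ?_⟩
  · by_cases hi : i = 0
    · subst hi; exact (hlam'.1 0).trans (box_zero_ge hlam hμ)
    · exact h i hi
  · have hj : j ≠ 0 := by
      intro h; subst h; exact absurd hij (Fin.not_lt_zero i)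
    exact (hμ.2 j hj).trans (hlam'.2.1 i j hij)
  · rw [hμ.1.2.2, ← hlam.2.2, hlam'.2.2]

/-- the identity (*) determines the images -/
theorem img_eq_of_star {T : Tab K} {M : Sh → Sh → ℕ → ℕ → K} {a b B : ℕ}
    (hK : ∀ m : ℕ, 0 < m → m ≤ B → (m : K) ≠ 0) {κ lam' : Sh} (hκ : Antitone κ)
    (hB : ∀ i, κ i + a + 6 ≤ B) (X : Sh → ℕ → K)
    (hX : ∀ κ', (∃ l < T.m a b κ', X κ' l ≠ 0) → κ' ≤ κ) (j : ℕ) (C : Sh → K)
    (hC : ∀ μ, ¬ HS lam' μ (b + 1) → C μ = 0)
    (h : ∀ lam, HS κ lam (a + 1) → HS lam' lam (b + 1) →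
      ∑ μ ∈ bx κ (a + 1), (if InBox κ lam μ (a + 1) then psi K lam κ μ * C μ else 0)
        = - ∑ κ' ∈ below lam', if HS κ' lam' a then pc K lam κ' lam' *
            ∑ l ∈ Finset.range (T.m a b κ'), X κ' l * M κ' lam' l j else 0) :
    ∀ (n : ℕ) (lam : Sh), ∑ i ∈ Finset.univ.erase (0 : Fin 6), lam i = n →
      HS κ lam (a + 1) → HS lam' lam (b + 1) → img T M a b κ lam lam' X j = C lam := by
  intro n
  induction n using Nat.strong_induction_on with
  | _ n ih =>
    intro lam hn hlam hlam'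
    -- the star identity for `img`
    have h1 : ∑ μ ∈ bx κ (a + 1), psi K lam κ μ * img T M a b κ μ lam' X j
        = - ∑ κ' ∈ below lam', if HS κ' lam' a then pc K lam κ' lam' *
            ∑ l ∈ Finset.range (T.m a b κ'), X κ' l * M κ' lam' l j else 0 := by
      have e1 : ∀ μ ∈ bx κ (a + 1), psi K lam κ μ * img T M a b κ μ lam' X j
          = ∑ κ' ∈ below lam', if HS κ' lam' a then (Fc K κ κ' μ lam' * psi K lam κ μ) *
            ∑ l ∈ Finset.range (T.m a b κ'), X κ' l * M κ' lam' l j else 0 := by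
        intro μ _
        rw [img, Finset.mul_sum]
        refine Finset.sum_congr rfl (fun κ' _ => ?_)
        split_ifs
        · rw [← mul_assoc, mul_comm (psi K lam κ μ)]
        · rw [mul_zero]
      rw [Finset.sum_congr rfl e1, Finset.sum_comm, ← Finset.sum_neg_distrib]
      refine Finset.sum_congr rfl (fun κ' _ => ?_)
      by_cases h2 : HS κ' lam' a
      · simp only [if_pos h2]
        rw [← Finset.sum_mul, star_F hK hκ hlam hB h2 (bx κ (a + 1))
          (fun μ h3 h4 => mem_bx h3 h4), neg_mul]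
      · simp only [if_neg h2]
        rw [Finset.sum_const_zero, neg_zero]
    -- compare term by term
    have h2 : ∀ μ ∈ bx κ (a + 1), μ ≠ lam →
        psi K lam κ μ * img T M a b κ μ lam' X j
          = if InBox κ lam μ (a + 1) then psi K lam κ μ * C μ else 0 := by
      intro μ _ hne
      by_cases hb : InBox κ lam μ (a + 1)
      · rw [if_pos hb]
        suffices hs : img T M a b κ μ lam' X j = C μ by rw [hs]
        by_cases h3 : HS lam' μ (b + 1)
        · exact ih _ (by rw [← hn]; exact sum_erase_lt hlam hb hne) μ rfl hb.1 h3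
        · rw [hC μ h3]
          have h4 : ∃ i : Fin 6, i ≠ 0 ∧ μ i < lam' i := by
            by_contra hcon
            push Not at hcon
            exact h3 (HS_of_box hlam hlam' hb hcon)
          obtain ⟨i, hi0, hi⟩ := h4
          rw [img]
          refine Finset.sum_eq_zero (fun κ' _ => ?_)
          split_ifs with h5
          · by_cases h6 : κ' ≤ κ
            · rw [Fc_vanish hK hκ hB h5 h6 i hi0 _ μ rfl hb.1 hi, zero_mul]
            · have h7 : ∑ l ∈ Finset.range (T.m a b κ'), X κ' l * M κ' lam' l j = 0 := by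
                refine Finset.sum_eq_zero (fun l hl => ?_)
                by_cases h8 : X κ' l = 0
                · rw [h8, zero_mul]
                · exact absurd (hX κ' ⟨l, Finset.mem_range.1 hl, h8⟩) h6
              rw [h7, mul_zero]
          · rfl
      · rw [if_neg hb]
        by_cases hp : psi K lam κ μ = 0
        · rw [hp, zero_mul]
        · have h3 : img T M a b κ μ lam' X j = 0 := by
            rw [img]
            refine Finset.sum_eq_zero (fun κ' _ => ?_)
            split_ifs with h5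
            · by_cases hF : Fc K κ κ' μ lam' = 0
              · rw [hF, zero_mul]
              · exfalso
                obtain ⟨h6, h7⟩ := Fc_supp h5 hF
                apply hb
                have h8 : ∀ i, i ≠ 0 → μ i ≤ lam i := fun i hi => psi_ne_zero_le hlam.1 hp hi
                exact ⟨HS_of hlam h6 h7 h8, h8⟩
            · rfl
          rw [h3, mul_zero]
    have hmem : lam ∈ bx κ (a + 1) := mem_bx hlam.1 hlam.2.2
    have hbox : InBox κ lam lam (a + 1) := ⟨hlam, fun _ _ => le_rfl⟩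
    have h3 := h lam hlam hlam'
    rw [← h1, ← Finset.add_sum_erase _ _ hmem, ← Finset.add_sum_erase _ _ hmem,
      if_pos hbox] at h3
    have h4 : ∑ μ ∈ (bx κ (a + 1)).erase lam,
          (if InBox κ lam μ (a + 1) then psi K lam κ μ * C μ else 0)
        = ∑ μ ∈ (bx κ (a + 1)).erase lam, psi K lam κ μ * img T M a b κ μ lam' X j :=
      Finset.sum_congr rfl (fun μ hμ => (h2 μ (Finset.mem_of_mem_erase hμ)
        (Finset.ne_of_mem_erase hμ)).symm)
    rw [h4] at h3
    have h5 : psi K lam κ lam * C lam = psi K lam κ lam * img T M a b κ lam lam' X j :=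
      add_right_cancel h3
    exact (mul_left_cancel₀ (psi_ne_zero hK hκ hlam (fun i => by have := hB i; omega)) h5).symm

/-- relations from (*) -/
theorem relAll_star {T : Tab K} {M N : Sh → Sh → ℕ → ℕ → K} {a b B : ℕ}
    (hK : ∀ m : ℕ, 0 < m → m ≤ B → (m : K) ≠ 0) (hM : RelAll T M a b)
    (hV : VSupp T a (b + 1)) (hV' : VSupp T a b)
    (hκ : ∀ κ, 0 < T.m (a + 1) b κ → Antitone κ ∧ ∀ i, κ i + a + 6 ≤ B)
    (h : ∀ κ, 0 < T.m (a + 1) b κ → ∀ lam, HS κ lam (a + 1) → ∀ lam', HS lam' lam (b + 1) →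
      ∀ i < T.m (a + 1) b κ, ∀ j < T.m a (b + 1) lam',
      ∑ μ ∈ bx κ (a + 1), (if InBox κ lam μ (a + 1) then psi K lam κ μ *
          ∑ q ∈ Finset.range (T.m (a + 1) (b + 1) μ),
            N κ μ i q * T.V (a + 1) (b + 1) μ lam' q j else 0)
        = - ∑ κ' ∈ below lam', if HS κ' lam' a then pc K lam κ' lam' *
            ∑ l ∈ Finset.range (T.m a b κ'), T.V (a + 1) b κ κ' i l * M κ' lam' l j else 0) :
    RelAll T N (a + 1) b := by
  refine relAll_succ hM hV (fun κ lam hlam lam' hlam' i hi j hj => ?_)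
  have hpos : 0 < T.m (a + 1) b κ := lt_of_le_of_lt (Nat.zero_le _) hi
  obtain ⟨h1, h2⟩ := hκ κ hpos
  refine img_eq_of_star hK h1 h2 (fun κ' l => T.V (a + 1) b κ κ' i l) (fun κ' hk => ?_) j
    (fun μ => ∑ q ∈ Finset.range (T.m (a + 1) (b + 1) μ),
            N κ μ i q * T.V (a + 1) (b + 1) μ lam' q j) (fun μ hμ => ?_)
    (fun l hl hl' => h κ hpos l hl lam' hl' i hi j hj) _ lam rfl hlam hlam'
  · obtain ⟨l, hl, hne⟩ := hk
    by_contra hcon
    exact hne (hV' κ κ' (fun hs => hcon hs.1) i hi l hl)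
  · refine Finset.sum_eq_zero (fun q hq => ?_)
    rw [hV μ lam' hμ q (Finset.mem_range.1 hq) j hj, mul_zero]

end Crest.Agent.R187.SN.Img
end

-- ▼ part R187/SN/KCont

/-!
# Row 187, PLAN S, block E2: the scalars `pc`, `psi` on keys, `p = 127`

`gt l` : table (48 slots of 8 bits) of the values `G_λ(y - 5)`, `0 ≤ y < 48`.
`cl k m` : list of `content + 5` of the boxes of `μ / κ`.
`pcL g L` : product of the table values mod `127`.
-/

set_option autoImplicit false

namespace Crest.Agent.R187.SN.KKey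

open Crest.Agent.R187.SN Crest.Agent.R187.SN.Spec Crest.Agent.R187.SN.Kern
open Crest.Agent.R187.SN.Gen Polynomial

instance fact127 : Fact (Nat.Prime 127) := ⟨by norm_num⟩

/-- one factor `y + 127 - (λ_r + r)` -/
def gf (l y r : ℕ) : ℕ := Nat.sub (Nat.add y 127) (Nat.add (slot 7 l r) r)

/-- `G_λ(y - 5) mod 127` -/
def gv (l y : ℕ) : ℕ :=
  Nat.mod (Nat.mul (Nat.mul (Nat.mul (Nat.mul (gf l y 0) (gf l y 1)) (gf l y 2)) (gf l y 3))
    (gf l y 4)) 127

/-- the table of `G_λ` -/
def gt (l : ℕ) : ℕ :=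
  Nat.rec 0 (fun y ih => Nat.add (Nat.shiftLeft (gv l y) (Nat.mul 8 y)) ih) 48

theorem gt_aux (l : ℕ) : ∀ n : ℕ,
    (Nat.rec 0 (fun y ih => Nat.add (Nat.shiftLeft (gv l y) (Nat.mul 8 y)) ih) n : ℕ)
      = (∑ y ∈ Finset.range n, monomial y (gv l y) : ℕ[X]).eval (2 ^ 8) := by
  intro n
  induction n with
  | zero => simp
  | succ n ih =>
    have h : ∀ (u : ℕ), Nat.add (Nat.shiftLeft (gv l n) (Nat.mul 8 n)) u
        = u + gv l n * (2 ^ 8) ^ n := by
      intro u
      show gv l n <<< (8 * n) + u = _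
      rw [Nat.shiftLeft_eq, pow_mul, add_comm]
    rw [Finset.sum_range_succ, eval_add, eval_monomial, ← ih]
    exact h _

theorem slot_gt (l : ℕ) {y : ℕ} (hy : y < 48) : slot 8 (gt l) y = gv l y := by
  have hc : ∀ j, (∑ y ∈ Finset.range 48, monomial y (gv l y) : ℕ[X]).coeff j
      = if j < 48 then gv l j else 0 := by
    intro j
    rw [finsetSum_coeff]
    simp only [coeff_monomial]
    rw [Finset.sum_ite_eq']
    simp only [Finset.mem_range]
  unfold gt
  rw [gt_aux, slot_eval, hc, if_pos hy]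
  intro j
  rw [hc]
  split_ifs
  · exact (Nat.mod_lt _ (by norm_num)).trans (by norm_num)
  · norm_num

theorem cast_gf {l : ℕ} (hl : Val l) (y r : ℕ) (hr : r ≤ 4) :
    ((gf l y r : ℕ) : ZMod 127) = ((y : ℤ) - (slot 7 l r + r : ℕ) : ℤ) := by
  have h1 := hl.slot_lt r
  show ((y + 127 - (slot 7 l r + r) : ℕ) : ZMod 127) = _
  rw [Nat.cast_sub (by omega), Nat.cast_add]
  have : ((127 : ℕ) : ZMod 127) = 0 := ZMod.natCast_self 127
  rw [this]
  push_cast
  ring

theorem cast_gv {l : ℕ} (hl : Val l) (y : ℕ) :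
    ((gv l y : ℕ) : ZMod 127) = Gen.ge (ZMod 127) (sh7 l) ((y : ℤ) - 5) := by
  unfold gv
  rw [show ∀ u : ℕ, ((Nat.mod u 127 : ℕ) : ZMod 127) = (u : ZMod 127) from
    fun u => ZMod.natCast_mod u 127]
  show ((gf l y 0 * gf l y 1 * gf l y 2 * gf l y 3 * gf l y 4 : ℕ) : ZMod 127) = _
  rw [Nat.cast_mul, Nat.cast_mul, Nat.cast_mul, Nat.cast_mul, cast_gf hl y 0 (by norm_num),
    cast_gf hl y 1 (by norm_num), cast_gf hl y 2 (by norm_num), cast_gf hl y 3 (by norm_num),
    cast_gf hl y 4 (by norm_num)]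
  unfold Gen.ge
  have he : (Finset.univ.erase (0 : Fin 6)) = {1, 2, 3, 4, 5} := by decide
  rw [he]
  have c1 : ((y : ℤ) - 5 - ct (sh7 l) 1) = (y : ℤ) - (slot 7 l 4 + 4 : ℕ) := by
    unfold ct; show _ = _; simp [sh7]; ring
  have c2 : ((y : ℤ) - 5 - ct (sh7 l) 2) = (y : ℤ) - (slot 7 l 3 + 3 : ℕ) := by
    unfold ct; show _ = _; simp [sh7]; ring
  have c3 : ((y : ℤ) - 5 - ct (sh7 l) 3) = (y : ℤ) - (slot 7 l 2 + 2 : ℕ) := by
    unfold ct; show _ = _; simp [sh7]; ring
  have c4 : ((y : ℤ) - 5 - ct (sh7 l) 4) = (y : ℤ) - (slot 7 l 1 + 1 : ℕ) := by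
    unfold ct; show _ = _; simp [sh7]; ring
  have c5 : ((y : ℤ) - 5 - ct (sh7 l) 5) = (y : ℤ) - (slot 7 l 0 + 0 : ℕ) := by
    unfold ct; show _ = _; simp [sh7]
  rw [Finset.prod_insert (by decide), Finset.prod_insert (by decide),
    Finset.prod_insert (by decide), Finset.prod_insert (by decide), Finset.prod_singleton,
    c1, c2, c3, c4, c5]
  ring

/-! ### lists of contents -/

/-- `start, …, start + n - 1` in front of `tail` -/
def clRow (start n : ℕ) (tail : List ℕ) : List ℕ :=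
  Nat.rec tail (fun s ih => List.cons (Nat.add start s) ih) n

/-- `content + 5` of all boxes of `μ / κ` -/
def cl (k m : ℕ) : List ℕ :=
  Nat.rec List.nil (fun r ih => clRow (Nat.add (slot 7 k r) r)
    (Nat.sub (slot 7 m r) (slot 7 k r)) ih) 6

/-- product of the table values over the list -/
def pcL (g : ℕ) (L : List ℕ) : ℕ :=
  List.rec 1 (fun y _ ih => Nat.mod (Nat.mul ih (slot 8 g y)) 127) L

theorem pcL_lt (g : ℕ) (L : List ℕ) : pcL g L < 127 := by
  cases L with
  | nil => show 1 < 127; norm_num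
  | cons y L => exact Nat.mod_lt _ (by norm_num)

theorem cast_pcL (g : ℕ) (L : List ℕ) :
    ((pcL g L : ℕ) : ZMod 127) = (L.map (fun y => (slot 8 g y : ZMod 127))).prod := by
  induction L with
  | nil => show ((1 : ℕ) : ZMod 127) = _; simp
  | cons y L ih =>
    have h : pcL g (y :: L) = Nat.mod (Nat.mul (pcL g L) (slot 8 g y)) 127 := rfl
    rw [h, show ∀ u : ℕ, ((Nat.mod u 127 : ℕ) : ZMod 127) = (u : ZMod 127) from
      fun u => ZMod.natCast_mod u 127]
    show ((pcL g L * slot 8 g y : ℕ) : ZMod 127) = _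
    rw [Nat.cast_mul, ih, List.map_cons, List.prod_cons, mul_comm]

theorem clRow_map {M : Type*} [CommMonoid M] (f : ℕ → M) (start n : ℕ) (tail : List ℕ) :
    ((clRow start n tail).map f).prod
      = (∏ s ∈ Finset.range n, f (start + s)) * (tail.map f).prod := by
  induction n with
  | zero => simp [clRow]
  | succ n ih =>
    have h : clRow start (n + 1) tail = (start + n) :: clRow start n tail := rfl
    rw [h, List.map_cons, List.prod_cons, ih, Finset.prod_range_succ, ← mul_assoc,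
      mul_comm (f (start + n))]

theorem cl_map {M : Type*} [CommMonoid M] (f : ℕ → M) (k m : ℕ) :
    ((cl k m).map f).prod = ∏ r ∈ Finset.range 6,
      ∏ s ∈ Finset.range (slot 7 m r - slot 7 k r), f (slot 7 k r + r + s) := by
  have h : ∀ n : ℕ, ((Nat.rec List.nil (fun r ih => clRow (Nat.add (slot 7 k r) r)
      (Nat.sub (slot 7 m r) (slot 7 k r)) ih) n : List ℕ).map f).prod
      = ∏ r ∈ Finset.range n,
      ∏ s ∈ Finset.range (slot 7 m r - slot 7 k r), f (slot 7 k r + r + s) := by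
    intro n
    induction n with
    | zero => simp
    | succ n ih =>
      rw [Finset.prod_range_succ, ← ih, mul_comm]
      exact clRow_map f _ _ _
  exact h 6

/-- the scalar `psi` -/
theorem cast_pc {k m l : ℕ} (hl : Val l) (hm : ∀ i, sh7 m i ≤ 42) :
    ((pcL (gt l) (cl k m) : ℕ) : ZMod 127) = psi (ZMod 127) (sh7 l) (sh7 k) (sh7 m) := by
  rw [cast_pcL, cl_map]
  unfold psi
  set F : Fin 6 → ZMod 127 := fun i => ∏ s ∈ Finset.range (sh7 m i - sh7 k i),
    Gen.ge (ZMod 127) (sh7 l) (ct (sh7 k) i + s) with hF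
  have h1 : ∀ r : ℕ, (hr : r < 6) → ∏ s ∈ Finset.range (slot 7 m r - slot 7 k r),
      (slot 8 (gt l) (slot 7 k r + r + s) : ZMod 127) = F ⟨5 - r, by omega⟩ := by
    intro r hr
    have e1 : sh7 m ⟨5 - r, by omega⟩ = slot 7 m r := by
      show slot 7 m (5 - (5 - r)) = _; congr 1; omega
    have e2 : sh7 k ⟨5 - r, by omega⟩ = slot 7 k r := by
      show slot 7 k (5 - (5 - r)) = _; congr 1; omega
    rw [hF]
    simp only
    rw [e1, e2]
    refine Finset.prod_congr rfl (fun s hs => ?_)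
    rw [Finset.mem_range] at hs
    have h2 := hm ⟨5 - r, by omega⟩
    rw [e1] at h2
    rw [slot_gt l (by omega), cast_gv hl]
    congr 1
    unfold ct
    rw [e2]
    push_cast
    have : ((5 - r : ℕ) : ℤ) = 5 - (r : ℤ) := by omega
    rw [this]; ring
  rw [Fin.prod_univ_six]
  simp only [Finset.prod_range_succ, Finset.prod_range_zero, one_mul]
  have h10 := h1 0 (by norm_num)
  have h11 := h1 1 (by norm_num)
  have h12 := h1 2 (by norm_num)
  have h13 := h1 3 (by norm_num)
  have h14 := h1 4 (by norm_num)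
  have h15 := h1 5 (by norm_num)
  rw [h10, h11, h12, h13, h14, h15]
  show F 5 * F 4 * F 3 * F 2 * F 1 * F 0 = F 0 * F 1 * F 2 * F 3 * F 4 * F 5
  ring

theorem prod_flatMap {α β M : Type*} [CommMonoid M] (L : List α) (f : α → List β) (g : β → M) :
    ((L.flatMap f).map g).prod = (L.map (fun i => ((f i).map g).prod)).prod := by
  induction L with
  | nil => simp
  | cons a L ih =>
    rw [List.flatMap_cons, List.map_append, List.prod_append, ih, List.map_cons, List.prod_cons]

theorem prod_map_range {M : Type*} [CommMonoid M] (f : ℕ → M) (n : ℕ) :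
    ((List.range n).map f).prod = ∏ s ∈ Finset.range n, f s := by
  induction n with
  | zero => simp
  | succ n ih =>
    rw [List.range_succ, List.map_append, List.prod_append, ih, Finset.prod_range_succ]
    simp

theorem pc_eq_psi {K : Type*} [Field K] (lam κ' lam' : Sh) :
    pc K lam κ' lam' = psi K lam κ' lam' := by
  unfold pc psi conts
  rw [prod_flatMap, Fin.prod_univ_def]
  congr 1
  refine List.map_congr_left (fun i _ => ?_)
  rw [List.map_map, prod_map_range]
  refine Finset.prod_congr rfl (fun s _ => ?_)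
  show Gen.ge K lam (((κ' i + s : ℕ) : ℤ) - (i : ℕ)) = _
  congr 1
  unfold ct
  push_cast
  ring

end Crest.Agent.R187.SN.KKey
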