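import Crest.Agent.R187.SN.TDef
import Crest.Agent.R187.SN.KTab

/-!
# Row 187, PLAN S, block E2: the level step for the concrete tables
-/

set_option autoImplicit false

namespace Crest.Agent.R187.SN.Inst

open Crest.Agent.R187.SN Crest.Agent.R187.SN.Spec Crest.Agent.R187.SN.Kern
open Crest.Agent.R187.SN.KKey Crest.Agent.R187.SN.KD Crest.Agent.R187.SN.KE
open Crest.Agent.R187.SN.KRel Crest.Agent.R187.SN.KDec Crest.Agent.R187.SN.Img

/-- the accessor functions of the concrete tables -/
noncomputable def AC : Acc := ⟨ixF, vtF, nbF⟩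



/-- packed relation tables with global rows, `a ≤ 4` -/
noncomputable def ngF (a b : ℕ) : ℕ → ℕ := vtDec (totF a (b + 1)) (gNF a b)

theorem nbF_eq {a b : ℕ} (ha : a ≤ 4) (k : ℕ) (e : IE) :
    nbF a b k e = Nat.shiftRight (ngF a b k) (Nat.mul 24 (Nat.mul 33 (IE.off e))) := by
  interval_cases a <;> rfl

theorem slot_nbF_lt (a b k : ℕ) (e : IE) (n : ℕ) : slot 24 (nbF a b k e) n < 128 := by
  unfold nbF
  split
  · exact slot_nbDec_lt _ _ _ _
  · exact slot_ngBlk_lt _ _ _ _ _

theorem slot_vtF_lt (a b k n : ℕ) : slot 24 (vtF a b k) n < 128 := by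
  cases a with
  | zero => show slot 24 0 n < 128; rw [slot_zero]; norm_num
  | succ a => exact slot_vtDec_lt _ _ _ _


/-- one level step for the concrete tables -/
theorem rel_step {a b : ℕ} (ha : a ≤ 4) (hb : b ≤ 6)
    (hlen : (ixF a b).length + (ixF (a + 1) (b + 1)).length ≤ 1024)
    (hs : allL (suppb (ixF a (b + 1)) (vtF (a + 1) (b + 1))) (ixF (a + 1) (b + 1)) = true)
    (hc : allL (chkK (totF a (b + 1)) (a + 1) (ixF a b) (ixF a (b + 1)) (ixF (a + 1) (b + 1))
      (vtF (a + 1) b) (vtF (a + 1) (b + 1)) (ngF a b) (nbF (a + 1) b)) (ixF (a + 1) b) = true)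
    (h : RelAll T (MT a b) a b) : RelAll T (MT (a + 1) b) (a + 1) b := by
  refine relAll_step AC (a := a) (b := b) (tA := totF a b) (tot := totF a (b + 1))
    (tC := totF (a + 1) b) (tD := totF (a + 1) (b + 1)) (ng := ngF a b)
    (fun k e => nbF_eq ha k e) ?_ ?_ h
  · exact { hA := ixOK (by omega) (by omega)
            hB := ixOK (by omega) (by omega)
            hC := ixOK (by omega) (by omega)
            hD := ixOK (by omega) (by omega)
            h42 := by nlinarith
            hlen := hlen
            hv0 := fun x n => slot_vtF_lt (a + 1) b x n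
            hv1 := fun x n => slot_vtF_lt (a + 1) (b + 1) x n
            hng := fun x n => slot_vtDec_lt _ _ _ _
            hnb := fun x e n => slot_nbF_lt (a + 1) b x e n
            hsupp := (allL_iff _ _).1 hs }
  · exact (allL_iff _ _).1 hc

/-- level `0` -/
theorem rel_base {b : ℕ} (hb : b ≤ 6) : RelAll T (MT 0 b) 0 b := by
  have h : AC.nb 0 b 0 (IE.mk 0 1 0) = 1 := by
    interval_cases b <;> decide +kernel
  exact relAll_base AC (by show ixF 0 b = _; interval_cases b <;> rfl)
    (by show ixF 0 (b + 1) = _; interval_cases b <;> rfl) h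

end Crest.Agent.R187.SN.Inst
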