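import Mathlib
import Crest.Agent.R187.SN.Kern
import Crest.Agent.R187.SN.TopSem
import Crest.Agent.R187.SN.Block

-- ▼ part R187/SN/Rank
section

/-!
# Row 187, PLAN S, block E1: rank check of a list of packed rows

`rankChk p W k n L rows m` performs a left-looking elimination modulo `p = 2^k - 1` on the packed
rows (`n` slots of `W` bits, reduced: slots `< 2^k`), skipping dependent rows, until `m` pivots are
found.  No hints are needed: the pivot column is found by a binary search (`L` levels,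
`n ≤ 2^L`), the inverse of the pivot by a power; both are untrusted (the product is checked).

`rank_sound`: if the check succeeds, there are `m` rows which are linearly independent over
`ZMod p`.
-/

set_option autoImplicit false

namespace Crest.Agent.R187.SN.Rank

open Crest.Agent.R187.SN.Kern

/-- list of pivots: row, bit offset of the pivot slot; newest first -/
inductive PL : Type
  | nil : PL
  | cons (r off : ℕ) (t : PL) : PL

/-- eliminate `s` by the pivots (oldest first); `M = 2^W` -/
noncomputable def elim (p M s : ℕ) (P : PL) : ℕ :=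
  @PL.rec (fun _ => ℕ) s (fun r off _ ih =>
    Nat.add ih (Nat.mul (Nat.mod (Nat.mod (Nat.shiftRight ih off) M) p) r)) P

/-- `s`, tagged by the list of the remaining rows.  The kernel caches terms by a hash which sees
only the low 64 bits of a literal; the tag keeps the hashes of different rows apart. -/
def tg (_ : List ℕ) (s : ℕ) : ℕ := s

/-- two folds -/
noncomputable def red2 (k lo hi x : ℕ) : ℕ := fold k lo hi (fold k lo hi x)

/-- replace the slots `2^k - 1` by `0` (untrusted, used only for finding a pivot) -/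
noncomputable def canon (k lo one x : ℕ) : ℕ :=
  Nat.land (Nat.add x (Nat.land (Nat.shiftRight (Nat.add x one) k) one)) lo

/-- index of the lowest nonzero slot, `L` levels of binary search (untrusted) -/
noncomputable def find (W x L : ℕ) : ℕ :=
  @Nat.rec (fun _ => ℕ → ℕ) (fun j => j) (fun l ih j =>
    @Bool.rec (fun _ => ℕ) (ih j) (ih (Nat.add j (Nat.shiftLeft 1 l)))
      (Nat.beq (Nat.mod x (Nat.pow 2 (Nat.mul W (Nat.add j (Nat.shiftLeft 1 l))))) 0)) L 0

/-- candidate for the pivot column: `e` if this slot is nonzero, else the lowest nonzero slot -/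
noncomputable def pivj (W M L e x : ℕ) : ℕ :=
  @Bool.rec (fun _ => ℕ) e (find W x L)
    (Nat.beq (Nat.mod (Nat.shiftRight x (Nat.mul W e)) M) 0)

/-- use the row `r` with pivot slot `j`, entry `c`, inverse `i` -/
noncomputable def stepi (p W k lo hi m : ℕ) (ih : PL → ℕ → Bool) (P : PL) (cnt r j c i : ℕ) :
    Bool :=
  @Bool.rec (fun _ => Bool) (ih P cnt)
    (@Bool.rec (fun _ => Bool)
      (ih (PL.cons (red2 k lo hi (Nat.mul (Nat.sub p i) r)) (Nat.mul W j) P) (Nat.succ cnt))
      true (Nat.beq (Nat.succ cnt) m))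
    (Nat.beq (Nat.mod (Nat.mul c i) p) 1)

noncomputable def stepc (p W k lo hi m : ℕ) (ih : PL → ℕ → Bool) (P : PL) (cnt r j c : ℕ) :
    Bool :=
  stepi p W k lo hi m ih P cnt r j c (Nat.mod (Nat.pow c (Nat.sub p 2)) p)

noncomputable def stepj (p W k M lo hi m : ℕ) (ih : PL → ℕ → Bool) (P : PL) (cnt r j : ℕ) :
    Bool :=
  stepc p W k lo hi m ih P cnt r j (Nat.mod (Nat.shiftRight r (Nat.mul W j)) M)

noncomputable def step (p W k M lo hi one m L : ℕ) (ih : PL → ℕ → Bool) (P : PL) (cnt r : ℕ) :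
    Bool :=
  stepj p W k M lo hi m ih P cnt r (pivj W M L cnt (canon k lo one r))

noncomputable def go (p W k M lo hi one m L : ℕ) (rows : List ℕ) : PL → ℕ → Bool :=
  @List.rec ℕ (fun _ => PL → ℕ → Bool) (fun _ _ => false)
    (fun s tl ih P cnt =>
      step p W k M lo hi one m L ih P cnt (red k lo hi (elim p M (tg tl s) P))) rows

/-- the rank check: `m` pivots are found among the rows -/
noncomputable def rankChk (p W k n L : ℕ) (rows : List ℕ) (m : ℕ) : Bool :=
  go p W k (Nat.pow 2 W) (blk W n 1 n (Nat.sub (Nat.pow 2 k) 1))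
    (blk W n 1 n (Nat.sub (Nat.pow 2 (Nat.sub W k)) 1)) (blk W n 1 n 1) m L rows PL.nil 0

/-! ### soundness -/

section

variable {p W k n : ℕ}

/-- the vector of residues of a packed row -/
def vec (p W n x : ℕ) : Fin n → ZMod p := fun j => (slot W x j : ZMod p)

theorem vec_apply (x : ℕ) (j : Fin n) : vec p W n x j = (slot W x j : ZMod p) := rfl

theorem pos_of_fin (j : Fin n) : 0 < n := lt_of_le_of_lt (Nat.zero_le _) j.2

theorem in_blk (j : Fin n) : (j : ℕ) / n < 1 ∧ (j : ℕ) % n < n := by
  have h := pos_of_fin j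
  exact ⟨by rw [Nat.div_eq_of_lt j.2]; exact one_pos, Nat.mod_lt _ h⟩

theorem vec_red (hP : Par p W k) (x : ℕ) :
    vec p W n (red k (blk W n 1 n (2 ^ k - 1)) (blk W n 1 n (2 ^ (W - k) - 1)) x)
      = vec p W n x := by
  funext j
  exact cast_red hP (pos_of_fin j) le_rfl x _ (in_blk j)

theorem cast_f1 (hP : Par p W k) (c : ℕ) : ((f1 k c : ℕ) : ZMod p) = (c : ZMod p) := by
  refine (ZMod.natCast_eq_natCast_iff _ _ _).2 ?_
  rw [hP.hp]
  exact f1_mod k c

theorem slot_red2 (hP : Par p W k) (hn : 0 < n) (x i : ℕ) :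
    slot W (red2 k (blk W n 1 n (2 ^ k - 1)) (blk W n 1 n (2 ^ (W - k) - 1)) x) i
      = if i / n < 1 ∧ i % n < n then f1 k (f1 k (slot W x i)) else 0 := by
  rw [red2, slot_fold hP.hk0 hP.hk hn le_rfl, slot_fold hP.hk0 hP.hk hn le_rfl]
  split_ifs <;> rfl

theorem vec_red2 (hP : Par p W k) (x : ℕ) :
    vec p W n (red2 k (blk W n 1 n (2 ^ k - 1)) (blk W n 1 n (2 ^ (W - k) - 1)) x)
      = vec p W n x := by
  funext j
  rw [vec_apply, slot_red2 hP (pos_of_fin j), if_pos (in_blk j), cast_f1 hP, cast_f1 hP,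
    vec_apply]

theorem f1f1_lt {c : ℕ} (h : c ≤ (2 ^ k - 1) * (2 ^ k - 1)) : f1 k (f1 k c) < 2 ^ k := by
  have hp : 0 < 2 ^ k := by positivity
  obtain ⟨q, hq⟩ : ∃ q, 2 ^ k = q + 1 := ⟨2 ^ k - 1, by omega⟩
  rw [hq] at h
  simp only [Nat.add_sub_cancel] at h
  -- first fold
  have h1 : f1 k c < 2 * q ∨ f1 k c < 2 ^ k := by
    unfold f1
    have h2 : c % 2 ^ k ≤ q := by have := Nat.mod_lt c hp; omega
    rcases Nat.eq_zero_or_pos q with h0 | h0
    · right
      have : c = 0 := by rw [h0] at h; omega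
      rw [this]; simp
    · left
      have h3 : c / 2 ^ k < q := by
        rw [Nat.div_lt_iff_lt_mul hp, hq]
        nlinarith
      omega
  unfold f1
  rcases h1 with h1 | h1
  · rcases Nat.lt_or_ge (f1 k c) (2 ^ k) with h4 | h4
    · change f1 k c % 2 ^ k + f1 k c / 2 ^ k < 2 ^ k
      rw [Nat.mod_eq_of_lt h4, Nat.div_eq_of_lt h4]; omega
    · change f1 k c % 2 ^ k + f1 k c / 2 ^ k < 2 ^ k
      have h5 : f1 k c / 2 ^ k = 1 := Nat.div_eq_of_lt_le (by omega) (by omega)
      have h6 : f1 k c % 2 ^ k = f1 k c - 2 ^ k := by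
        rw [Nat.mod_eq_sub_mod h4, Nat.mod_eq_of_lt (by omega)]
      rw [h5, h6]; omega
  · change f1 k c % 2 ^ k + f1 k c / 2 ^ k < 2 ^ k
    rw [Nat.mod_eq_of_lt h1, Nat.div_eq_of_lt h1]; omega

namespace PL

def len : PL → ℕ
  | .nil => 0
  | .cons _ _ t => t.len + 1

def offs : PL → List ℕ
  | .nil => []
  | .cons _ o t => o :: t.offs

/-- the span of the pivot rows -/
noncomputable def sp (p W n : ℕ) : PL → Submodule (ZMod p) (Fin n → ZMod p)
  | .nil => ⊥
  | .cons r _ t => Submodule.span (ZMod p) {vec p W n r} ⊔ t.sp p W n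

def WF (p W k n : ℕ) : PL → Prop
  | .nil => True
  | .cons r off t => (∃ j : Fin n, off = W * (j : ℕ) ∧ vec p W n r j = -1) ∧
      (∀ j : Fin n, W * (j : ℕ) ∈ t.offs → vec p W n r j = 0) ∧
      (∀ i, slot W r i < 2 ^ k) ∧ t.WF p W k n

end PL

theorem elim_cons (M s r off : ℕ) (t : PL) :
    elim p M s (.cons r off t) = Nat.add (elim p M s t)
      (Nat.mul (Nat.mod (Nat.mod (Nat.shiftRight (elim p M s t) off) M) p) r) := rfl

theorem two_mul_pow (k : ℕ) : 2 ^ (2 * k) = 2 ^ k * 2 ^ k := by rw [← pow_add]; congr 1; omega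

theorem elim_spec (hP : Par p W k) (P : PL) (hwf : P.WF p W k n) (s : ℕ)
    (hs : ∀ i, slot W s i < 2 ^ k) (hb : 2 ^ k + P.len * 2 ^ (2 * k) ≤ 2 ^ W) :
    (∀ i, slot W (elim p (2 ^ W) s P) i + P.len < 2 ^ k + P.len * 2 ^ (2 * k) + 1) ∧
    vec p W n (elim p (2 ^ W) s P) - vec p W n s ∈ P.sp p W n ∧
    ∀ j : Fin n, W * (j : ℕ) ∈ P.offs → vec p W n (elim p (2 ^ W) s P) j = 0 := by
  have hW := hP.hW
  induction P with
  | nil =>
    refine ⟨fun i => ?_, ?_, fun j hj => ?_⟩
    · show slot W s i + 0 < 2 ^ k + 0 * 2 ^ (2 * k) + 1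
      have := hs i; omega
    · show vec p W n s - vec p W n s ∈ _
      rw [sub_self]; exact Submodule.zero_mem _
    · exact absurd hj (by simp [PL.offs])
  | cons r off t ih =>
    obtain ⟨⟨j, hj, hrj⟩, hr0, hrb, ht⟩ := hwf
    have hlen : (PL.cons r off t).len = t.len + 1 := rfl
    rw [hlen, add_mul, one_mul] at hb
    obtain ⟨ih1, ih2, ih3⟩ := ih ht (le_trans (Nat.add_le_add_left (Nat.le_add_right _ _) _) hb)
    set s' := elim p (2 ^ W) s t with hs'
    set c := slot W s' j % p with hc
    have hel : elim p (2 ^ W) s (.cons r off t) = Nat.add s' (Nat.mul c r) := by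
      rw [elim_cons, ← hs', hj]; rfl
    have hpk : p < 2 ^ k := by
      rw [hP.hp]; exact Nat.sub_lt (by positivity) one_pos
    have hp0 : 0 < p := by
      rw [hP.hp]
      have : 2 ^ 1 ≤ 2 ^ k := Nat.pow_le_pow_right (by norm_num) hP.hk0
      omega
    have hcp : c < p := Nat.mod_lt _ hp0
    have h2k := two_mul_pow k
    have hprod : ∀ i, c * slot W r i + 1 ≤ 2 ^ (2 * k) := by
      intro i
      have h1 := hrb i
      rw [h2k]
      obtain ⟨q, hq⟩ : ∃ q, 2 ^ k = q + 1 := ⟨2 ^ k - 1, by omega⟩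
      rw [hq] at h1 hpk ⊢
      have : c * slot W r i ≤ q * q := Nat.mul_le_mul (by omega) (by omega)
      nlinarith
    have hsm : ∀ i, slot W (Nat.mul c r) i = c * slot W r i := by
      intro i
      refine slot_smul hW (fun i => ?_)
      have := hprod i
      have h3 : 0 < 2 ^ k := by positivity
      omega
    have hadd : ∀ i, slot W (Nat.add s' (Nat.mul c r)) i = slot W s' i + c * slot W r i := by
      intro i
      rw [slot_add hW, hsm]
      intro i
      rw [hsm]
      have h1 := hprod i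
      have h2 := ih1 i
      omega
    have hvec : vec p W n (elim p (2 ^ W) s (.cons r off t))
        = vec p W n s' + (vec p W n s' j) • vec p W n r := by
      funext i
      rw [hel, vec_apply, hadd, Nat.cast_add, Nat.cast_mul, Pi.add_apply, Pi.smul_apply,
        smul_eq_mul, vec_apply, vec_apply, vec_apply, hc, ZMod.natCast_mod]
    refine ⟨fun i => ?_, ?_, fun i hi => ?_⟩
    · rw [hel, hadd, hlen, add_mul, one_mul]
      have h1 := hprod i
      have h2 := ih1 i
      omega
    · rw [hvec, add_sub_right_comm]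
      exact Submodule.add_mem _ (Submodule.mem_sup_right ih2)
        (Submodule.smul_mem _ _ (Submodule.mem_sup_left (Submodule.mem_span_singleton_self _)))
    · rw [hvec, Pi.add_apply, Pi.smul_apply, smul_eq_mul]
      rcases List.mem_cons.1 (show W * (i : ℕ) ∈ off :: t.offs from hi) with h | h
      · have hij : i = j := by
          apply Fin.ext
          rw [hj] at h
          exact Nat.eq_of_mul_eq_mul_left hW h
        rw [hij, hrj]; ring
      · rw [ih3 i h, hr0 i h]; ring

theorem eq_zero_of_mem_sp (P : PL) (hwf : P.WF p W k n) (x : Fin n → ZMod p)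
    (hx : x ∈ P.sp p W n) (h0 : ∀ j : Fin n, W * (j : ℕ) ∈ P.offs → x j = 0) : x = 0 := by
  induction P generalizing x with
  | nil => exact (Submodule.mem_bot _).1 hx
  | cons r off t ih =>
    obtain ⟨⟨j, hj, hrj⟩, hr0, hrb, ht⟩ := hwf
    obtain ⟨y, hy, z, hz, hyz⟩ := Submodule.mem_sup.1
      (show x ∈ Submodule.span (ZMod p) {vec p W n r} ⊔ t.sp p W n from hx)
    obtain ⟨a, rfl⟩ := Submodule.mem_span_singleton.1 hy
    have hz0 : z = 0 := by
      refine ih ht z hz (fun i hi => ?_)
      have h1 := h0 i (List.mem_cons_of_mem _ hi)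
      rw [← hyz, Pi.add_apply, Pi.smul_apply, hr0 i hi, smul_zero, zero_add] at h1
      exact h1
    rw [hz0, add_zero] at hyz
    have h2 := h0 j (by rw [← hj]; exact List.mem_cons_self)
    rw [← hyz, Pi.smul_apply, hrj, smul_eq_mul, mul_neg, mul_one, neg_eq_zero] at h2
    rw [← hyz, h2, zero_smul]

theorem len_le_finrank [Fact p.Prime] (P : PL) (hwf : P.WF p W k n) :
    P.len ≤ Module.finrank (ZMod p) (P.sp p W n) := by
  induction P with
  | nil => exact Nat.zero_le _
  | cons r off t ih =>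
    obtain ⟨⟨j, hj, hrj⟩, hr0, hrb, ht⟩ := hwf
    have h1 := ih ht
    have h2 : t.sp p W n < (PL.cons r off t).sp p W n := by
      refine lt_of_le_of_ne (show t.sp p W n ≤ Submodule.span (ZMod p) {vec p W n r} ⊔ t.sp p W n
        from le_sup_right) (fun h => ?_)
      have h3 : vec p W n r ∈ t.sp p W n := by
        rw [h]
        exact Submodule.mem_sup_left (Submodule.mem_span_singleton_self _)
      have h4 := eq_zero_of_mem_sp t ht _ h3 hr0
      rw [h4, Pi.zero_apply] at hrj
      exact one_ne_zero (neg_eq_zero.1 hrj.symm)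
    have h3 := Submodule.finrank_lt_finrank_of_lt h2
    show t.len + 1 ≤ _
    omega

theorem go_cons (p W k M lo hi one m L s : ℕ) (rows : List ℕ) (P : PL) (cnt : ℕ) :
    go p W k M lo hi one m L (s :: rows) P cnt
      = step p W k M lo hi one m L (go p W k M lo hi one m L rows) P cnt
          (red k lo hi (elim p M s P)) := rfl

/-- the new pivot row -/
theorem pivot_spec (hP : Par p W k) (hkW : 2 ^ (2 * k) ≤ 2 ^ W) {r j c i : ℕ}
    (hc : c = slot W r j) (hi : i < p) (hci : c * i % p = 1) (hr : Good W k n 1 n r) :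
    ∃ jn : Fin n, (jn : ℕ) = j ∧
      vec p W n (red2 k (blk W n 1 n (2 ^ k - 1)) (blk W n 1 n (2 ^ (W - k) - 1))
        (Nat.mul (Nat.sub p i) r)) = (-(i : ZMod p)) • vec p W n r ∧
      -(i : ZMod p) * vec p W n r jn = -1 ∧
      ∀ t, slot W (red2 k (blk W n 1 n (2 ^ k - 1)) (blk W n 1 n (2 ^ (W - k) - 1))
        (Nat.mul (Nat.sub p i) r)) t < 2 ^ k := by
  have hW := hP.hW
  have hk0 := hP.hk0
  have hp : p = 2 ^ k - 1 := hP.hp
  have h2k : 2 ^ 1 ≤ 2 ^ k := Nat.pow_le_pow_right (by norm_num) hk0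
  have hne : c ≠ 0 := by
    intro h
    rw [h, Nat.zero_mul, Nat.zero_mod] at hci
    exact absurd hci (by norm_num)
  have hn : 0 < n := by
    by_contra h
    have h0 : n = 0 := by omega
    have := (hr j).2 (by rw [h0]; simp)
    rw [← hc] at this
    exact hne this
  have hjn : j < n := by
    by_contra h
    have := (hr j).2 (by
      intro h1
      have h2 : 1 ≤ j / n := Nat.div_pos (by omega) hn
      omega)
    rw [← hc] at this
    exact hne this
  have hbd : ∀ t, Nat.sub p i * slot W r t ≤ (2 ^ k - 1) * (2 ^ k - 1) := by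
    intro t
    have h1 := (hr t).1
    refine Nat.mul_le_mul ?_ (by omega)
    show p - i ≤ _
    omega
  have hlt : (2 ^ k - 1) * (2 ^ k - 1) < 2 ^ W := by
    refine lt_of_lt_of_le ?_ hkW
    rw [two_mul_pow]
    exact Nat.mul_lt_mul'' (Nat.sub_lt (by positivity) one_pos)
      (Nat.sub_lt (by positivity) one_pos)
  have hsm : ∀ t, slot W (Nat.mul (Nat.sub p i) r) t = Nat.sub p i * slot W r t :=
    fun t => slot_smul hW (fun t => lt_of_le_of_lt (hbd t) hlt)
  refine ⟨⟨j, hjn⟩, rfl, ?_, ?_, fun t => ?_⟩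
  · rw [vec_red2 hP]
    funext t
    rw [vec_apply, hsm, Nat.cast_mul, Pi.smul_apply, smul_eq_mul, vec_apply]
    congr 1
    show ((p - i : ℕ) : ZMod p) = _
    rw [Nat.cast_sub hi.le, ZMod.natCast_self, zero_sub]
  · rw [vec_apply, ← hc, neg_mul, ← Nat.cast_mul]
    congr 1
    rw [mul_comm i c, ← ZMod.natCast_mod, hci, Nat.cast_one]
  · rw [slot_red2 hP hn, hsm]
    split_ifs
    · exact f1f1_lt (hbd t)
    · positivity

theorem vec_elim_mem {S : Submodule (ZMod p) (Fin n → ZMod p)} {P : PL} (hPS : P.sp p W n ≤ S)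
    {s s' : ℕ} (hs : vec p W n s ∈ S) (h : vec p W n s' - vec p W n s ∈ P.sp p W n) :
    vec p W n s' ∈ S := by
  have h1 := S.add_mem (hPS h) hs
  rwa [sub_add_cancel] at h1

theorem blk_zero (W m : ℕ) : blk W 0 1 0 m = 0 := by
  show m * (ones (W * 0) 1 * ((2 ^ (W * 0) - 1) / (2 ^ W - 1))) = 0
  rw [Nat.mul_zero, pow_zero, Nat.sub_self, Nat.zero_div, Nat.mul_zero, Nat.mul_zero]

theorem red_zero_mask (k x : ℕ) : red k 0 0 x = 0 := by
  have h : ∀ y, fold k 0 0 y = 0 := by
    intro y
    show (y &&& 0) + ((y >>> k) &&& 0) = 0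
    rw [Nat.and_zero, Nat.and_zero]
  rw [red, h]

theorem go_spec [Fact p.Prime] (hP : Par p W k) {m : ℕ} (hb : 2 ^ k + m * 2 ^ (2 * k) ≤ 2 ^ W)
    (S : Submodule (ZMod p) (Fin n → ZMod p)) (one L : ℕ) (rows : List ℕ)
    (hrows : ∀ x ∈ rows, (∀ i, slot W x i < 2 ^ k) ∧ vec p W n x ∈ S) :
    ∀ (P : PL) (cnt : ℕ), P.WF p W k n → P.sp p W n ≤ S → cnt = P.len → cnt < m →
      go p W k (2 ^ W) (blk W n 1 n (2 ^ k - 1)) (blk W n 1 n (2 ^ (W - k) - 1)) one m L rows P cnt
        = true → m ≤ Module.finrank (ZMod p) S := by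
  have hp0 : 0 < p := (Fact.out : p.Prime).pos
  induction rows with
  | nil =>
    intro P cnt _ _ _ _ h
    exact absurd (show false = true from h) (by simp)
  | cons s rows ih =>
    intro P cnt hwf hPS hcnt hm h
    have ih' := ih (fun x hx => hrows x (List.mem_cons_of_mem _ hx))
    obtain ⟨hs1, hs2⟩ := hrows s List.mem_cons_self
    rw [go_cons, step, stepj, stepc] at h
    set r := red k (blk W n 1 n (2 ^ k - 1)) (blk W n 1 n (2 ^ (W - k) - 1))
      (elim p (2 ^ W) s P) with hr
    set j := pivj W (2 ^ W) L cnt (canon k (blk W n 1 n (2 ^ k - 1)) one r) with hj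
    have hbP : 2 ^ k + P.len * 2 ^ (2 * k) ≤ 2 ^ W :=
      le_trans (Nat.add_le_add_left (Nat.mul_le_mul_right _ (by omega)) _) hb
    obtain ⟨_, he2, he3⟩ := elim_spec hP P hwf s hs1 hbP
    have hvr : vec p W n r = vec p W n (elim p (2 ^ W) s P) := vec_red hP _
    have hrS : vec p W n r ∈ S := by rw [hvr]; exact vec_elim_mem hPS hs2 he2
    unfold stepi at h
    generalize hi : Nat.mod (Nat.pow (Nat.mod (Nat.shiftRight r (Nat.mul W j)) (2 ^ W))
      (Nat.sub p 2)) p = i at h
    have hip : i < p := by rw [← hi]; exact Nat.mod_lt _ hp0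
    cases hq : Nat.beq (Nat.mod (Nat.mul (Nat.mod (Nat.shiftRight r (Nat.mul W j)) (2 ^ W)) i) p) 1
      with
    | false =>
      rw [hq] at h
      exact ih' P cnt hwf hPS hcnt hm h
    | true =>
      rw [hq] at h
      have hci := Nat.eq_of_beq_eq_true hq
      have hn : 0 < n ∨ n = 0 := by omega
      rcases hn with hn | hn
      swap
      · exfalso
        subst hn
        have h0 : r = 0 := by
          rw [hr, blk_zero, blk_zero]
          exact red_zero_mask _ _
        rw [h0] at hci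
        have h1 : Nat.mod (Nat.shiftRight 0 (Nat.mul W j)) (2 ^ W) = 0 := by
          show (0 >>> (W * j)) % 2 ^ W = 0
          rw [Nat.zero_shiftRight, Nat.zero_mod]
        rw [h1] at hci
        have h2 : Nat.mod (Nat.mul 0 i) p = 0 := by
          show (0 * i) % p = 0
          rw [Nat.zero_mul, Nat.zero_mod]
        rw [h2] at hci
        exact absurd hci (by norm_num)
      have hgood : Good W k n 1 n r := good_red hP hn le_rfl _
      have hkW : 2 ^ (2 * k) ≤ 2 ^ W := by
        refine le_trans (Nat.le_mul_of_pos_left _ (show 0 < m by omega)) ?_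
        exact le_trans (Nat.le_add_left _ _) hb
      obtain ⟨jn, hjn, hv, hv1, hv2⟩ := pivot_spec hP hkW (c := slot W r j) rfl hip hci hgood
      set r' := red2 k (blk W n 1 n (2 ^ k - 1)) (blk W n 1 n (2 ^ (W - k) - 1))
        (Nat.mul (Nat.sub p i) r) with hr'
      have hwf' : (PL.cons r' (Nat.mul W j) P).WF p W k n := by
        refine ⟨⟨jn, ?_, ?_⟩, fun t ht => ?_, hv2, hwf⟩
        · rw [hjn]; rfl
        · rw [hv, Pi.smul_apply, smul_eq_mul, hv1]
        · rw [hv, Pi.smul_apply, hvr, he3 t ht, smul_zero]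
      have hPS' : (PL.cons r' (Nat.mul W j) P).sp p W n ≤ S := by
        refine sup_le ?_ hPS
        rw [Submodule.span_singleton_le_iff_mem, hv]
        exact S.smul_mem _ hrS
      have hlen : (PL.cons r' (Nat.mul W j) P).len = P.len + 1 := rfl
      have hfin := len_le_finrank _ hwf'
      have hfin2 := Submodule.finrank_mono hPS'
      cases hq2 : Nat.beq (Nat.succ cnt) m with
      | true =>
        have := Nat.eq_of_beq_eq_true hq2
        omega
      | false =>
        rw [hq2] at h
        have hne : Nat.succ cnt ≠ m := by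
          intro h3
          rw [h3, Nat.beq_refl] at hq2
          exact absurd hq2 (by simp)
        refine ih' _ (Nat.succ cnt) hwf' hPS' ?_ (by omega) h
        rw [hlen, hcnt]

/-- **Soundness of the rank check**: the span of the rows has dimension at least `m`. -/
theorem rank_finrank [Fact p.Prime] (hP : Par p W k) {m L : ℕ}
    (hb : 2 ^ k + m * 2 ^ (2 * k) ≤ 2 ^ W) (rows : List ℕ)
    (hrows : ∀ x ∈ rows, ∀ i, slot W x i < 2 ^ k)
    (h : rankChk p W k n L rows m = true) :
    m ≤ Module.finrank (ZMod p)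
      (Submodule.span (ZMod p) {v : Fin n → ZMod p | ∃ x ∈ rows, v = vec p W n x}) := by
  rcases Nat.eq_zero_or_pos m with hm | hm
  · rw [hm]; exact Nat.zero_le _
  · exact go_spec hP hb _ _ L rows
      (fun x hx => ⟨hrows x hx, Submodule.subset_span ⟨x, hx, rfl⟩⟩) PL.nil 0 trivial
      bot_le rfl hm h




end

end Crest.Agent.R187.SN.Rank
private theorem rz_edd71d7101 : type_of% @_root_.Crest.Agent.R187.SN.Rank.PL.offs.eq_def := @_root_.Crest.Agent.R187.SN.Rank.PL.offs.eq_def -- L163
private theorem rz_73b99b57d2 : type_of% @_root_.Crest.Agent.R187.SN.Rank.PL.offs.eq_1 := @_root_.Crest.Agent.R187.SN.Rank.PL.offs.eq_1 -- L163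
end

-- ▼ part R187/SN/DFin
section

/-!
# Row 187, PLAN S: the spaces `Spec.D K a b lam` are finite-dimensional
-/

set_option autoImplicit false

namespace Crest.Agent.R187.SN.DFin

open Crest.Agent.R187.SN Crest.Agent.R187.SN.Spec

variable {K : Type*} [Field K]

/-- `Mop` as a linear map -/
def mopL (b a : ℕ) (κ lam : Sh) : (List Sh → K) →ₗ[K] (List Sh → K) where
  toFun x := Mop K b a κ lam x
  map_add' x y := Top.Mop_add b a κ lam x y
  map_smul' c x := Top.Mop_smul b a κ lam c x

@[simp] theorem mopL_apply (b a : ℕ) (κ lam : Sh) (x : List Sh → K) :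
    mopL b a κ lam x = Mop K b a κ lam x := rfl

theorem mem_below {κ lam : Sh} {m : ℕ} (h : HS κ lam m) : κ ∈ below lam := by
  unfold below
  rw [Fintype.mem_piFinset]
  intro i
  rw [Finset.mem_range]
  have := h.1 i
  omega

theorem D_le (a b : ℕ) (lam : Sh) :
    D K a (b + 1) lam ≤ (below lam).sup (fun κ => (D K a b κ).map (mopL (b + 1) a κ lam)) := by
  show Submodule.span K _ ≤ _
  rw [Submodule.span_le]
  rintro y ⟨κ, hκ, x, hx, rfl⟩
  have h1 : (D K a b κ).map (mopL (b + 1) a κ lam)
      ≤ (below lam).sup (fun κ => (D K a b κ).map (mopL (b + 1) a κ lam)) :=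
    Finset.le_sup (f := fun κ => (D K a b κ).map (mopL (b + 1) a κ lam)) (mem_below hκ)
  exact h1 ⟨x, hx, rfl⟩

/-- the spaces `D` are finite-dimensional -/
theorem D_finite (a : ℕ) : ∀ (b : ℕ) (lam : Sh), Module.Finite K (D K a b lam) := by
  intro b
  induction b with
  | zero =>
    intro lam
    by_cases h : lam = 0
    · have h1 : D K a 0 lam = Submodule.span K {x0 K a} := by
        show (if lam = 0 then Submodule.span K {x0 K a} else ⊥) = _
        rw [if_pos h]
      rw [h1]
      exact Module.Finite.span_singleton K _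
    · have h1 : D K a 0 lam = ⊥ := by
        show (if lam = 0 then Submodule.span K {x0 K a} else ⊥) = _
        rw [if_neg h]
      rw [h1]
      infer_instance
  | succ b ih =>
    intro lam
    have h1 : ∀ κ, Module.Finite K ((D K a b κ).map (mopL (b + 1) a κ lam)) := by
      intro κ
      have := ih κ
      infer_instance
    have h2 : FiniteDimensional K
        ((below lam).sup (fun κ => (D K a b κ).map (mopL (b + 1) a κ lam)) :
          Submodule K (List Sh → K)) :=
      Submodule.finiteDimensional_finset_sup _ _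
    exact Submodule.finiteDimensional_of_le (D_le a b lam)

end Crest.Agent.R187.SN.DFin
end

-- ▼ part R187/SN/Top

/-!
# Row 187, PLAN S, block E5: the check of one record of the top level and its soundness

`chkRec R = true`, together with the properties of the tables used, gives
`R.m ≤ finrank (ZMod 127) (Spec.D (ZMod 127) 6 7 (shp R.key))`.
-/

set_option autoImplicit false

namespace Crest.Agent.R187.SN.Top

open Crest.Agent.R187.SN Crest.Agent.R187.SN.Spec Crest.Agent.R187.SN.Gen
open Crest.Agent.R187.SN.Kern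

attribute [local irreducible] mkT

/-! ### kernel functions -/

/-- evaluate `n` before it is used -/
noncomputable def force {α : Type} (n : ℕ) (f : ℕ → α) : α :=
  Nat.rec (motive := fun _ => α) (f 0) (fun m _ => f (Nat.succ m)) n

lemma force_eq {α : Type} (n : ℕ) (f : ℕ → α) : force n f = f n := by cases n <;> rfl

/-- `buildQ` with evaluated tables, continuation passing -/
noncomputable def buildF (Q : List (ℕ × ℕ)) : (List (ℕ × ℕ) → Bool) → Bool :=
  List.rec (motive := fun _ => (List (ℕ × ℕ) → Bool) → Bool) (fun c => c [])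
    (fun e _ ih c => Prod.rec (motive := fun _ => Bool)
      (fun w key => force (mkT key) (fun T => ih (fun L => c ((w, T) :: L)))) e) Q

lemma buildF_eq (Q : List (ℕ × ℕ)) : ∀ (c : List (ℕ × ℕ) → Bool), buildF Q c = c (buildQ Q) := by
  induction Q with
  | nil => intro c; rfl
  | cons e Q ih =>
    intro c
    obtain ⟨w, key⟩ := e
    show force (mkT key) (fun T => buildF Q (fun L => c ((w, T) :: L))) = _
    rw [force_eq, ih]
    rfl

/-- quadrature check with given tables -/
noncomputable def quadF (kk kl a : ℕ) (Q QT : List (ℕ × ℕ)) : Bool :=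
  andB (antiChk kk) (andB (hsChk kk kl a) (andB (allHS kk a Q) (andB (Nat.ble (dg0 kk + a) 42)
    (dfs (Nat.mul 8 (Nat.add (dg0 kk) 5)) (rowsOf kk kl) a QT true))))

lemma quadF_eq (kk kl a : ℕ) (Q : List (ℕ × ℕ)) : quadF kk kl a Q (buildQ Q) = quadChk kk kl a Q :=
  rfl

/-- all blocks of a source -/
noncomputable def blocksF (Q : List (ℕ × ℕ)) (n : ℕ) (V : VE) (cols : List WT) :
    (List (ℕ × ℕ) → Bool) → Bool :=
  List.rec (motive := fun _ => (List (ℕ × ℕ) → Bool) → Bool) (fun c => c [])
    (fun w _ ih c => WT.rec (motive := fun _ => Bool)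
      (fun _ nw We => force (blkN Q n nw V We) (fun B => ih (fun L => c ((B, nw) :: L)))) w) cols

/-- the list of the blocks -/
noncomputable def blocksL (Q : List (ℕ × ℕ)) (n : ℕ) (V : VE) (cols : List WT) : List (ℕ × ℕ) :=
  cols.map (fun w => (blkN Q n w.n V w.ent, w.n))

lemma blocksF_eq (Q : List (ℕ × ℕ)) (n : ℕ) (V : VE) (cols : List WT) :
    ∀ (c : List (ℕ × ℕ) → Bool), blocksF Q n V cols c = c (blocksL Q n V cols) := by
  induction cols with
  | nil => intro c; rfl
  | cons w cols ih =>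
    intro c
    obtain ⟨k, nw, We⟩ := w
    show force (blkN Q n nw V We) (fun B => blocksF Q n V cols (fun L => c ((B, nw) :: L))) = _
    rw [force_eq, ih]
    rfl

/-- one row of the matrix: the blocks side by side; `sh = 24 * 33 * r` -/
noncomputable def rowR (sh : ℕ) (L : List (ℕ × ℕ)) : ℕ :=
  List.rec (motive := fun _ => ℕ) 0 (fun e _ ih => Prod.rec (motive := fun _ => ℕ)
    (fun B nw => Nat.add (Nat.mod (Nat.shiftRight B sh) (Nat.pow 2 (Nat.mul 24 nw)))
      (Nat.shiftLeft ih (Nat.mul 24 nw))) e) L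

/-- rows `0, …, n-1`, continuation passing -/
noncomputable def rowsF (L : List (ℕ × ℕ)) (n : ℕ) : List ℕ → (List ℕ → Bool) → Bool :=
  Nat.rec (motive := fun _ => List ℕ → (List ℕ → Bool) → Bool) (fun acc c => c acc)
    (fun i ih acc c => force (rowR (Nat.mul 24 (Nat.mul 33 i)) L) (fun x => ih (x :: acc) c)) n

/-- the rows -/
noncomputable def rowsL (L : List (ℕ × ℕ)) (n : ℕ) (acc : List ℕ) : List ℕ :=
  (List.range n).map (fun i => rowR (Nat.mul 24 (Nat.mul 33 i)) L) ++ acc

lemma rowsF_eq (L : List (ℕ × ℕ)) (n : ℕ) : ∀ (acc : List ℕ) (c : List ℕ → Bool),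
    rowsF L n acc c = c (rowsL L n acc) := by
  induction n with
  | zero => intro acc c; rfl
  | succ i ih =>
    intro acc c
    show force (rowR (Nat.mul 24 (Nat.mul 33 i)) L) (fun x => rowsF L i (x :: acc) c) = _
    rw [force_eq, ih]
    congr 1
    unfold rowsL
    rw [List.range_succ, List.map_append, List.append_assoc]
    rfl

/-- all sources -/
noncomputable def srcF (kl : ℕ) (cols : List WT) (fin : List ℕ → Bool) (src : List Src) :
    List ℕ → Bool :=
  List.rec (motive := fun _ => List ℕ → Bool) fin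
    (fun s _ ih acc => Src.rec (motive := fun _ => Bool)
      (fun tab quad => VT.rec (motive := fun _ => Bool)
        (fun kk n V => buildF quad (fun Q => andB (quadF kk kl 6 quad Q)
          (blocksF Q n V cols (fun L => rowsF L n acc ih)))) tab) s) src

/-- all columns are horizontal strips below `λ` -/
noncomputable def colsHS (kl : ℕ) (cols : List WT) : Bool :=
  List.rec (motive := fun _ => Bool) true (fun w _ ih => andB (hsChk (WT.key w) kl 7) ih) cols

/-- number of columns -/
noncomputable def ncols (cols : List WT) : ℕ :=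
  List.rec (motive := fun _ => ℕ) 0 (fun w _ ih => Nat.add (WT.n w) ih) cols

/-- **the check of one record** -/
noncomputable def chkRec (R : Rec) : Bool :=
  Rec.rec (motive := fun _ => Bool)
    (fun key m src cols => andB (Nat.ble m 1000) (andB (colsHS key cols)
      (srcF key cols (fun rows => Rank.rankChk 127 24 7 (ncols cols) 9 rows m) src []))) R

/-! ### slots of a row -/

lemma rowR_cons (sh B nw : ℕ) (L : List (ℕ × ℕ)) : rowR sh ((B, nw) :: L)
    = Nat.add (Nat.mod (Nat.shiftRight B sh) (Nat.pow 2 (Nat.mul 24 nw)))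
      (Nat.shiftLeft (rowR sh L) (Nat.mul 24 nw)) := rfl

lemma slot_rowR_cons (r B nw : ℕ) (L : List (ℕ × ℕ)) (j : ℕ) :
    slot 24 (rowR (Nat.mul 24 (Nat.mul 33 r)) ((B, nw) :: L)) j
      = if j < nw then slot 24 B (33 * r + j)
        else slot 24 (rowR (Nat.mul 24 (Nat.mul 33 r)) L) (j - nw) := by
  have h1 : ∀ j, slot 24 (Nat.mod (Nat.shiftRight B (Nat.mul 24 (Nat.mul 33 r)))
      (Nat.pow 2 (Nat.mul 24 nw))) j = if j < nw then slot 24 B (33 * r + j) else 0 := by
    intro j
    rw [slot_mod, slot_shr]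
    rfl
  have h2 : ∀ j, slot 24 (Nat.shiftLeft (rowR (Nat.mul 24 (Nat.mul 33 r)) L) (Nat.mul 24 nw)) j
      = if nw ≤ j then slot 24 (rowR (Nat.mul 24 (Nat.mul 33 r)) L) (j - nw) else 0 := by
    intro j
    rw [slot_shl (by norm_num)]
  rw [rowR_cons, slot_add (by norm_num), h1, h2]
  · by_cases h : j < nw
    · rw [if_pos h, if_neg (by omega), if_pos h, add_zero]
    · rw [if_neg h, if_pos (by omega), if_neg h, zero_add]
  · intro j
    rw [h1, h2]
    by_cases h : j < nw
    · rw [if_pos h, if_neg (by omega), add_zero]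
      exact slot_lt _ _ _
    · rw [if_neg h, if_pos (by omega), zero_add]
      exact slot_lt _ _ _

/-! ### the meaning of the rows -/

section

variable {mm : Sh → ℕ} {v : Sh → ℕ → List Sh → ZMod 127} {pat : Sh → ℕ → List Sh}

/-- the evaluation point of column `j` -/
noncomputable def evalPt (pat : Sh → ℕ → List Sh) : List WT → ℕ → List Sh
  | [], _ => []
  | w :: t, j => if j < w.n then shp w.key :: pat (shp w.key) j else evalPt pat t (j - w.n)

lemma blkN_lt (Q : List (ℕ × ℕ)) {n c : ℕ} (hc : c ≤ 33) (V : VE) (W : WE) (j : ℕ) :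
    slot 24 (blkN Q n c V W) j < 2 ^ 7 :=
  (good_red par127 (by norm_num) hc _ j).1

lemma rowR_lt (Q : List (ℕ × ℕ)) (n r : ℕ) (V : VE) (cols : List WT) (hc : ∀ w ∈ cols, w.n ≤ 33) :
    ∀ j, slot 24 (rowR (Nat.mul 24 (Nat.mul 33 r)) (blocksL Q n V cols)) j < 2 ^ 7 := by
  induction cols with
  | nil =>
    intro j
    show slot 24 0 j < 2 ^ 7
    rw [slot_zero]
    norm_num
  | cons w cols ih =>
    intro j
    show slot 24 (rowR (Nat.mul 24 (Nat.mul 33 r))
      ((blkN Q n w.n V w.ent, w.n) :: blocksL Q n V cols)) j < 2 ^ 7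
    rw [slot_rowR_cons]
    split_ifs
    · exact blkN_lt Q (hc w List.mem_cons_self) _ _ _
    · exact ih (fun w' hw' => hc w' (List.mem_cons_of_mem _ hw')) _

lemma rowR_value {kk kl : ℕ} {Q : List (ℕ × ℕ)} (hq : quadChk kk kl 6 Q = true)
    {V : VT} (hV : V.Good) (cols : List WT) (hcols : ∀ w ∈ cols, w.Good mm ∧ HasW v mm 7 pat w)
    (hHS : ∀ w ∈ cols, HS (shp w.key) (shp kl) 7)
    {r : ℕ} (hr : r < V.n) (x : List Sh → ZMod 127)
    (hx : ∀ κ' m, x (κ' :: m) = ∑ l ∈ Finset.range (mm κ'), en (vget V.ent κ') r l * v κ' l m) :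
    ∀ j < ncols cols, Mop (ZMod 127) 7 6 (shp kk) (shp kl) x (evalPt pat cols j)
      = ((slot 24 (rowR (Nat.mul 24 (Nat.mul 33 r)) (blocksL (buildQ Q) V.n V.ent cols)) j : ℕ)
        : ZMod 127) := by
  induction cols with
  | nil => intro j hj; exact absurd hj (Nat.not_lt_zero _)
  | cons w cols ih =>
    intro j hj
    show _ = ((slot 24 (rowR (Nat.mul 24 (Nat.mul 33 r))
      ((blkN (buildQ Q) V.n w.n V.ent w.ent, w.n) :: blocksL (buildQ Q) V.n V.ent cols)) j : ℕ)
        : ZMod 127)
    rw [slot_rowR_cons]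
    obtain ⟨hw1, hw2⟩ := hcols w List.mem_cons_self
    by_cases h : j < w.n
    · rw [if_pos h]
      show Mop (ZMod 127) 7 6 (shp kk) (shp kl) x
        (if j < w.n then shp w.key :: pat (shp w.key) j else evalPt pat cols (j - w.n)) = _
      rw [if_pos h]
      exact mop_value hq hV hw1 hw2 V.n hr h x hx (hHS w List.mem_cons_self)
    · rw [if_neg h]
      show Mop (ZMod 127) 7 6 (shp kk) (shp kl) x
        (if j < w.n then shp w.key :: pat (shp w.key) j else evalPt pat cols (j - w.n)) = _
      rw [if_neg h]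
      refine ih (fun w' hw' => hcols w' (List.mem_cons_of_mem _ hw'))
        (fun w' hw' => hHS w' (List.mem_cons_of_mem _ hw')) _ ?_
      have h1 : ncols (w :: cols) = w.n + ncols cols := rfl
      omega

end

/-! ### unwinding the check -/

lemma srcF_sound {kl : ℕ} {cols : List WT} {fin : List ℕ → Bool} (src : List Src) :
    ∀ acc, srcF kl cols fin src acc = true →
      (∀ s ∈ src, quadChk s.tab.key kl 6 s.quad = true) ∧
      ∃ rows, fin rows = true ∧ ∀ x ∈ rows, x ∈ acc ∨ ∃ s ∈ src, ∃ r < s.tab.n,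
        x = rowR (Nat.mul 24 (Nat.mul 33 r))
          (blocksL (buildQ s.quad) s.tab.n s.tab.ent cols) := by
  induction src with
  | nil =>
    intro acc h
    refine ⟨fun s hs => by simp at hs, acc, h, fun x hx => Or.inl hx⟩
  | cons s src ih =>
    intro acc h
    obtain ⟨⟨kk, n, V⟩, quad⟩ := s
    have h1 : srcF kl cols fin (⟨⟨kk, n, V⟩, quad⟩ :: src) acc
        = buildF quad (fun Q => andB (quadF kk kl 6 quad Q)
          (blocksF Q n V cols (fun L => rowsF L n acc (srcF kl cols fin src)))) := rfl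
    rw [h1, buildF_eq, quadF_eq, andB_eq, blocksF_eq, rowsF_eq] at h
    obtain ⟨h2, h3⟩ := h
    obtain ⟨h4, rows, h5, h6⟩ := ih _ h3
    refine ⟨?_, rows, h5, ?_⟩
    · intro s hs
      rcases List.mem_cons.1 hs with rfl | hs
      · exact h2
      · exact h4 s hs
    · intro x hx
      rcases h6 x hx with h7 | ⟨s, hs, r, hr, h7⟩
      · unfold rowsL at h7
        rcases List.mem_append.1 h7 with h8 | h8
        · rw [List.mem_map] at h8
          obtain ⟨i, hi, rfl⟩ := h8
          exact Or.inr ⟨_, List.mem_cons_self, i, List.mem_range.1 hi, rfl⟩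
        · exact Or.inl h8
      · exact Or.inr ⟨s, List.mem_cons_of_mem _ hs, r, hr, h7⟩

lemma colsHS_sound {kl : ℕ} {cols : List WT} (h : colsHS kl cols = true) :
    ∀ w ∈ cols, HS (shp w.key) (shp kl) 7 := by
  induction cols with
  | nil => intro w hw; simp at hw
  | cons w0 cols ih =>
    have h1 : colsHS kl (w0 :: cols) = andB (hsChk w0.key kl 7) (colsHS kl cols) := rfl
    rw [h1, andB_eq] at h
    intro w hw
    rcases List.mem_cons.1 hw with rfl | hw
    · exact hsChk_sound h.1
    · exact ih h.2 w hw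

/-! ### the rank step -/

lemma finrank_of_rank {n m L : ℕ} (hm : m ≤ 1000) (rows : List ℕ)
    (hrows : ∀ x ∈ rows, ∀ i, slot 24 x i < 2 ^ 7)
    (h : Rank.rankChk 127 24 7 n L rows m = true) (b : ℕ) (lam : Sh) (φ : ℕ → List Sh)
    (hx : ∀ x ∈ rows, ∃ y ∈ Spec.D (ZMod 127) 6 b lam, ∀ j < n,
      y (φ j) = ((slot 24 x j : ℕ) : ZMod 127)) :
    m ≤ Module.finrank (ZMod 127) (Spec.D (ZMod 127) 6 b lam) := by
  have := DFin.D_finite (K := ZMod 127) 6 b lam
  have h1 := Rank.rank_finrank (p := 127) par127 (m := m) (by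
    calc 2 ^ 7 + m * 2 ^ (2 * 7) ≤ 2 ^ 7 + 1000 * 2 ^ (2 * 7) :=
          Nat.add_le_add_left (Nat.mul_le_mul_right _ hm) _
      _ ≤ 2 ^ 24 := by norm_num) rows hrows h
  refine h1.trans ?_
  let Φ : (List Sh → ZMod 127) →ₗ[ZMod 127] (Fin n → ZMod 127) :=
    LinearMap.pi (fun j => LinearMap.proj (φ j))
  have h2 : Submodule.span (ZMod 127)
      {u : Fin n → ZMod 127 | ∃ x ∈ rows, u = Rank.vec 127 24 n x}
      ≤ (Spec.D (ZMod 127) 6 b lam).map Φ := by
    rw [Submodule.span_le]
    rintro u ⟨x, hxr, rfl⟩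
    obtain ⟨y, hy, hj⟩ := hx x hxr
    refine ⟨y, hy, ?_⟩
    funext j
    exact hj j j.2
  exact (Submodule.finrank_mono h2).trans (Submodule.finrank_map_le Φ _)

/-! ### the theorem -/

/-- the property of all source tables, iterated conjunction -/
def AllSrc (P : VT → Prop) : List Src → Prop
  | [] => True
  | s :: t => P s.tab ∧ AllSrc P t

/-- the property of all column tables, iterated conjunction -/
def AllCol (P : WT → Prop) : List WT → Prop
  | [] => True
  | w :: t => P w ∧ AllCol P t

lemma AllSrc.mem {P : VT → Prop} {L : List Src} (h : AllSrc P L) : ∀ s ∈ L, P s.tab := by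
  induction L with
  | nil => intro s hs; simp at hs
  | cons s0 t ih =>
    intro s hs
    rcases List.mem_cons.1 hs with rfl | hs
    · exact h.1
    · exact ih h.2 s hs

lemma AllCol.mem {P : WT → Prop} {L : List WT} (h : AllCol P L) : ∀ w ∈ L, P w := by
  induction L with
  | nil => intro s hs; simp at hs
  | cons s0 t ih =>
    intro s hs
    rcases List.mem_cons.1 hs with rfl | hs
    · exact h.1
    · exact ih h.2 s hs

/-- **soundness of the records of the top level** (general form) -/
theorem chkRec_sound {mm : Sh → ℕ} {v : Sh → ℕ → List Sh → ZMod 127} {pat : Sh → ℕ → List Sh}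
    (R : Rec) (hV : AllSrc (fun t => t.Good ∧ HasV v mm 6 t) R.src)
    (hW : AllCol (fun w => w.Good mm ∧ HasW v mm 7 pat w) R.cols) (h : chkRec R = true) :
    R.m ≤ Module.finrank (ZMod 127) (Spec.D (ZMod 127) 6 7 (shp R.key)) := by
  obtain ⟨key, m, src, cols⟩ := R
  have h1 : chkRec ⟨key, m, src, cols⟩ = andB (Nat.ble m 1000) (andB (colsHS key cols)
      (srcF key cols (fun rows => Rank.rankChk 127 24 7 (ncols cols) 9 rows m) src [])) := rfl
  rw [h1, andB_eq, andB_eq, Nat.ble_eq] at h
  obtain ⟨hm, hc, hs⟩ := h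
  obtain ⟨hq, rows, hrk, hrows⟩ := srcF_sound src [] hs
  have hHS := colsHS_sound hc
  have hcol := AllCol.mem hW
  have hsrc := AllSrc.mem hV
  have hrows' : ∀ x ∈ rows, ∃ s ∈ src, ∃ r < s.tab.n,
        x = rowR (Nat.mul 24 (Nat.mul 33 r))
          (blocksL (buildQ s.quad) s.tab.n s.tab.ent cols) := by
    intro x hx
    rcases hrows x hx with h2 | h2
    · simp at h2
    · exact h2
  refine finrank_of_rank hm rows ?_ hrk 7 (shp key) (evalPt pat cols) ?_
  · intro x hx
    obtain ⟨s, _, r, _, rfl⟩ := hrows' x hx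
    exact rowR_lt _ _ _ _ _ (fun w hw => (hcol w hw).1.hn)
  · intro x hx
    obtain ⟨s, hs, r, hr, rfl⟩ := hrows' x hx
    obtain ⟨hVg, xs, hxs⟩ := hsrc s hs
    obtain ⟨hD, hxr⟩ := hxs r hr
    have hqs := hq s hs
    have hHSk : HS (shp s.tab.key) (shp key) 6 := by
      unfold quadChk at hqs
      rw [andB_eq, andB_eq] at hqs
      exact hsChk_sound hqs.2.1
    refine ⟨Mop (ZMod 127) 7 6 (shp s.tab.key) (shp key) (xs r), ?_, ?_⟩
    · exact Submodule.subset_span ⟨_, hHSk, _, hD, rfl⟩
    · exact rowR_value hqs hVg cols hcol hHS hr (xs r) hxr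

end Crest.Agent.R187.SN.Top
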