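import Crest.Agent.R187.SN.KRel
import Crest.Agent.R187.SN.KDec
import Crest.Agent.R187.SN.PivK
import Crest.Agent.R187.SN.KD.Low
import Crest.Agent.R187.SN.KD.L_5_5
import Crest.Agent.R187.SN.KD.L_5_6
import Crest.Agent.R187.SN.KE.B56_Mg
import Crest.Agent.R187.SN.KD.Piv7
import Crest.Agent.R187.SN.KE.Low
import Crest.Agent.R187.SN.KE.V55
import Crest.Agent.R187.SN.KE.V57_Mg
import Crest.Agent.R187.SN.KE.B55

/-!
# Row 187, PLAN S: THE CONCRETE FRAME TABLES `T` AND RELATION TABLES `MT` (mod 127)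

`ixF a b` : index list of level `(a, b)`, `totF a b` : number of frame vectors,
`gVF a b` : search tree of the (compressed) `V` tables, `gNF a b` (`a ≤ 4`), `bNF b` (`a = 5`):
relation tables, `tPF a` : pivots of level `(a, 7)`.
`T : Tab (ZMod 127)`, `MT a b : Sh → Sh → ℕ → ℕ → ZMod 127` (relations `(a, b) → (a, b+1)`),
`piv` : pivots of the levels `(a, 7)`.
-/

set_option autoImplicit false

namespace Crest.Agent.R187.SN.Inst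

open Crest.Agent.R187.SN Crest.Agent.R187.SN.Spec Crest.Agent.R187.SN.Kern
open Crest.Agent.R187.SN.KKey Crest.Agent.R187.SN.KD Crest.Agent.R187.SN.KE
open Crest.Agent.R187.SN.KRel Crest.Agent.R187.SN.KDec Crest.Agent.R187.SN.Img

/-- index list of the level `(a, b)` -/
noncomputable def ixF : ℕ → ℕ → List IE
  | 0, 0 => ix_0_0
  | 0, 1 => ix_0_1
  | 0, 2 => ix_0_2
  | 0, 3 => ix_0_3
  | 0, 4 => ix_0_4
  | 0, 5 => ix_0_5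
  | 0, 6 => ix_0_6
  | 0, 7 => ix_0_7
  | 1, 0 => ix_1_0
  | 1, 1 => ix_1_1
  | 1, 2 => ix_1_2
  | 1, 3 => ix_1_3
  | 1, 4 => ix_1_4
  | 1, 5 => ix_1_5
  | 1, 6 => ix_1_6
  | 1, 7 => ix_1_7
  | 2, 0 => ix_2_0
  | 2, 1 => ix_2_1
  | 2, 2 => ix_2_2
  | 2, 3 => ix_2_3
  | 2, 4 => ix_2_4
  | 2, 5 => ix_2_5
  | 2, 6 => ix_2_6
  | 2, 7 => ix_2_7
  | 3, 0 => ix_3_0
  | 3, 1 => ix_3_1
  | 3, 2 => ix_3_2
  | 3, 3 => ix_3_3
  | 3, 4 => ix_3_4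
  | 3, 5 => ix_3_5
  | 3, 6 => ix_3_6
  | 3, 7 => ix_3_7
  | 4, 0 => ix_4_0
  | 4, 1 => ix_4_1
  | 4, 2 => ix_4_2
  | 4, 3 => ix_4_3
  | 4, 4 => ix_4_4
  | 4, 5 => ix_4_5
  | 4, 6 => ix_4_6
  | 4, 7 => ix_4_7
  | 5, 0 => ix_5_0
  | 5, 1 => ix_5_1
  | 5, 2 => ix_5_2
  | 5, 3 => ix_5_3
  | 5, 4 => ix_5_4
  | 5, 5 => ix_5_5
  | 5, 6 => ix_5_6
  | 5, 7 => ix_5_7
  | _, _ => []

/-- number of frame vectors of the level `(a, b)` -/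
noncomputable def totF : ℕ → ℕ → ℕ
  | 0, 0 => 1
  | 0, 1 => 1
  | 0, 2 => 1
  | 0, 3 => 1
  | 0, 4 => 1
  | 0, 5 => 1
  | 0, 6 => 1
  | 0, 7 => 1
  | 1, 0 => 1
  | 1, 1 => 1
  | 1, 2 => 1
  | 1, 3 => 1
  | 1, 4 => 1
  | 1, 5 => 1
  | 1, 6 => 1
  | 1, 7 => 1
  | 2, 0 => 1
  | 2, 1 => 1
  | 2, 2 => 2
  | 2, 3 => 2
  | 2, 4 => 3
  | 2, 5 => 3
  | 2, 6 => 4
  | 2, 7 => 4
  | 3, 0 => 1
  | 3, 1 => 1
  | 3, 2 => 2
  | 3, 3 => 5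
  | 3, 4 => 9
  | 3, 5 => 13
  | 3, 6 => 20
  | 3, 7 => 28
  | 4, 0 => 1
  | 4, 1 => 1
  | 4, 2 => 3
  | 4, 3 => 9
  | 4, 4 => 33
  | 4, 5 => 74
  | 4, 6 => 163
  | 4, 7 => 319
  | 5, 0 => 1
  | 5, 1 => 1
  | 5, 2 => 3
  | 5, 3 => 13
  | 5, 4 => 74
  | 5, 5 => 548
  | 5, 6 => 1919
  | 5, 7 => 5793
  | _, _ => 0

/-- `V` tables of the level `(a, b)` -/
noncomputable def gVF : ℕ → ℕ → Tr
  | 1, 0 => gV_1_0
  | 1, 1 => gV_1_1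
  | 1, 2 => gV_1_2
  | 1, 3 => gV_1_3
  | 1, 4 => gV_1_4
  | 1, 5 => gV_1_5
  | 1, 6 => gV_1_6
  | 1, 7 => gV_1_7
  | 2, 0 => gV_2_0
  | 2, 1 => gV_2_1
  | 2, 2 => gV_2_2
  | 2, 3 => gV_2_3
  | 2, 4 => gV_2_4
  | 2, 5 => gV_2_5
  | 2, 6 => gV_2_6
  | 2, 7 => gV_2_7
  | 3, 0 => gV_3_0
  | 3, 1 => gV_3_1
  | 3, 2 => gV_3_2
  | 3, 3 => gV_3_3
  | 3, 4 => gV_3_4
  | 3, 5 => gV_3_5
  | 3, 6 => gV_3_6
  | 3, 7 => gV_3_7
  | 4, 0 => gV_4_0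
  | 4, 1 => gV_4_1
  | 4, 2 => gV_4_2
  | 4, 3 => gV_4_3
  | 4, 4 => gV_4_4
  | 4, 5 => gV_4_5
  | 4, 6 => gV_4_6
  | 4, 7 => gV_4_7
  | 5, 0 => gV_5_0
  | 5, 1 => gV_5_1
  | 5, 2 => gV_5_2
  | 5, 3 => gV_5_3
  | 5, 4 => gV_5_4
  | 5, 5 => gV_5_5
  | 5, 6 => gV_5_6
  | 5, 7 => gV_5_7
  | _, _ => .lf

/-- relation tables `(a, b) → (a, b+1)`, `a ≤ 4`, global rows -/
noncomputable def gNF : ℕ → ℕ → Tr
  | 0, 0 => gN_0_0
  | 0, 1 => gN_0_1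
  | 0, 2 => gN_0_2
  | 0, 3 => gN_0_3
  | 0, 4 => gN_0_4
  | 0, 5 => gN_0_5
  | 0, 6 => gN_0_6
  | 1, 0 => gN_1_0
  | 1, 1 => gN_1_1
  | 1, 2 => gN_1_2
  | 1, 3 => gN_1_3
  | 1, 4 => gN_1_4
  | 1, 5 => gN_1_5
  | 1, 6 => gN_1_6
  | 2, 0 => gN_2_0
  | 2, 1 => gN_2_1
  | 2, 2 => gN_2_2
  | 2, 3 => gN_2_3
  | 2, 4 => gN_2_4
  | 2, 5 => gN_2_5
  | 2, 6 => gN_2_6
  | 3, 0 => gN_3_0
  | 3, 1 => gN_3_1
  | 3, 2 => gN_3_2
  | 3, 3 => gN_3_3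
  | 3, 4 => gN_3_4
  | 3, 5 => gN_3_5
  | 3, 6 => gN_3_6
  | 4, 0 => gN_4_0
  | 4, 1 => gN_4_1
  | 4, 2 => gN_4_2
  | 4, 3 => gN_4_3
  | 4, 4 => gN_4_4
  | 4, 5 => gN_4_5
  | 4, 6 => gN_4_6
  | _, _ => .lf

/-- relation tables `(5, b) → (5, b+1)`, blocks -/
noncomputable def bNF : ℕ → NTr
  | 0 => bN_5_0
  | 1 => bN_5_1
  | 2 => bN_5_2
  | 3 => bN_5_3
  | 4 => bN_5_4
  | 5 => bN_5_5
  | 6 => bN_5_6
  | _ => .lf

/-- pivots of the level `(a, 7)` -/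
noncomputable def tPF : ℕ → PTr
  | 1 => tP_1_7
  | 2 => tP_2_7
  | 3 => tP_3_7
  | 4 => tP_4_7
  | 5 => tP_5_7
  | _ => .lf

/-- packed `V(λ)ᵀ` of the level `(a, b)`: row `off(λ') + j`, column `i` -/
noncomputable def vtF : ℕ → ℕ → ℕ → ℕ
  | 0, _ => fun _ => 0
  | a + 1, b => vtDec (totF a b) (gVF (a + 1) b)

/-- packed relation block `(κ, μ)` of `(a, b) → (a, b+1)`, transposed: row `q` (vector of `μ`),
column `i` (vector of `κ`) -/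
noncomputable def nbF : ℕ → ℕ → ℕ → IE → ℕ
  | 5, b => nbDec (bNF b)
  | a, b => ngBlk (totF a (b + 1)) (gNF a b)

/-- THE FRAME TABLES -/
noncomputable def T : Tab (ZMod 127) where
  m := fun a b lam => mOf (ixF a b) lam
  V := fun a b lam lam' i j =>
    if HS lam' lam b then
      ((slot 24 (vtF a b (kyo lam)) (33 * ((look (ixF (a - 1) b) (kyo lam')).off + j) + i) : ℕ) :
        ZMod 127)
    else 0

/-- THE RELATION TABLES `(a, b) → (a, b+1)` -/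
noncomputable def MT (a b : ℕ) (κ lam : Sh) (l j : ℕ) : ZMod 127 :=
  ((slot 24 (nbF a b (kyo κ) (look (ixF a (b + 1)) (kyo lam))) (33 * j + l) : ℕ) : ZMod 127)

/-- THE PIVOTS of the levels `(a, 7)` -/
noncomputable def piv : ℕ → Sh → ℕ → Sh × ℕ := PivK.pivF tPF

theorem T_m (a b : ℕ) (lam : Sh) : T.m a b lam = mOf (ixF a b) lam := rfl

theorem T_V (a b : ℕ) (lam lam' : Sh) (i j : ℕ) : T.V (a + 1) b lam lam' i j
    = if HS lam' lam b then ((slot 24 (vtF (a + 1) b (kyo lam))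
      (33 * ((look (ixF a b) (kyo lam')).off + j) + i) : ℕ) : ZMod 127) else 0 := rfl


theorem ixOK_0_0 : IxOK 0 1 ix_0_0 := ixOK_of_ixb (by decide +kernel)
theorem ixOK_0_1 : IxOK 0 1 ix_0_1 := ixOK_of_ixb (by decide +kernel)
theorem ixOK_0_2 : IxOK 0 1 ix_0_2 := ixOK_of_ixb (by decide +kernel)
theorem ixOK_0_3 : IxOK 0 1 ix_0_3 := ixOK_of_ixb (by decide +kernel)
theorem ixOK_0_4 : IxOK 0 1 ix_0_4 := ixOK_of_ixb (by decide +kernel)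
theorem ixOK_0_5 : IxOK 0 1 ix_0_5 := ixOK_of_ixb (by decide +kernel)
theorem ixOK_0_6 : IxOK 0 1 ix_0_6 := ixOK_of_ixb (by decide +kernel)
theorem ixOK_0_7 : IxOK 0 1 ix_0_7 := ixOK_of_ixb (by decide +kernel)
theorem ixOK_1_0 : IxOK 0 1 ix_1_0 := ixOK_of_ixb (by decide +kernel)
theorem ixOK_1_1 : IxOK 1 1 ix_1_1 := ixOK_of_ixb (by decide +kernel)
theorem ixOK_1_2 : IxOK 2 1 ix_1_2 := ixOK_of_ixb (by decide +kernel)
theorem ixOK_1_3 : IxOK 3 1 ix_1_3 := ixOK_of_ixb (by decide +kernel)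
theorem ixOK_1_4 : IxOK 4 1 ix_1_4 := ixOK_of_ixb (by decide +kernel)
theorem ixOK_1_5 : IxOK 5 1 ix_1_5 := ixOK_of_ixb (by decide +kernel)
theorem ixOK_1_6 : IxOK 6 1 ix_1_6 := ixOK_of_ixb (by decide +kernel)
theorem ixOK_1_7 : IxOK 7 1 ix_1_7 := ixOK_of_ixb (by decide +kernel)
theorem ixOK_2_0 : IxOK 0 1 ix_2_0 := ixOK_of_ixb (by decide +kernel)
theorem ixOK_2_1 : IxOK 2 1 ix_2_1 := ixOK_of_ixb (by decide +kernel)
theorem ixOK_2_2 : IxOK 4 2 ix_2_2 := ixOK_of_ixb (by decide +kernel)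
theorem ixOK_2_3 : IxOK 6 2 ix_2_3 := ixOK_of_ixb (by decide +kernel)
theorem ixOK_2_4 : IxOK 8 3 ix_2_4 := ixOK_of_ixb (by decide +kernel)
theorem ixOK_2_5 : IxOK 10 3 ix_2_5 := ixOK_of_ixb (by decide +kernel)
theorem ixOK_2_6 : IxOK 12 4 ix_2_6 := ixOK_of_ixb (by decide +kernel)
theorem ixOK_2_7 : IxOK 14 4 ix_2_7 := ixOK_of_ixb (by decide +kernel)
theorem ixOK_3_0 : IxOK 0 1 ix_3_0 := ixOK_of_ixb (by decide +kernel)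
theorem ixOK_3_1 : IxOK 3 1 ix_3_1 := ixOK_of_ixb (by decide +kernel)
theorem ixOK_3_2 : IxOK 6 2 ix_3_2 := ixOK_of_ixb (by decide +kernel)
theorem ixOK_3_3 : IxOK 9 5 ix_3_3 := ixOK_of_ixb (by decide +kernel)
theorem ixOK_3_4 : IxOK 12 9 ix_3_4 := ixOK_of_ixb (by decide +kernel)
theorem ixOK_3_5 : IxOK 15 13 ix_3_5 := ixOK_of_ixb (by decide +kernel)
theorem ixOK_3_6 : IxOK 18 20 ix_3_6 := ixOK_of_ixb (by decide +kernel)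
theorem ixOK_3_7 : IxOK 21 28 ix_3_7 := ixOK_of_ixb (by decide +kernel)
theorem ixOK_4_0 : IxOK 0 1 ix_4_0 := ixOK_of_ixb (by decide +kernel)
theorem ixOK_4_1 : IxOK 4 1 ix_4_1 := ixOK_of_ixb (by decide +kernel)
theorem ixOK_4_2 : IxOK 8 3 ix_4_2 := ixOK_of_ixb (by decide +kernel)
theorem ixOK_4_3 : IxOK 12 9 ix_4_3 := ixOK_of_ixb (by decide +kernel)
theorem ixOK_4_4 : IxOK 16 33 ix_4_4 := ixOK_of_ixb (by decide +kernel)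
theorem ixOK_4_5 : IxOK 20 74 ix_4_5 := ixOK_of_ixb (by decide +kernel)
theorem ixOK_4_6 : IxOK 24 163 ix_4_6 := ixOK_of_ixb (by decide +kernel)
theorem ixOK_4_7 : IxOK 28 319 ix_4_7 := ixOK_of_ixb (by decide +kernel)
theorem ixOK_5_0 : IxOK 0 1 ix_5_0 := ixOK_of_ixb (by decide +kernel)
theorem ixOK_5_1 : IxOK 5 1 ix_5_1 := ixOK_of_ixb (by decide +kernel)
theorem ixOK_5_2 : IxOK 10 3 ix_5_2 := ixOK_of_ixb (by decide +kernel)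
theorem ixOK_5_3 : IxOK 15 13 ix_5_3 := ixOK_of_ixb (by decide +kernel)
theorem ixOK_5_4 : IxOK 20 74 ix_5_4 := ixOK_of_ixb (by decide +kernel)
theorem ixOK_5_5 : IxOK 25 548 ix_5_5 := ixOK_of_ixb (by decide +kernel)
theorem ixOK_5_6 : IxOK 30 1919 ix_5_6 := ixOK_of_ixb (by decide +kernel)
theorem ixOK_5_7 : IxOK 35 5793 ix_5_7 := ixOK_of_ixb (by decide +kernel)

theorem ixOK {a b : ℕ} (ha : a ≤ 5) (hb : b ≤ 7) : IxOK (a * b) (totF a b) (ixF a b) := by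
  interval_cases a <;> interval_cases b
  · exact ixOK_0_0
  · exact ixOK_0_1
  · exact ixOK_0_2
  · exact ixOK_0_3
  · exact ixOK_0_4
  · exact ixOK_0_5
  · exact ixOK_0_6
  · exact ixOK_0_7
  · exact ixOK_1_0
  · exact ixOK_1_1
  · exact ixOK_1_2
  · exact ixOK_1_3
  · exact ixOK_1_4
  · exact ixOK_1_5
  · exact ixOK_1_6
  · exact ixOK_1_7
  · exact ixOK_2_0
  · exact ixOK_2_1
  · exact ixOK_2_2
  · exact ixOK_2_3
  · exact ixOK_2_4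
  · exact ixOK_2_5
  · exact ixOK_2_6
  · exact ixOK_2_7
  · exact ixOK_3_0
  · exact ixOK_3_1
  · exact ixOK_3_2
  · exact ixOK_3_3
  · exact ixOK_3_4
  · exact ixOK_3_5
  · exact ixOK_3_6
  · exact ixOK_3_7
  · exact ixOK_4_0
  · exact ixOK_4_1
  · exact ixOK_4_2
  · exact ixOK_4_3
  · exact ixOK_4_4
  · exact ixOK_4_5
  · exact ixOK_4_6
  · exact ixOK_4_7
  · exact ixOK_5_0
  · exact ixOK_5_1
  · exact ixOK_5_2
  · exact ixOK_5_3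
  · exact ixOK_5_4
  · exact ixOK_5_5
  · exact ixOK_5_6
  · exact ixOK_5_7

theorem m_zero (b : ℕ) (hb : b ≤ 7) (lam : Sh) : T.m 0 b lam = if lam = 0 then 1 else 0 := by
  have h0 : ixF 0 b = [IE.mk 0 1 0] := by interval_cases b <;> rfl
  rw [T_m, h0, mOf, look_cons, look_nil]
  have h1 : kyo (0 : Sh) = 0 := by
    rw [kyo_of (fun i => by norm_num), ky_eq]; rfl
  by_cases h : lam = 0
  · rw [if_pos h, h, h1]; rfl
  · rw [if_neg h]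
    have h2 : ¬ (0 = kyo lam) := by
      intro h3
      apply h
      have h4 : sh7 (kyo lam) = lam := sh7_kyo (by rw [← h3]; norm_num)
      rw [← h4, ← h3]
      funext i
      exact slot_zero 7 _
    rw [if_neg h2]

theorem m_zero_le (lam : Sh) : T.m 0 7 lam ≤ 1 := by
  rw [m_zero 7 le_rfl]; split_ifs <;> norm_num

end Crest.Agent.R187.SN.Inst
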